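import Mathlib

/-!
Quadratic chirp sums: their square moduli converge in mean square to a step function.
-/

noncomputable section

namespace Vale.Agent.P130

open MeasureTheory Filter Complex Finset
open scoped Topology Real ComplexConjugate

/-- The unit circle, written additively. -/
abbrev Circ : Type := UnitAddCircle

/-- Normalised Haar measure of the circle. -/
abbrev haar : Measure Circ := AddCircle.haarAddCircle

/-- `exp (2 π i t)`. -/
def ex (t : ℝ) : ℂ := fourier 1 (t : Circ)

theorem fourier_coe (n : ℤ) (t : ℝ) : fourier n (t : Circ) = ex (n * t) := by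
  simp only [ex, fourier_coe_apply]
  congr 1
  push_cast
  ring

theorem ex_eq (t : ℝ) : ex t = Complex.exp (2 * π * I * t) := by
  rw [ex, fourier_coe_apply]
  congr 1
  simp

theorem ex_add (s t : ℝ) : ex (s + t) = ex s * ex t := by
  simp only [ex_eq]; rw [← Complex.exp_add]; congr 1; push_cast; ring

theorem ex_neg (t : ℝ) : ex (-t) = conj (ex t) := by
  rw [ex, ex, ← fourier_neg]
  simp only [fourier_coe]
  congr 1
  push_cast
  ring

theorem norm_fourier_apply (n : ℤ) (x : Circ) : ‖fourier n x‖ = 1 := by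
  rw [fourier_apply]; exact Circle.norm_coe _

theorem norm_ex (t : ℝ) : ‖ex t‖ = 1 := norm_fourier_apply _ _

theorem integral_fourier (n : ℤ) : ∫ x, fourier n x ∂haar = if n = 0 then 1 else 0 := by
  split_ifs with h
  · subst h; simp
  · exact integral_eq_zero_of_add_right_eq_neg (μ := haar)
      (fourier_add_half_inv_index h one_pos)

theorem fourierCoeff_neg_of_real (F : Circ → ℝ) (d : ℤ) :
    fourierCoeff (fun x => (F x : ℂ)) (-d) = conj (fourierCoeff (fun x => (F x : ℂ)) d) := by
  simp only [fourierCoeff, ← integral_conj, smul_eq_mul, map_mul, Complex.conj_ofReal, neg_neg]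
  refine integral_congr_ae (ae_of_all _ fun x => ?_)
  simp only
  rw [fourier_neg (n := d)]
  simp

/-- Coefficients of the chirp. -/
def chirpC (D L j : ℕ) : ℂ := ex (-((j : ℝ) ^ 2 / (2 * D * L)))

/-- The chirp sum. -/
def chirp (D L : ℕ) (x : Circ) : ℂ := ∑ j ∈ range L, chirpC D L j * fourier (j : ℤ) x

/-- Position of a point among `N` equal arcs. -/
def cell (N : ℕ) (x : Circ) : ZMod N :=
  ((⌊(N : ℝ) * ((AddCircle.equivIco (1 : ℝ) 0 x : Set.Ico (0 : ℝ) (0 + 1)) : ℝ)⌋ : ℤ) : ZMod N)

theorem measurable_cell (N : ℕ) : Measurable (cell N) := by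
  have h : Measurable fun x : Circ =>
      ((AddCircle.measurableEquivIco (1 : ℝ) 0 x : Set.Ico (0 : ℝ) (0 + 1)) : ℝ) :=
    measurable_subtype_coe.comp (AddCircle.measurableEquivIco (1 : ℝ) 0).measurable
  exact (measurable_of_countable _).comp
    (Int.measurable_floor.comp (measurable_const.mul h))

theorem cell_coe (N : ℕ) (t : ℝ) : cell N (t : Circ) = ((⌊(N : ℝ) * t⌋ : ℤ) : ZMod N) := by
  unfold cell
  have h : ((AddCircle.equivIco (1 : ℝ) 0 (t : Circ) : Set.Ico (0 : ℝ) (0 + 1)) : ℝ) = Int.fract t := by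
    change toIcoMod _ 0 t = Int.fract t
    rw [toIcoMod_zero_one]
  rw [h, Int.fract, mul_sub,
    show (N : ℝ) * (⌊t⌋ : ℝ) = (((N : ℤ) * ⌊t⌋ : ℤ) : ℝ) by push_cast; ring,
    Int.floor_sub_intCast, Int.cast_sub, Int.cast_mul]
  simp

/-- The step function on the first arc. -/
def first (D : ℕ) (x : Circ) : ℝ := if cell D x = 0 then 1 else 0

theorem measurable_first (D : ℕ) : Measurable (first D) :=
  (measurable_from_top (f := fun c : ZMod D => if c = 0 then (1 : ℝ) else 0)).comp (measurable_cell D)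

theorem first_mem (D : ℕ) (x : Circ) : first D x = 0 ∨ first D x = 1 := by
  unfold first; split_ifs <;> simp

/-- The exponent attached to a frequency. -/
def freq (D : ℕ) (d : ℕ) : ℂ := -(2 * π * I * d / D)

theorem exp_freq (D d : ℕ) (t : ℝ) : Complex.exp (freq D d * t) = ex (-(d * t / D)) := by
  rw [ex_eq, freq]; congr 1; push_cast; ring

theorem fourierCoeff_first (D d : ℕ) (hD : 2 ≤ D) :
    fourierCoeff (fun x => ((D : ℂ) * (first D x : ℂ))) d =
      if d = 0 then 1 else (Complex.exp (freq D d) - 1) / freq D d := by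
  rw [fourierCoeff_eq_intervalIntegral _ _ 0]
  simp only [zero_add, div_one, one_smul, smul_eq_mul]
  have hD0 : (0 : ℝ) < D := by positivity
  have hDc : (D : ℂ) ≠ 0 := by exact_mod_cast (by omega : D ≠ 0)
  have h1 : (1 : ℝ) / D ≤ 1 := by rw [div_le_one hD0]; exact_mod_cast (by omega : 1 ≤ D)
  have hcont : Continuous fun t : ℝ => fourier (-(d : ℤ)) (t : Circ) :=
    (map_continuous (fourier (-(d : ℤ)))).comp (AddCircle.continuous_mk' 1)
  have hae : ∀ᵐ t : ℝ, t ∈ Set.uIoc (0 : ℝ) 1 →
      fourier (-(d : ℤ)) (t : Circ) * ((D : ℂ) * (first D (t : Circ) : ℂ)) =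
      (Set.Iic (1 / (D : ℝ))).indicator
        (fun t : ℝ => (D : ℂ) * fourier (-(d : ℤ)) (t : Circ)) t := by
    have hne : ∀ᵐ t : ℝ, t ≠ 1 / (D : ℝ) ∧ t ≠ 1 :=
      (ae_iff.2 (by simp)).and (ae_iff.2 (by simp))
    filter_upwards [hne] with t ⟨ht1, ht2⟩ ht
    rw [Set.uIoc_of_le zero_le_one] at ht
    have htlt : t < 1 := lt_of_le_of_ne ht.2 ht2
    have hfl : 0 ≤ ⌊(D : ℝ) * t⌋ ∧ ⌊(D : ℝ) * t⌋ < D := by
      refine ⟨Int.floor_nonneg.2 (mul_nonneg hD0.le ht.1.le), Int.floor_lt.2 ?_⟩
      push_cast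
      calc (D : ℝ) * t < D * 1 := mul_lt_mul_of_pos_left htlt hD0
        _ = D := mul_one _
    have hiff : cell D (t : Circ) = 0 ↔ t < 1 / (D : ℝ) := by
      rw [cell_coe, ZMod.intCast_zmod_eq_zero_iff_dvd, lt_div_iff₀ hD0, mul_comm t]
      constructor
      · intro h
        have h0 : ⌊(D : ℝ) * t⌋ = 0 := Int.eq_zero_of_dvd_of_nonneg_of_lt hfl.1 hfl.2 h
        have := Int.lt_floor_add_one ((D : ℝ) * t)
        rw [h0] at this
        simpa using this
      · intro h
        rw [show ⌊(D : ℝ) * t⌋ = 0 from Int.floor_eq_zero_iff.2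
          ⟨mul_nonneg hD0.le ht.1.le, h⟩]
        exact dvd_zero _
    rcases lt_or_gt_of_ne ht1 with h | h
    · rw [Set.indicator_of_mem (show t ∈ Set.Iic (1 / (D : ℝ)) from h.le), first,
        if_pos (hiff.2 h)]
      push_cast; ring
    · rw [Set.indicator_of_notMem (show t ∉ Set.Iic (1 / (D : ℝ)) from not_le.2 h), first,
        if_neg (fun hc => absurd (hiff.1 hc) (not_lt.2 h.le))]
      simp
  rw [intervalIntegral.integral_congr_ae hae, intervalIntegral.integral_of_le zero_le_one,
    setIntegral_indicator measurableSet_Iic, Set.Ioc_inter_Iic, min_eq_right h1,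
    ← intervalIntegral.integral_of_le (by positivity), intervalIntegral.integral_const_mul]
  by_cases hd : d = 0
  · subst hd
    simp [hDc]
  rw [if_neg hd]
  have hw : freq D d * (D : ℂ) ≠ 0 := by
    rw [freq]
    simp [hd, Complex.I_ne_zero, Real.pi_ne_zero, show D ≠ 0 by omega]
  have : ∀ t : ℝ, fourier (-(d : ℤ)) (t : Circ) = Complex.exp (freq D d * D * t) := by
    intro t
    rw [fourier_coe, mul_assoc, show ((D : ℂ) * (t : ℂ)) = (((D : ℝ) * t : ℝ) : ℂ) by push_cast; ring,
      exp_freq]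
    congr 1
    push_cast
    field_simp
  simp only [this]
  rw [integral_exp_mul_complex hw]
  have h2 : freq D d * (D : ℂ) * ((1 / (D : ℝ) : ℝ) : ℂ) = freq D d := by
    push_cast
    field_simp
  rw [h2]
  simp only [Complex.ofReal_zero, mul_zero, Complex.exp_zero]
  field_simp

/-- Square modulus of the chirp divided by its length. -/
def power (D L : ℕ) (x : Circ) : ℝ := ‖chirp D L x‖ ^ 2 / L

theorem continuous_chirp (D L : ℕ) : Continuous (chirp D L) :=
  continuous_finsetSum _ fun j _ => continuous_const.mul (map_continuous _)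

theorem continuous_power (D L : ℕ) : Continuous (power D L) :=
  ((continuous_chirp D L).norm.pow 2).div_const _

theorem power_expand (D L : ℕ) (x : Circ) :
    (power D L x : ℂ) = (L : ℂ)⁻¹ * ∑ i ∈ range L, ∑ j ∈ range L,
      (chirpC D L j * conj (chirpC D L i)) * fourier ((j : ℤ) - i) x := by
  have h : ((‖chirp D L x‖ ^ 2 : ℝ) : ℂ) = conj (chirp D L x) * chirp D L x := by
    rw [Complex.conj_mul']; push_cast; rfl
  rw [power, Complex.ofReal_div, h, Complex.ofReal_natCast, div_eq_inv_mul, chirp, map_sum,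
    Finset.sum_mul_sum]
  congr 1
  refine sum_congr rfl fun i _ => sum_congr rfl fun j _ => ?_
  rw [sub_eq_add_neg, fourier_add, fourier_neg, map_mul]
  ring

theorem fourierCoeff_power (D L d : ℕ) :
    fourierCoeff (fun x => (power D L x : ℂ)) d =
      (L : ℂ)⁻¹ * ∑ i ∈ range (L - d), chirpC D L (i + d) * conj (chirpC D L i) := by
  have hint : ∀ i j : ℕ, Integrable (fun x : Circ =>
      (chirpC D L j * conj (chirpC D L i)) * fourier ((j : ℤ) - i - d) x) haar := fun i j =>
    (continuous_const.mul (map_continuous _)).integrable_of_hasCompactSupport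
      (HasCompactSupport.of_compactSpace _)
  have h : ∀ x : Circ, fourier (-(d : ℤ)) x • (power D L x : ℂ) = (L : ℂ)⁻¹ *
      ∑ i ∈ range L, ∑ j ∈ range L,
        (chirpC D L j * conj (chirpC D L i)) * fourier ((j : ℤ) - i - d) x := by
    intro x
    rw [power_expand, smul_eq_mul, mul_left_comm, Finset.mul_sum]
    congr 1
    refine sum_congr rfl fun i _ => ?_
    rw [Finset.mul_sum]
    refine sum_congr rfl fun j _ => ?_
    rw [sub_eq_add_neg ((j : ℤ) - i) d, fourier_add]
    ring
  rw [fourierCoeff]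
  simp only [h]
  rw [integral_const_mul, integral_finsetSum _ fun i _ => integrable_finsetSum _ fun j _ => hint i j]
  congr 1
  have h2 : ∀ i ∈ range L, ∫ x : Circ, ∑ j ∈ range L,
      (chirpC D L j * conj (chirpC D L i)) * fourier ((j : ℤ) - i - d) x ∂haar =
      if i < L - d then chirpC D L (i + d) * conj (chirpC D L i) else 0 := by
    intro i _
    rw [integral_finsetSum _ fun j _ => hint i j]
    simp only [integral_const_mul, integral_fourier]
    have : ∀ j : ℕ, ((j : ℤ) - i - d = 0) ↔ j = i + d := fun j => by omega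
    simp only [this, mul_ite, mul_one, mul_zero, Finset.sum_ite_eq', Finset.mem_range]
    split_ifs <;> first | rfl | omega
  rw [sum_congr rfl h2, ← Finset.sum_filter]
  refine sum_congr ?_ fun _ _ => rfl
  ext i
  simp only [Finset.mem_filter, Finset.mem_range]
  omega

theorem chirpC_mul_conj (D L d i : ℕ) :
    chirpC D L (i + d) * conj (chirpC D L i) =
      Complex.exp (freq D d * ((d : ℝ) / (2 * L) : ℝ)) *
        Complex.exp (freq D d * ((1 : ℝ) / L : ℝ)) ^ i := by
  rw [← Complex.exp_nat_mul, ← Complex.exp_add, chirpC, chirpC, ← ex_neg, ← ex_add,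
    show (freq D d * ((d : ℝ) / (2 * L) : ℝ) + (i : ℕ) * (freq D d * ((1 : ℝ) / L : ℝ))) =
      freq D d * (((d : ℝ) / (2 * L) + i / L : ℝ) : ℂ) by push_cast; ring, exp_freq]
  congr 1
  push_cast
  field_simp
  ring

theorem fourierCoeff_power_zero (D L : ℕ) (hL : 0 < L) :
    fourierCoeff (fun x => (power D L x : ℂ)) ((0 : ℕ) : ℤ) = 1 := by
  rw [fourierCoeff_power]
  have h : ∀ i, chirpC D L (i + 0) * conj (chirpC D L i) = 1 := by
    intro i
    rw [chirpC_mul_conj]
    simp [freq]
  simp only [h, Nat.sub_zero, Finset.sum_const, Finset.card_range, nsmul_eq_mul, mul_one]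
  exact inv_mul_cancel₀ (by exact_mod_cast hL.ne')

/-- A uniform bound on the coefficients. -/
theorem norm_fourierCoeff_power_le (D L d : ℕ) (hD : 2 ≤ D) (hd : 0 < d) :
    ‖fourierCoeff (fun x => (power D L x : ℂ)) d‖ ≤ D / (2 * d) := by
  rw [fourierCoeff_power]
  rcases le_or_gt L d with hLd | hLd
  · rw [Nat.sub_eq_zero_of_le hLd]
    simp only [Finset.range_zero, Finset.sum_empty, mul_zero, norm_zero]
    positivity
  have hL0 : (0 : ℝ) < L := by exact_mod_cast lt_of_le_of_lt (Nat.zero_le _) hLd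
  have hD0 : (0 : ℝ) < D := by positivity
  have hd0 : (0 : ℝ) < d := by exact_mod_cast hd
  simp only [chirpC_mul_conj, ← Finset.mul_sum, norm_mul, norm_inv, Complex.norm_natCast]
  rw [exp_freq D d ((d : ℝ) / (2 * L)), norm_ex, one_mul]
  set θ : ℝ := π * d / (D * L) with hθ
  have hθ0 : 0 ≤ θ := by rw [hθ]; positivity
  have hθ2 : θ ≤ π / 2 := by
    rw [hθ, div_le_div_iff₀ (by positivity) two_pos, mul_assoc]
    refine mul_le_mul_of_nonneg_left ?_ Real.pi_pos.le
    have h1 : (d : ℝ) ≤ L := by exact_mod_cast hLd.le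
    have h2 : (2 : ℝ) ≤ D := by exact_mod_cast hD
    nlinarith
  set r := Complex.exp (freq D d * ((1 : ℝ) / L : ℝ)) with hr
  have hr1 : ‖r‖ = 1 := by rw [hr, exp_freq, norm_ex]
  have hdist : 2 * (2 / π * θ) ≤ ‖r - 1‖ := by
    have e : r - 1 = Complex.exp (freq D d * ((1 : ℝ) / (2 * L) : ℝ)) *
        (-(2 * Complex.sin (θ : ℂ)) * I) := by
      have e1 : freq D d * ((1 : ℝ) / (2 * L) : ℝ) = -((θ : ℂ) * I) := by
        rw [freq, hθ]; push_cast; field_simp
      have e2 : freq D d * ((1 : ℝ) / L : ℝ) = -((θ : ℂ) * I) + -((θ : ℂ) * I) := by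
        rw [freq, hθ]; push_cast; field_simp; ring
      rw [hr, e2, e1, Complex.exp_add, Complex.sin]
      have e3 : Complex.exp (-((θ : ℂ) * I)) * Complex.exp ((θ : ℂ) * I) = 1 := by
        rw [← Complex.exp_add]; simp
      rw [neg_mul (θ : ℂ) I]
      linear_combination e3 +
        (Complex.exp (-((θ : ℂ) * I)) * Complex.exp (-((θ : ℂ) * I)) -
          Complex.exp (-((θ : ℂ) * I)) * Complex.exp ((θ : ℂ) * I)) * Complex.I_sq
    rw [e, norm_mul, exp_freq, norm_ex, one_mul, norm_mul, norm_neg, norm_mul, Complex.norm_I,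
      mul_one, ← Complex.ofReal_sin, Complex.norm_real, Complex.norm_ofNat]
    exact mul_le_mul_of_nonneg_left
      ((Real.mul_le_sin hθ0 hθ2).trans (le_abs_self _)) two_pos.le
  have hpos : 0 < 2 * (2 / π * θ) := by rw [hθ]; positivity
  have hne : r ≠ 1 := by
    intro h
    rw [h, sub_self, norm_zero] at hdist
    linarith
  rw [geom_sum_eq hne, norm_div]
  calc (L : ℝ)⁻¹ * (‖r ^ (L - d) - 1‖ / ‖r - 1‖) ≤ (L : ℝ)⁻¹ * (2 / (2 * (2 / π * θ))) := by
        gcongr
        calc ‖r ^ (L - d) - 1‖ ≤ ‖r ^ (L - d)‖ + ‖(1 : ℂ)‖ := norm_sub_le _ _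
          _ = 2 := by rw [norm_pow, hr1, one_pow, norm_one]; norm_num
    _ = (D : ℝ) / (2 * d) := by rw [hθ]; field_simp

theorem tendsto_fourierCoeff_power (D d : ℕ) (hD : 2 ≤ D) (hd : 0 < d) :
    Tendsto (fun L => fourierCoeff (fun x => (power D L x : ℂ)) d) atTop
      (𝓝 ((Complex.exp (freq D d) - 1) / freq D d)) := by
  set w := freq D d with hw
  have hw0 : w ≠ 0 := by
    rw [hw, freq]
    simp [Complex.I_ne_zero, Real.pi_ne_zero, show D ≠ 0 by omega, hd.ne']
  have hslope : Tendsto (fun L : ℕ => ((L : ℝ) : ℂ) * (Complex.exp (w * ((1 : ℝ) / L : ℝ)) - 1))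
      atTop (𝓝 w) := by
    have hder : HasDerivAt (fun h : ℝ => Complex.exp (w * (h : ℂ))) w 0 := by
      have := ((Complex.ofRealCLM.hasDerivAt (x := (0 : ℝ))).const_mul w).cexp
      simpa using this
    have hl := hder.tendsto_slope_zero
    have hto : Tendsto (fun L : ℕ => (1 : ℝ) / L) atTop (𝓝[≠] 0) := by
      refine tendsto_nhdsWithin_iff.2 ⟨tendsto_one_div_atTop_nhds_zero_nat, ?_⟩
      filter_upwards [eventually_gt_atTop 0] with L hL
      simp [hL.ne']
    have := hl.comp hto
    refine this.congr fun L => ?_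
    simp
  have hpow : Tendsto (fun L : ℕ => Complex.exp (w * ((1 - (d : ℝ) / L : ℝ) : ℂ))) atTop
      (𝓝 (Complex.exp w)) := by
    have : Tendsto (fun L : ℕ => ((1 - (d : ℝ) / L : ℝ) : ℂ)) atTop (𝓝 1) := by
      have := (Complex.continuous_ofReal.tendsto _).comp
        ((tendsto_const_div_atTop_nhds_zero_nat (d : ℝ)).const_sub 1)
      simpa [Function.comp_def] using this
    simpa [Function.comp_def] using (Complex.continuous_exp.tendsto _).comp (this.const_mul w)
  have hphase : Tendsto (fun L : ℕ => Complex.exp (w * ((d : ℝ) / (2 * L) : ℝ))) atTop (𝓝 1) := by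
    have : Tendsto (fun L : ℕ => (((d : ℝ) / (2 * L) : ℝ) : ℂ)) atTop (𝓝 0) := by
      have := (Complex.continuous_ofReal.tendsto _).comp
        (tendsto_const_div_atTop_nhds_zero_nat ((d : ℝ) / 2))
      simpa [Function.comp_def, div_div] using this
    simpa [Function.comp_def] using (Complex.continuous_exp.tendsto _).comp (this.const_mul w)
  have hlim := hphase.mul ((hpow.sub_const 1).div hslope hw0)
  simp only [Pi.div_apply, one_mul] at hlim
  refine hlim.congr' ?_
  filter_upwards [eventually_gt_atTop d, hslope.eventually_ne hw0] with L hL hne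
  have hne' : Complex.exp (w * ((1 : ℝ) / L : ℝ)) ≠ 1 := by
    intro h; exact hne (by rw [h, sub_self, mul_zero])
  rw [fourierCoeff_power]
  simp only [chirpC_mul_conj, ← Finset.mul_sum, ← hw]
  rw [geom_sum_eq hne', ← Complex.exp_nat_mul]
  have : ((L - d : ℕ) : ℂ) * (w * ((1 : ℝ) / L : ℝ)) = w * ((1 - (d : ℝ) / L : ℝ) : ℂ) := by
    have hL0 : (L : ℂ) ≠ 0 := by exact_mod_cast (by omega : L ≠ 0)
    rw [Nat.cast_sub hL.le]; push_cast; field_simp
  rw [this]
  simp only [Complex.ofReal_natCast, div_eq_mul_inv, mul_inv]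
  ring

theorem fourierCoeff_power_eq_zero (D L : ℕ) (n : ℤ) (hn : L ≤ n.natAbs) :
    fourierCoeff (fun x => (power D L x : ℂ)) n = 0 := by
  obtain ⟨d, rfl | rfl⟩ := n.eq_nat_or_neg
  · rw [fourierCoeff_power, Nat.sub_eq_zero_of_le (by simpa using hn)]; simp
  · rw [fourierCoeff_neg_of_real, fourierCoeff_power, Nat.sub_eq_zero_of_le (by simpa using hn)]
    simp

theorem norm_freq (D d : ℕ) : ‖freq D d‖ = 2 * π * d / D := by
  rw [freq]; simp [abs_of_pos Real.pi_pos]

/-- The chirp square moduli converge in mean square. -/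
theorem tendsto_integral_power_sub (D : ℕ) (hD : 2 ≤ D) :
    Tendsto (fun L => ∫ x, (power D L x - D * first D x) ^ 2 ∂haar) atTop (𝓝 0) := by
  set g : ℕ → Circ → ℂ := fun L x => ((power D L x - D * first D x : ℝ) : ℂ) with hg
  have hbd : ∀ L, MemLp (g L) 2 haar := by
    intro L
    obtain ⟨M, hM⟩ := isCompact_univ.exists_bound_of_continuousOn
      (continuous_power D L).continuousOn
    refine MemLp.of_bound ((Complex.measurable_ofReal.comp ((continuous_power D L).measurable.sub
      ((measurable_first D).const_mul _))).aestronglyMeasurable) (M + D) (ae_of_all _ fun x => ?_)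
    simp only [hg, Complex.norm_real, Real.norm_eq_abs]
    have h1 : |power D L x| ≤ M := hM x (Set.mem_univ _)
    have h2 : (0 : ℝ) ≤ (D : ℝ) := Nat.cast_nonneg D
    rcases first_mem D x with h | h <;> rw [h] <;> rw [abs_le] at h1 ⊢ <;>
      constructor <;> linarith
  have hint1 : ∀ L, Integrable (fun x => (power D L x : ℂ)) haar := fun L =>
    (Complex.continuous_ofReal.comp (continuous_power D L)).integrable_of_hasCompactSupport
      (HasCompactSupport.of_compactSpace _)
  have hint2 : Integrable (fun x => (D : ℂ) * (first D x : ℂ)) haar := by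
    refine Integrable.of_bound ((measurable_const.mul
      (Complex.measurable_ofReal.comp (measurable_first D))).aestronglyMeasurable) D
      (ae_of_all _ fun x => ?_)
    rcases first_mem D x with h | h <;> simp [h]
  have hcoef : ∀ L (n : ℤ), fourierCoeff (g L) n = fourierCoeff (fun x => (power D L x : ℂ)) n -
      fourierCoeff (fun x => (D : ℂ) * (first D x : ℂ)) n := by
    intro L n
    simp only [fourierCoeff, hg]
    rw [← integral_sub ((hint1 L).fourier_smul _) (hint2.fourier_smul _)]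
    refine integral_congr_ae (ae_of_all _ fun x => ?_)
    simp only [smul_eq_mul]
    push_cast
    ring
  have hD0 : (0 : ℝ) < D := by positivity
  have hb : ∀ (L : ℕ), 0 < L → ∀ n : ℤ, ‖fourierCoeff (g L) n‖ ≤ (D : ℝ) * (1 / |(n : ℝ)|) := by
    intro L hL
    have main : ∀ d : ℕ, ‖fourierCoeff (g L) d‖ ≤ (D : ℝ) * (1 / |((d : ℤ) : ℝ)|) := by
      intro d
      rcases Nat.eq_zero_or_pos d with rfl | hd
      · rw [hcoef, fourierCoeff_power_zero D L hL, fourierCoeff_first D 0 hD]
        simp
      rw [hcoef, fourierCoeff_first D d hD, if_neg hd.ne']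
      refine (norm_sub_le _ _).trans ?_
      have h1 := norm_fourierCoeff_power_le D L d hD hd
      have h2 : ‖(Complex.exp (freq D d) - 1) / freq D d‖ ≤ 2 / (2 * π * d / D) := by
        rw [norm_div, norm_freq]
        gcongr
        refine (norm_sub_le _ _).trans ?_
        have := exp_freq D d 1
        rw [Complex.ofReal_one, mul_one] at this
        rw [this, norm_ex, norm_one]
        norm_num
      have hd0 : (0 : ℝ) < d := by exact_mod_cast hd
      have h3 : 2 / (2 * π * d / D) ≤ (D : ℝ) / (2 * d) := by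
        rw [div_le_div_iff₀ (by positivity) (by positivity)]
        have := Real.two_le_pi
        field_simp
        nlinarith
      calc _ ≤ (D : ℝ) / (2 * d) + D / (2 * d) := add_le_add h1 (h2.trans h3)
        _ = _ := by rw [Int.cast_natCast, abs_of_pos hd0]; field_simp; ring
    intro n
    obtain ⟨d, rfl | rfl⟩ := n.eq_nat_or_neg
    · exact main d
    · rw [hg, fourierCoeff_neg_of_real, Complex.norm_conj, Int.cast_neg, abs_neg]
      exact main d
  have hlim : ∀ n : ℤ, Tendsto (fun L => ‖fourierCoeff (g L) n‖ ^ 2) atTop (𝓝 0) := by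
    have main : ∀ d : ℕ, Tendsto (fun L => ‖fourierCoeff (g L) (d : ℤ)‖ ^ 2) atTop (𝓝 0) := by
      intro d
      rcases Nat.eq_zero_or_pos d with rfl | hd
      · refine tendsto_const_nhds.congr' ?_
        filter_upwards [eventually_gt_atTop 0] with L hL
        rw [hcoef, fourierCoeff_power_zero D L hL, fourierCoeff_first D 0 hD]
        simp
      have := (tendsto_fourierCoeff_power D d hD hd).sub_const
        (fourierCoeff (fun x => (D : ℂ) * (first D x : ℂ)) d)
      rw [fourierCoeff_first D d hD, if_neg hd.ne', sub_self] at this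
      have h2 := (this.norm.pow 2)
      simp only [norm_zero, zero_pow two_ne_zero] at h2
      refine h2.congr fun L => ?_
      rw [hcoef, fourierCoeff_first D d hD, if_neg hd.ne']
    intro n
    obtain ⟨d, rfl | rfl⟩ := n.eq_nat_or_neg
    · exact main d
    · simp only [hg, fourierCoeff_neg_of_real, Complex.norm_conj]
      exact main d
  have hsum : Summable fun n : ℤ => ((D : ℝ) * (1 / |(n : ℝ)|)) ^ 2 := by
    have := (Real.summable_one_div_int_pow.2 one_lt_two).mul_left ((D : ℝ) ^ 2)
    refine this.congr fun n => ?_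
    rw [mul_pow, div_pow, sq_abs, one_pow]
  have hts : Tendsto (fun L => ∑' n : ℤ, ‖fourierCoeff (g L) n‖ ^ 2) atTop (𝓝 0) := by
    have := tendsto_tsum_of_dominated_convergence hsum hlim
      (Filter.eventually_atTop.2 ⟨1, fun L hL n => by
        rw [norm_pow, norm_norm]
        exact pow_le_pow_left₀ (norm_nonneg _) (hb L (by omega) n) 2⟩)
    simpa using this
  refine hts.congr fun L => ?_
  have hP := (hasSum_sq_fourierCoeff ((hbd L).toLp (g L))).tsum_eq
  rw [fourierCoeff_congr_ae (hbd L).coeFn_toLp] at hP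
  rw [hP]
  refine integral_congr_ae ?_
  filter_upwards [(hbd L).coeFn_toLp] with x hx
  rw [hx, hg, Complex.norm_real, Real.norm_eq_abs, sq_abs]

theorem sq_sub_le {a b ε : ℝ} (ha : 0 ≤ a) (hb : 0 ≤ b) (hε : 0 < ε) :
    (a - b) ^ 2 ≤ ε / 2 + (a ^ 2 - b ^ 2) ^ 2 / (2 * ε) := by
  have h1 : (a - b) ^ 2 ≤ |a ^ 2 - b ^ 2| := by
    rw [show a ^ 2 - b ^ 2 = (a - b) * (a + b) by ring, abs_mul, abs_of_nonneg (add_nonneg ha hb),
      ← sq_abs, pow_two]
    refine mul_le_mul_of_nonneg_left ?_ (abs_nonneg _)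
    rw [abs_le]
    constructor <;> linarith
  have h2 := two_mul_le_add_sq |a ^ 2 - b ^ 2| ε
  rw [sq_abs (a ^ 2 - b ^ 2)] at h2
  refine h1.trans ?_
  rw [div_add_div _ _ two_ne_zero (by positivity), le_div_iff₀ (by positivity)]
  nlinarith

/-- The chirp moduli converge in mean square. -/
theorem tendsto_integral_norm_chirp_sub (D : ℕ) (hD : 2 ≤ D) :
    Tendsto (fun L => ∫ x, (‖chirp D L x‖ / Real.sqrt L - Real.sqrt D * first D x) ^ 2 ∂haar)
      atTop (𝓝 0) := by
  rw [Metric.tendsto_atTop]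
  intro ε hε
  obtain ⟨N, hN⟩ := (Metric.tendsto_atTop.1 (tendsto_integral_power_sub D hD)) (ε ^ 2)
    (by positivity)
  refine ⟨max N 1, fun L hL => ?_⟩
  have h0 : 0 ≤ ∫ x, (‖chirp D L x‖ / Real.sqrt L - Real.sqrt D * first D x) ^ 2 ∂haar :=
    integral_nonneg fun x => sq_nonneg _
  have hN' := hN L (le_trans (le_max_left _ _) hL)
  rw [Real.dist_eq, sub_zero] at hN' ⊢
  rw [abs_of_nonneg h0]
  rw [abs_of_nonneg (integral_nonneg fun x => sq_nonneg _)] at hN'
  have hpt : ∀ x, (‖chirp D L x‖ / Real.sqrt L - Real.sqrt D * first D x) ^ 2 ≤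
      ε / 2 + (power D L x - D * first D x) ^ 2 / (2 * ε) := by
    intro x
    have hf : 0 ≤ first D x := by rcases first_mem D x with h | h <;> rw [h] <;> norm_num
    have e1 : power D L x = (‖chirp D L x‖ / Real.sqrt L) ^ 2 := by
      rw [div_pow, Real.sq_sqrt (Nat.cast_nonneg _), power]
    have e2 : (D : ℝ) * first D x = (Real.sqrt D * first D x) ^ 2 := by
      rw [mul_pow, Real.sq_sqrt (Nat.cast_nonneg _)]
      rcases first_mem D x with h | h <;> rw [h] <;> norm_num
    rw [e1, e2]
    exact sq_sub_le (div_nonneg (norm_nonneg _) (Real.sqrt_nonneg _))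
      (mul_nonneg (Real.sqrt_nonneg _) hf) hε
  have hbound : ∃ M, ∀ x, ‖(power D L x - D * first D x) ^ 2‖ ≤ M := by
    obtain ⟨M, hM⟩ := isCompact_univ.exists_bound_of_continuousOn
      (continuous_power D L).continuousOn
    refine ⟨(M + D) ^ 2, fun x => ?_⟩
    rw [norm_pow]
    refine pow_le_pow_left₀ (norm_nonneg _) ((norm_sub_le _ _).trans
      (add_le_add (hM x (Set.mem_univ _)) ?_)) 2
    rcases first_mem D x with h | h <;> simp [h]
  obtain ⟨M, hM⟩ := hbound
  have hi : Integrable (fun x => (power D L x - D * first D x) ^ 2) haar :=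
    Integrable.of_bound (((continuous_power D L).measurable.sub
      ((measurable_first D).const_mul _)).pow_const 2).aestronglyMeasurable M (ae_of_all _ hM)
  have hm : ∫ x, (‖chirp D L x‖ / Real.sqrt L - Real.sqrt D * first D x) ^ 2 ∂haar
      ≤ ∫ x, ((ε / 2 : ℝ) + (power D L x - D * first D x) ^ 2 / (2 * ε)) ∂haar :=
    integral_mono_of_nonneg (ae_of_all _ fun x => sq_nonneg _)
      (Integrable.add (integrable_const (ε / 2)) (hi.div_const (2 * ε))) (ae_of_all _ hpt)
  rw [integral_add (integrable_const (ε / 2)) (hi.div_const (2 * ε)), integral_div,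
    integral_const, probReal_univ, one_smul] at hm
  have hlt : (∫ x, (power D L x - D * first D x) ^ 2 ∂haar) / (2 * ε) < ε / 2 := by
    rw [div_lt_iff₀ (by linarith)]
    calc _ < ε ^ 2 := hN'
      _ = ε / 2 * (2 * ε) := by ring
  simp only [div_eq_mul_inv, integral_mul_const] at hm hlt ⊢
  linarith

/-- Chirp sums are small in sup norm compared with their length. -/
theorem exists_chirp_sup_le (D : ℕ) (hD : 2 ≤ D) :
    ∃ u : ℕ → ℝ, Tendsto u atTop (𝓝 0) ∧ ∀ L, 0 < L → ∀ x, ‖chirp D L x‖ / L ≤ u L := by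
  refine ⟨fun L => Real.sqrt (1 / L + 2 * D * ((L : ℝ)⁻¹ * ∑ d ∈ range L, 1 / (d : ℝ))), ?_, ?_⟩
  · have h1 := tendsto_one_div_atTop_nhds_zero_nat.cesaro
    have h2 := tendsto_one_div_atTop_nhds_zero_nat.add (h1.const_mul (2 * (D : ℝ)))
    simpa using h2.sqrt
  intro L hL x
  have hL0 : (0 : ℝ) < L := by exact_mod_cast hL
  set G : C(Circ, ℂ) := ⟨fun x => (power D L x : ℂ),
    Complex.continuous_ofReal.comp (continuous_power D L)⟩ with hG
  have hsupp : ∀ n : ℤ, n ∉ Finset.Ioo (-(L : ℤ)) L → fourierCoeff G n = 0 := by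
    intro n hn
    refine fourierCoeff_power_eq_zero D L n ?_
    simp only [Finset.mem_Ioo, not_and, not_lt] at hn
    omega
  have hsum : Summable (fourierCoeff G) := summable_of_ne_finset_zero hsupp
  have hx := has_pointwise_sum_fourier_series_of_summable hsum x
  have hfin : (power D L x : ℂ) =
      ∑ n ∈ Finset.Ioo (-(L : ℤ)) L, fourierCoeff G n • fourier n x :=
    hx.unique (hasSum_sum_of_ne_finset_zero fun n hn => by rw [hsupp n hn, zero_smul])
  have hle : power D L x ≤ ∑ n ∈ Finset.Ioo (-(L : ℤ)) L, ‖fourierCoeff G n‖ := by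
    calc power D L x ≤ ‖(power D L x : ℂ)‖ := by
          rw [Complex.norm_real]; exact le_abs_self _
      _ ≤ _ := by
          rw [hfin]
          refine (norm_sum_le _ _).trans (le_of_eq (sum_congr rfl fun n _ => ?_))
          rw [norm_smul, norm_fourier_apply, mul_one]
  have hcb : ∀ n : ℤ, ‖fourierCoeff G n‖ ≤ if n = 0 then 1 else (D : ℝ) / (2 * n.natAbs) := by
    intro n
    obtain ⟨d, rfl | rfl⟩ := n.eq_nat_or_neg
    · rcases Nat.eq_zero_or_pos d with rfl | hd
      · rw [if_pos (by simp)]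
        exact (congrArg norm (fourierCoeff_power_zero D L hL)).le.trans (by simp)
      · rw [if_neg (by omega), Int.natAbs_natCast]
        exact norm_fourierCoeff_power_le D L d hD hd
    · rcases Nat.eq_zero_or_pos d with rfl | hd
      · rw [if_pos (by simp)]
        exact (congrArg norm (fourierCoeff_power_zero D L hL)).le.trans (by simp)
      · rw [if_neg (by omega), Int.natAbs_neg, Int.natAbs_natCast]
        exact ((congrArg norm (fourierCoeff_neg_of_real (power D L) d)).trans
          (Complex.norm_conj _)).le.trans (norm_fourierCoeff_power_le D L d hD hd)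
  have hsum2 : ∀ M : ℕ, 0 < M → ∑ n ∈ Finset.Ioo (-(M : ℤ)) M,
      (if n = 0 then (1 : ℝ) else (D : ℝ) / (2 * n.natAbs)) =
      1 + (D : ℝ) * ∑ d ∈ range M, 1 / (d : ℝ) := by
    intro M hM
    induction M, hM using Nat.le_induction with
    | base => rw [show Finset.Ioo (-((1 : ℕ) : ℤ)) ((1 : ℕ) : ℤ) = {0} by decide]; simp
    | succ M hM ih =>
      have : Finset.Ioo (-((M + 1 : ℕ) : ℤ)) ((M + 1 : ℕ) : ℤ) =
          insert (-(M : ℤ)) (insert (M : ℤ) (Finset.Ioo (-(M : ℤ)) M)) := by
        ext n; simp only [Finset.mem_Ioo, Finset.mem_insert]; omega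
      rw [this, sum_insert (by simp only [Finset.mem_insert, Finset.mem_Ioo]; omega),
        sum_insert (by simp only [Finset.mem_Ioo]; omega), ih, Finset.sum_range_succ,
        if_neg (by omega), if_neg (by omega), Int.natAbs_neg, Int.natAbs_natCast]
      field_simp
      ring
  have hfinal : power D L x ≤ 1 + 2 * (D : ℝ) * ∑ d ∈ range L, 1 / (d : ℝ) := by
    refine hle.trans ((sum_le_sum fun n _ => hcb n).trans ?_)
    rw [hsum2 L hL]
    have : 0 ≤ ∑ d ∈ range L, 1 / (d : ℝ) := sum_nonneg fun d _ => by positivity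
    nlinarith
  apply Real.le_sqrt_of_sq_le
  rw [div_pow, show ‖chirp D L x‖ ^ 2 = power D L x * L by rw [power]; field_simp]
  rw [div_le_iff₀ (by positivity)]
  calc power D L x * L ≤ (1 + 2 * (D : ℝ) * ∑ d ∈ range L, 1 / (d : ℝ)) * L := by gcongr
    _ = _ := by field_simp

end Vale.Agent.P130
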