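import Vale.Agent.P130.Rigid

/-!
The component of index one has simple Lebesgue spectrum.
-/

noncomputable section

namespace Vale.Agent.P130

open MeasureTheory Filter Complex Finset
open scoped Topology Real ComplexConjugate InnerProductSpace ENNReal

/-- Square integrable functions on the circle. -/
abbrev HC : Type := Lp ℂ 2 haar

theorem mp_nsmul {m : ℕ} (hm : 0 < m) : MeasurePreserving (fun x : Circ => m • x) haar haar := by
  have := Measure.measurePreserving_zsmul haar (n := (m : ℤ)) (by exact_mod_cast hm.ne')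
  simpa only [natCast_zsmul] using this

theorem fourier_nsmul (j : ℤ) (m : ℕ) (x : Circ) :
    fourier j (m • x) = fourier (j * (m : ℤ)) x := by
  simp only [fourier_apply, mul_smul, natCast_zsmul]

/-- Orthogonality of short frequencies against periodic functions. -/
theorem integral_fourier_periodic {m : ℕ} (hm : 0 < m) {G : Circ → ℂ}
    (hG : AEStronglyMeasurable G haar) (d : ℤ) (hd : d.natAbs < m) :
    ∫ x, fourier d x * G (m • x) ∂haar = if d = 0 then ∫ y, G y ∂haar else 0 := by
  split_ifs with h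
  · subst h
    simp only [fourier_zero, one_mul]
    have hmp := mp_nsmul hm
    conv_rhs => rw [← hmp.map_eq]
    rw [integral_map hmp.measurable.aemeasurable (by rw [hmp.map_eq]; exact hG)]
  · set g : Circ := ((1 / (m : ℝ) : ℝ) : Circ) with hg
    have hmg : m • g = 0 := by
      rw [hg, ← AddCircle.coe_nsmul, nsmul_eq_mul,
        mul_one_div_cancel (by exact_mod_cast hm.ne' : (m : ℝ) ≠ 0)]
      exact AddCircle.coe_period 1
    have hne : fourier d g ≠ 1 := by
      intro hc
      rw [hg, fourier_coe, ex_eq, Complex.exp_eq_one_iff] at hc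
      obtain ⟨z, hz⟩ := hc
      have h2 : (2 * (π : ℂ) * I) ≠ 0 := by simp [Real.pi_ne_zero, Complex.I_ne_zero]
      rw [mul_comm (z : ℂ)] at hz
      have h3 := mul_left_cancel₀ h2 hz
      have h4 : (d : ℝ) * (1 / m) = z := by exact_mod_cast h3
      have h5 : (d : ℝ) = z * m := by rw [← h4]; field_simp
      have h6 : d = z * m := by exact_mod_cast h5
      apply h
      apply Int.eq_zero_of_dvd_of_natAbs_lt_natAbs ⟨z, by rw [h6, mul_comm]⟩
      simpa using hd
    have e : ∫ x, fourier d x * G (m • x) ∂haar =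
        fourier d g * ∫ x, fourier d x * G (m • x) ∂haar := by
      conv_lhs => rw [← integral_add_right_eq_self (fun x => fourier d x * G (m • x)) g]
      rw [← integral_const_mul]
      refine integral_congr_ae (ae_of_all _ fun x => ?_)
      simp only
      rw [fourier_arg_add, smul_add, hmg, add_zero]
      ring
    have : (fourier d g - 1) * ∫ x, fourier d x * G (m • x) ∂haar = 0 := by
      rw [sub_mul, one_mul, ← e, sub_self]
    exact (mul_eq_zero.1 this).resolve_left (sub_ne_zero.2 hne)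

/-- Phase of a nonzero number. -/
def unitOf (s : ℂ) : ℂ := if s = 0 then 1 else s / ‖s‖

theorem norm_unitOf (s : ℂ) : ‖unitOf s‖ = 1 := by
  unfold unitOf
  split_ifs with h
  · simp
  · simp [norm_ne_zero_iff.2 h]

theorem conj_unitOf_mul (s : ℂ) : conj (unitOf s) * s = ‖s‖ := by
  unfold unitOf
  split_ifs with h
  · simp [h]
  · have : (‖s‖ : ℂ) ≠ 0 := by simpa using h
    rw [map_div₀, Complex.conj_ofReal, div_mul_eq_mul_div, Complex.conj_mul', div_eq_iff this]
    ring

theorem measurable_unitOf : Measurable unitOf :=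
  Measurable.ite (measurableSet_singleton 0) measurable_const
    (measurable_id.div (Complex.measurable_ofReal.comp measurable_norm))

/-- Stage direction on the circle. -/
def dir (n : ℕ) (x : Circ) : ℂ := rho (stageK n) (mm n • x)

theorem norm_dir (n : ℕ) (x : Circ) : ‖dir n x‖ = 1 := norm_rho _ _

theorem measurable_dir (n : ℕ) : Measurable (dir n) :=
  (measurable_rho _).comp (continuous_nsmul _).measurable

/-- Stage image. -/
def img (n : ℕ) (a : Bool) (x : Circ) : ℂ :=
  stageS (stageK n) (stageL n) a (mm n • x) (dir (n + 1) x)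

theorem measurable_img (n : ℕ) (a : Bool) : Measurable (img n a) := by
  unfold img stageS
  refine measurable_const.mul (Finset.measurable_sum _ fun i _ => ?_)
  refine (measurable_const.mul ((map_continuous _).measurable.comp
    (continuous_nsmul _).measurable)).mul ?_
  unfold vv
  by_cases h : flipB a i
  · simp only [h, if_true]; exact measurable_const
  · simp only [if_neg h]; exact measurable_dir _

/-- The gauge. -/
def gauge : ℕ → Circ → ℂ
  | 0, _ => 1
  | n + 1, x => gauge n x * conj (unitOf (img n true x))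

theorem norm_gauge (n : ℕ) (x : Circ) : ‖gauge n x‖ = 1 := by
  induction n with
  | zero => simp [gauge]
  | succ n ih => simp [gauge, ih, norm_unitOf]

theorem measurable_gauge (n : ℕ) : Measurable (gauge n) := by
  induction n with
  | zero => exact measurable_const
  | succ n ih =>
    exact ih.mul (Complex.continuous_conj.measurable.comp
      (measurable_unitOf.comp (measurable_img n true)))

/-- Model vectors. -/
def betaF (n : ℕ) (a : Bool) (r : ℕ) (x : Circ) : ℂ :=
  gauge n x * fourier (r : ℤ) x * vv a (dir n x)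

theorem norm_betaF (n : ℕ) (a : Bool) (r : ℕ) (x : Circ) : ‖betaF n a r x‖ = 1 := by
  rw [betaF, norm_mul, norm_mul, norm_gauge, norm_fourier_apply, norm_vv a (norm_dir n x)]
  norm_num

theorem measurable_betaF (n : ℕ) (a : Bool) (r : ℕ) : Measurable (betaF n a r) := by
  refine ((measurable_gauge n).mul (map_continuous _).measurable).mul ?_
  unfold vv
  cases a
  · simp only [Bool.false_eq_true, if_false]; exact measurable_dir n
  · simp only [if_true]; exact measurable_const

theorem betaF_memLp (n : ℕ) (a : Bool) (r : ℕ) : MemLp (betaF n a r) 2 haar :=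
  MemLp.of_bound (measurable_betaF n a r).aestronglyMeasurable 1
    (ae_of_all _ fun x => (norm_betaF n a r x).le)

/-- Model vectors in mean square. -/
def beta (n : ℕ) (a : Bool) (r : ℕ) : HC := (betaF_memLp n a r).toLp _

theorem beta_coe (n : ℕ) (a : Bool) (r : ℕ) : beta n a r =ᵐ[haar] betaF n a r :=
  MemLp.coeFn_toLp _

theorem orthonormal_beta (n : ℕ) :
    Orthonormal ℂ (fun p : Bool × Fin (mm n) => beta n p.1 p.2) := by
  rw [orthonormal_iff_ite]
  rintro ⟨a, r⟩ ⟨b, r'⟩
  set G : Circ → ℂ := fun y => conj (vv a (rho (stageK n) y)) * vv b (rho (stageK n) y)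
  have hm : ∀ c : Bool, Measurable fun y => vv c (rho (stageK n) y) := by
    intro c
    unfold vv
    cases c
    · simp only [Bool.false_eq_true, if_false]; exact measurable_rho _
    · simp only [if_true]; exact measurable_const
  have hG : AEStronglyMeasurable G haar :=
    ((Complex.continuous_conj.measurable.comp (hm a)).mul (hm b)).aestronglyMeasurable
  rw [L2.inner_def]
  have e : ∀ᵐ x ∂haar, ⟪(beta n a r : Circ → ℂ) x, (beta n b r' : Circ → ℂ) x⟫_ℂ =
      fourier (((r' : ℕ) : ℤ) - (r : ℕ)) x * G (mm n • x) := by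
    filter_upwards [beta_coe n a r, beta_coe n b r'] with x h1 h2
    rw [h1, h2, RCLike.inner_apply', betaF, betaF, sub_eq_add_neg, fourier_add, fourier_neg,
      map_mul, map_mul]
    have : conj (gauge n x) * gauge n x = 1 := by
      rw [Complex.conj_mul', norm_gauge]; simp
    simp only [G, dir]
    linear_combination (conj (fourier ((r : ℕ) : ℤ) x) * fourier ((r' : ℕ) : ℤ) x *
      (conj (vv a (rho (stageK n) (mm n • x))) * vv b (rho (stageK n) (mm n • x)))) * this
  rw [integral_congr_ae e, integral_fourier_periodic (mm_pos n) hG _ (by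
    have := r.2; have := r'.2; omega)]
  by_cases hr : r = r'
  · subst hr
    rw [if_pos (sub_self _)]
    have hK := stageK_pos n
    have hn1 : ∀ y, conj (rho (stageK n) y) * rho (stageK n) y = 1 := fun y => by
      rw [Complex.conj_mul', norm_rho]; simp
    cases a <;> cases b
    · simp [G, vv, hn1]
    · simp [G, vv, integral_conj, integral_rho _ hK]
    · simp [G, vv, integral_rho _ hK]
    · simp [G, vv]
  · rw [if_neg (by simp [sub_eq_zero]; exact fun hc => hr (Fin.ext hc.symm)),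
      if_neg (by simp [hr])]

/-- The stage maps. -/
def Jn (N : ℕ) : H →L[ℂ] HC :=
  ∑ p : Bool × Fin (mm N), (innerSL ℂ (gen 1 p.1 N p.2)).smulRight (beta N p.1 p.2)

theorem Jn_apply (N : ℕ) (h : H) :
    Jn N h = ∑ p : Bool × Fin (mm N), ⟪gen 1 p.1 N p.2, h⟫_ℂ • beta N p.1 p.2 := by
  simp [Jn, ContinuousLinearMap.sum_apply]

theorem norm_sq_sum_beta (N : ℕ) (c : Bool × Fin (mm N) → ℂ) :
    ‖∑ p, c p • beta N p.1 p.2‖ ^ 2 = ∑ p, ‖c p‖ ^ 2 := by
  rw [@norm_sq_eq_re_inner ℂ, (orthonormal_beta N).inner_sum c c univ, map_sum]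
  refine sum_congr rfl fun p _ => ?_
  rw [Complex.conj_mul']
  norm_cast

theorem norm_sq_sum_gen {k : ℕ} (hk : k ≠ 0) (N : ℕ) (c : Bool × Fin (mm N) → ℂ) :
    ‖∑ p, c p • gen k p.1 N p.2‖ ^ 2 = ∑ p, ‖c p‖ ^ 2 := by
  rw [@norm_sq_eq_re_inner ℂ, (orthonormal_gen hk N).inner_sum c c univ, map_sum]
  refine sum_congr rfl fun p _ => ?_
  rw [Complex.conj_mul']
  norm_cast

theorem norm_Jn_le (N : ℕ) (h : H) : ‖Jn N h‖ ≤ ‖h‖ := by
  have h1 : ‖Jn N h‖ ^ 2 ≤ ‖h‖ ^ 2 := by
    rw [Jn_apply, norm_sq_sum_beta]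
    exact (orthonormal_gen one_ne_zero N).sum_inner_products_le h
  nlinarith [norm_nonneg (Jn N h), norm_nonneg h]

theorem Jn_sum (N : ℕ) (c : Bool × Fin (mm N) → ℂ) :
    Jn N (∑ p, c p • gen 1 p.1 N p.2) = ∑ p, c p • beta N p.1 p.2 := by
  rw [Jn_apply]
  refine sum_congr rfl fun p _ => ?_
  rw [(orthonormal_gen one_ne_zero N).inner_right_fintype c p]

theorem Jn_gen (N : ℕ) (a : Bool) {r : ℕ} (hr : r < mm N) : Jn N (gen 1 a N r) = beta N a r := by
  have ho := orthonormal_iff_ite.1 (orthonormal_gen one_ne_zero N)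
  rw [Jn_apply, sum_eq_single (a, (⟨r, hr⟩ : Fin (mm N)))]
  · simp [norm_gen a hr]
  · intro p _ hp
    rw [ho p (a, ⟨r, hr⟩), if_neg hp, zero_smul]
  · simp

theorem norm_Jn_stage (N : ℕ) {h : H} (hh : h ∈ stageSpan 1 N) : ‖Jn N h‖ = ‖h‖ := by
  obtain ⟨c, rfl⟩ := (Submodule.mem_span_range_iff_exists_fun ℂ).1 hh
  rw [← sq_eq_sq₀ (norm_nonneg _) (norm_nonneg _), Jn_sum, norm_sq_sum_beta,
    norm_sq_sum_gen one_ne_zero]

theorem Jn_succ_gen (N : ℕ) (a : Bool) {r : ℕ} (hr : r < mm N) :
    (Jn (N + 1) (gen 1 a N r) : Circ → ℂ) =ᵐ[haar]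
      fun x => gauge (N + 1) x * fourier (r : ℤ) x * img N a x := by
  rw [gen_refine 1 a N r hr, map_sum]
  have e : ∀ i ∈ range (qq N), Jn (N + 1) (coef 1 a N i • gen 1 (flipB a i) (N + 1) (r + i * mm N)) =
      coef 1 a N i • beta (N + 1) (flipB a i) (r + i * mm N) := fun i hi => by
    rw [map_smul, Jn_gen (N + 1) _ (digit_lt (mem_range.1 hi) hr)]
  rw [sum_congr rfl e]
  have h2 : ∀ᵐ x ∂haar, ∀ i ∈ range (qq N),
      ((coef 1 a N i • beta (N + 1) (flipB a i) (r + i * mm N) : HC) : Circ → ℂ) x =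
        coef 1 a N i * betaF (N + 1) (flipB a i) (r + i * mm N) x := by
    refine (ae_ball_iff (range (qq N)).countable_toSet).2 fun i _ => ?_
    filter_upwards [Lp.coeFn_smul (coef 1 a N i) (beta (N + 1) (flipB a i) (r + i * mm N)),
      beta_coe (N + 1) (flipB a i) (r + i * mm N)] with x h3 h4
    rw [h3, Pi.smul_apply, h4, smul_eq_mul]
  filter_upwards [Lp.coeFn_finsetSum (range (qq N))
    (fun i => coef 1 a N i • beta (N + 1) (flipB a i) (r + i * mm N)), h2] with x h1 h2'
  rw [h1, Finset.sum_apply, sum_congr rfl h2', img, stageS, Finset.mul_sum, Finset.mul_sum]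
  refine sum_congr rfl fun i _ => ?_
  rw [betaF, Nat.cast_add, Nat.cast_mul, fourier_add, fourier_nsmul, coef]
  simp only [Nat.cast_one, mul_one]
  ring

theorem stage_defect (N : ℕ) (a : Bool) (x : Circ) :
    ‖conj (unitOf (img N true x)) * img N a x - vv a (dir N x)‖ ≤
      err (stageK N) (stageL N) (mm N • x) := by
  obtain ⟨h1, h2⟩ := stage_pointwise (stageK N) (stageL N) (stageK_pos N) (stageL_spec N).1
    (mm N • x) (norm_dir (N + 1) x)
  have e : ‖((‖img N true x‖ : ℝ) : ℂ) - 1‖ = |‖img N true x‖ - 1| := by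
    rw [← Complex.ofReal_one, ← Complex.ofReal_sub, Complex.norm_real, Real.norm_eq_abs]
  cases a
  · simp only [vv, Bool.false_eq_true, if_false]
    have e2 : conj (unitOf (img N true x)) * img N false x - dir N x =
        conj (unitOf (img N true x)) * (img N false x - dir N x * img N true x) +
          dir N x * (((‖img N true x‖ : ℝ) : ℂ) - 1) := by
      have := conj_unitOf_mul (img N true x)
      linear_combination dir N x * this
    rw [e2]
    refine (norm_add_le _ _).trans (le_trans (le_of_eq ?_) h2)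
    rw [norm_mul, norm_mul, Complex.norm_conj, norm_unitOf, norm_dir, one_mul, one_mul, e, add_comm]
    rfl
  · simp only [vv, if_true]
    rw [conj_unitOf_mul, e]
    exact h1

/-- The error function in complex form. -/
def errC (N : ℕ) (y : Circ) : ℂ := ((err (stageK N) (stageL N) y ^ 2 : ℝ) : ℂ)

theorem integral_poly_err (N : ℕ) (c : Fin (mm N) → ℂ) :
    ∫ x, ‖∑ r : Fin (mm N), c r * fourier ((r : ℕ) : ℤ) x‖ ^ 2 *
        err (stageK N) (stageL N) (mm N • x) ^ 2 ∂haar =
      (∑ r, ‖c r‖ ^ 2) * ∫ y, err (stageK N) (stageL N) y ^ 2 ∂haar := by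
  set K := stageK N
  set L := stageL N
  obtain ⟨M, hM⟩ := exists_err_le K L
  have hmeas : AEStronglyMeasurable (errC N) haar :=
    (Complex.measurable_ofReal.comp ((measurable_err K L).pow_const 2)).aestronglyMeasurable
  have hint : ∀ r r' : Fin (mm N), Integrable (fun x => conj (c r) * c r' *
      (fourier (((r' : ℕ) : ℤ) - (r : ℕ)) x * errC N (mm N • x))) haar := by
    intro r r'
    refine (Integrable.of_bound ?_ (M ^ 2) (ae_of_all _ fun x => ?_)).const_mul _
    · exact (map_continuous _).aestronglyMeasurable.mul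
        ((Complex.measurable_ofReal.comp ((measurable_err K L).pow_const 2)).comp
          (continuous_nsmul _).measurable).aestronglyMeasurable
    · rw [norm_mul, norm_fourier_apply, one_mul, errC, Complex.norm_real,
        Real.norm_of_nonneg (sq_nonneg _)]
      exact pow_le_pow_left₀ (err_nonneg K L _) (hM _) 2
  have e : ∀ x, ((‖∑ r : Fin (mm N), c r * fourier ((r : ℕ) : ℤ) x‖ ^ 2 *
        err K L (mm N • x) ^ 2 : ℝ) : ℂ) =
      ∑ r, ∑ r', conj (c r) * c r' *
        (fourier (((r' : ℕ) : ℤ) - (r : ℕ)) x * errC N (mm N • x)) := by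
    intro x
    rw [Complex.ofReal_mul, Complex.ofReal_pow, ← Complex.conj_mul', map_sum, Finset.sum_mul_sum,
      Finset.sum_mul]
    refine sum_congr rfl fun r _ => ?_
    rw [Finset.sum_mul]
    refine sum_congr rfl fun r' _ => ?_
    rw [map_mul, sub_eq_add_neg, fourier_add, fourier_neg]
    simp only [errC]
    ring
  apply Complex.ofReal_injective
  rw [← integral_complex_ofReal, integral_congr_ae (ae_of_all _ e),
    integral_finsetSum _ fun r _ => integrable_finsetSum _ fun r' _ => hint r r', Complex.ofReal_mul,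
    Complex.ofReal_sum, Finset.sum_mul]
  refine sum_congr rfl fun r _ => ?_
  rw [integral_finsetSum _ fun r' _ => hint r r', sum_eq_single r]
  · rw [integral_const_mul, integral_fourier_periodic (mm_pos N) hmeas _ (by simp [mm_pos N]),
      if_pos (sub_self _), ← integral_complex_ofReal, Complex.conj_mul']
    push_cast
    simp only [errC]
    push_cast
    rfl
  · intro r' _ hne
    rw [integral_const_mul, integral_fourier_periodic (mm_pos N) hmeas _ (by
      have := r.2; have := r'.2; omega), if_neg, mul_zero]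
    simp only [sub_eq_zero, Nat.cast_inj]
    exact fun hc => hne (Fin.ext hc)
  · simp

theorem norm_step (N : ℕ) {h : H} (hh : h ∈ stageSpan 1 N) :
    ‖Jn (N + 1) h - Jn N h‖ ≤ 2 * (1 / 2) ^ N * ‖h‖ := by
  obtain ⟨c, rfl⟩ := (Submodule.mem_span_range_iff_exists_fun ℂ).1 hh
  have hnh := norm_sq_sum_gen one_ne_zero N c
  set nh := ‖∑ p, c p • gen 1 p.1 N p.2‖
  have hnh0 : 0 ≤ nh := norm_nonneg _
  obtain ⟨-, -, herr, -⟩ := stageL_spec N
  set K := stageK N
  set L := stageL N
  set D : HC := Jn (N + 1) (∑ p, c p • gen 1 p.1 N p.2) - Jn N (∑ p, c p • gen 1 p.1 N p.2)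
  set P : Bool → Circ → ℂ := fun a x => ∑ r : Fin (mm N), c (a, r) * fourier ((r : ℕ) : ℤ) x
  have hD : D = ∑ p : Bool × Fin (mm N), c p • (Jn (N + 1) (gen 1 p.1 N p.2) - beta N p.1 p.2) := by
    simp only [D]
    rw [Jn_sum, map_sum, ← sum_sub_distrib]
    refine sum_congr rfl fun p _ => ?_
    rw [map_smul, smul_sub]
  have hp : ∀ᵐ x ∂haar, ∀ p : Bool × Fin (mm N),
      ((c p • (Jn (N + 1) (gen 1 p.1 N p.2) - beta N p.1 p.2) : HC) : Circ → ℂ) x =
        c p * (gauge N x * fourier ((p.2 : ℕ) : ℤ) x *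
          (conj (unitOf (img N true x)) * img N p.1 x - vv p.1 (dir N x))) := by
    rw [ae_all_iff]
    intro p
    filter_upwards [Lp.coeFn_smul (c p) (Jn (N + 1) (gen 1 p.1 N p.2) - beta N p.1 p.2),
      Lp.coeFn_sub (Jn (N + 1) (gen 1 p.1 N p.2)) (beta N p.1 p.2),
      Jn_succ_gen N p.1 p.2.2, beta_coe N p.1 p.2] with x h1 h2 h3 h4
    rw [h1, Pi.smul_apply, h2, Pi.sub_apply, h3, h4, smul_eq_mul, betaF, gauge]
    ring
  have hbd : ∀ᵐ x ∂haar, ‖(D : Circ → ℂ) x‖ ^ 2 ≤
      2 * (‖P true x‖ ^ 2 * err K L (mm N • x) ^ 2) + 2 * (‖P false x‖ ^ 2 * err K L (mm N • x) ^ 2) := by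
    rw [hD]
    filter_upwards [Lp.coeFn_finsetSum univ
      (fun p : Bool × Fin (mm N) => c p • (Jn (N + 1) (gen 1 p.1 N p.2) - beta N p.1 p.2)), hp]
      with x h1 h2
    rw [h1, Finset.sum_apply]
    simp only [h2]
    have e : ∑ p : Bool × Fin (mm N), c p * (gauge N x * fourier ((p.2 : ℕ) : ℤ) x *
        (conj (unitOf (img N true x)) * img N p.1 x - vv p.1 (dir N x))) =
        gauge N x * (P true x * (conj (unitOf (img N true x)) * img N true x - vv true (dir N x)) +
          P false x * (conj (unitOf (img N true x)) * img N false x - vv false (dir N x))) := by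
      rw [Fintype.sum_prod_type, Fintype.sum_bool, mul_add]
      simp only [P, Finset.sum_mul, Finset.mul_sum]
      congr 1 <;> exact sum_congr rfl fun r _ => by ring
    rw [e, norm_mul, norm_gauge, one_mul]
    have h3 : ‖P true x * (conj (unitOf (img N true x)) * img N true x - vv true (dir N x)) +
        P false x * (conj (unitOf (img N true x)) * img N false x - vv false (dir N x))‖ ≤
        ‖P true x‖ * err K L (mm N • x) + ‖P false x‖ * err K L (mm N • x) := by
      refine (norm_add_le _ _).trans (add_le_add ?_ ?_) <;> rw [norm_mul] <;>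
        exact mul_le_mul_of_nonneg_left (stage_defect N _ x) (norm_nonneg _)
    refine (pow_le_pow_left₀ (norm_nonneg _) h3 2).trans ?_
    nlinarith [sq_nonneg (‖P true x‖ * err K L (mm N • x) - ‖P false x‖ * err K L (mm N • x))]
  obtain ⟨M, hM⟩ := exists_err_le K L
  have hi : ∀ a, Integrable (fun x => ‖P a x‖ ^ 2 * err K L (mm N • x) ^ 2) haar := by
    intro a
    have hc : Continuous (P a) :=
      continuous_finsetSum _ fun r _ => continuous_const.mul (map_continuous _)
    obtain ⟨B, hB⟩ := isCompact_univ.exists_bound_of_continuousOn hc.continuousOn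
    refine Integrable.of_bound ((hc.norm.pow 2).measurable.mul
      (((measurable_err K L).pow_const 2).comp (continuous_nsmul _).measurable)).aestronglyMeasurable
      (B ^ 2 * M ^ 2) (ae_of_all _ fun x => ?_)
    rw [norm_mul, norm_pow, norm_norm, norm_pow, Real.norm_of_nonneg (err_nonneg K L _)]
    exact mul_le_mul (pow_le_pow_left₀ (norm_nonneg _) (hB x (Set.mem_univ _)) 2)
      (pow_le_pow_left₀ (err_nonneg K L _) (hM _) 2) (sq_nonneg _) (sq_nonneg _)
  have hDsq : ‖D‖ ^ 2 = ∫ x, ‖(D : Circ → ℂ) x‖ ^ 2 ∂haar := by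
    rw [@norm_sq_eq_re_inner ℂ, L2.inner_def, ← integral_re (L2.integrable_inner D D)]
    refine integral_congr_ae (ae_of_all _ fun x => ?_)
    simp only
    rw [← @norm_sq_eq_re_inner ℂ]
  have hmain : ‖D‖ ^ 2 ≤ (2 * (1 / 2) ^ N * nh) ^ 2 := by
    rw [hDsq]
    refine (integral_mono_of_nonneg (ae_of_all _ fun x => sq_nonneg _)
      (((hi true).const_mul 2).add ((hi false).const_mul 2)) hbd).trans ?_
    simp only [Pi.add_apply]
    rw [integral_add ((hi true).const_mul 2) ((hi false).const_mul 2), integral_const_mul,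
      integral_const_mul, integral_poly_err N (fun r => c (true, r)),
      integral_poly_err N (fun r => c (false, r)), ← mul_add, ← add_mul]
    have hs : (∑ r, ‖c (true, r)‖ ^ 2) + ∑ r, ‖c (false, r)‖ ^ 2 = nh ^ 2 := by
      rw [hnh, Fintype.sum_prod_type, Fintype.sum_bool]
    rw [hs]
    have : ((1 / 2 : ℝ) ^ N) ^ 2 = (1 / 4) ^ N := by
      rw [← pow_mul, Nat.mul_comm, pow_mul]; norm_num
    calc 2 * (nh ^ 2 * ∫ y, err K L y ^ 2 ∂haar) ≤ 2 * (nh ^ 2 * (1 / 4) ^ N) := by gcongr
      _ ≤ (2 * (1 / 2) ^ N * nh) ^ 2 := by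
          rw [mul_pow, mul_pow, this]
          nlinarith [pow_pos (show (0 : ℝ) < 1 / 4 by norm_num) N, sq_nonneg nh,
            mul_nonneg (pow_nonneg (show (0 : ℝ) ≤ 1 / 4 by norm_num) N) (sq_nonneg nh)]
  exact (sq_le_sq₀ (norm_nonneg _) (by positivity)).1 hmain

theorem norm_Jn_sub_le {n N : ℕ} (hN : n ≤ N) {h : H} (hh : h ∈ stageSpan 1 n) :
    ‖Jn N h - Jn n h‖ ≤ (4 * (1 / 2) ^ n - 4 * (1 / 2) ^ N) * ‖h‖ := by
  induction N, hN using Nat.le_induction with
  | base => simp
  | succ j hj ih =>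
    have hs := norm_step j (stageSpan_mono 1 hj hh)
    have := norm_sub_le_norm_sub_add_norm_sub (Jn (j + 1) h) (Jn j h) (Jn n h)
    have e : (4 * (1 / 2 : ℝ) ^ n - 4 * (1 / 2) ^ (j + 1)) * ‖h‖ =
        2 * (1 / 2) ^ j * ‖h‖ + (4 * (1 / 2) ^ n - 4 * (1 / 2) ^ j) * ‖h‖ := by
      rw [pow_succ]; ring
    linarith

theorem Jn_orth (N : ℕ) {g : H} (hg : g ∈ (comp 1)ᗮ) : Jn N g = 0 := by
  rw [Jn_apply]
  refine sum_eq_zero fun p _ => ?_
  rw [hg _ (gen_mem_comp 1 p.1 p.2.2), zero_smul]

theorem exists_limit (h : H) : ∃ g, Tendsto (fun N => Jn N h) atTop (𝓝 g) := by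
  refine cauchySeq_tendsto_of_complete (Metric.cauchySeq_iff'.2 fun ε hε => ?_)
  set f := (comp 1).starProjection h
  have hf : f ∈ comp 1 := Submodule.starProjection_apply_mem _ _
  have hperp : h - f ∈ (comp 1)ᗮ := Submodule.sub_starProjection_mem_orthogonal h
  have hJ : ∀ N, Jn N h = Jn N f := fun N => by
    have := Jn_orth N hperp
    rw [map_sub] at this
    exact sub_eq_zero.1 this
  obtain ⟨n, F, hF, hFf⟩ := exists_stage_near hf (show (0 : ℝ) < ε / 4 by linarith)
  have hlim : Tendsto (fun N : ℕ => 8 * (1 / 2 : ℝ) ^ N * ‖F‖) atTop (𝓝 0) := by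
    simpa using ((tendsto_pow_atTop_nhds_zero_of_lt_one (by norm_num : (0 : ℝ) ≤ 1 / 2)
      (by norm_num)).const_mul 8).mul_const ‖F‖
  obtain ⟨N0, hN0⟩ := (Metric.tendsto_atTop.1 hlim) (ε / 4) (by linarith)
  refine ⟨max n N0, fun N hN => ?_⟩
  have hs := hN0 (max n N0) (le_max_right _ _)
  rw [Real.dist_eq, sub_zero, abs_of_nonneg (by positivity)] at hs
  have h1 := norm_Jn_sub_le hN (stageSpan_mono 1 (le_max_left n N0) hF)
  have h2 : (4 * (1 / 2 : ℝ) ^ (max n N0) - 4 * (1 / 2) ^ N) * ‖F‖ ≤ 8 * (1 / 2) ^ (max n N0) * ‖F‖ := by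
    refine mul_le_mul_of_nonneg_right ?_ (norm_nonneg _)
    have : (0 : ℝ) ≤ (1 / 2) ^ N := by positivity
    have : (0 : ℝ) ≤ (1 / 2) ^ (max n N0) := by positivity
    linarith
  rw [dist_eq_norm, hJ, hJ]
  have e : Jn N f - Jn (max n N0) f =
      Jn N (f - F) + (Jn N F - Jn (max n N0) F) - Jn (max n N0) (f - F) := by
    rw [map_sub, map_sub]; abel
  rw [e]
  have := norm_sub_le (Jn N (f - F) + (Jn N F - Jn (max n N0) F)) (Jn (max n N0) (f - F))
  have := norm_add_le (Jn N (f - F)) (Jn N F - Jn (max n N0) F)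
  have := norm_Jn_le N (f - F)
  have := norm_Jn_le (max n N0) (f - F)
  linarith

/-- The limit map. -/
def Psi : H →L[ℂ] HC :=
  continuousLinearMapOfTendsto Jn (f := fun h => (exists_limit h).choose)
    (tendsto_pi_nhds.2 fun h => (exists_limit h).choose_spec)

theorem tendsto_Psi (h : H) : Tendsto (fun N => Jn N h) atTop (𝓝 (Psi h)) :=
  (exists_limit h).choose_spec

theorem norm_Psi_le (h : H) : ‖Psi h‖ ≤ ‖h‖ :=
  le_of_tendsto (tendsto_Psi h).norm (Eventually.of_forall fun N => norm_Jn_le N h)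

theorem norm_Psi {h : H} (hh : h ∈ comp 1) : ‖Psi h‖ = ‖h‖ := by
  refine le_antisymm (norm_Psi_le h) (le_of_forall_pos_le_add fun ε hε => ?_)
  obtain ⟨n, F, hF, hd⟩ := exists_stage_near hh (show (0 : ℝ) < ε / 2 by linarith)
  have hFn : ‖Psi F‖ = ‖F‖ := by
    refine tendsto_nhds_unique (tendsto_Psi F).norm (tendsto_const_nhds.congr' ?_)
    filter_upwards [eventually_ge_atTop n] with N hN
    exact (norm_Jn_stage N (stageSpan_mono 1 hN hF)).symm
  have h1 : ‖Psi F‖ - ‖Psi h‖ ≤ ‖h - F‖ := by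
    calc ‖Psi F‖ - ‖Psi h‖ ≤ ‖Psi F - Psi h‖ := norm_sub_norm_le _ _
      _ = ‖Psi (h - F)‖ := by rw [map_sub, norm_sub_rev]
      _ ≤ _ := norm_Psi_le _
  have h2 : ‖h‖ - ‖F‖ ≤ ‖h - F‖ := norm_sub_norm_le _ _
  linarith

theorem shift_memLp (j : ℤ) (f : HC) : MemLp (fun x => fourier j x * f x) 2 haar :=
  (Lp.memLp f).of_le ((map_continuous (fourier j)).aestronglyMeasurable.mul
    (Lp.aestronglyMeasurable f)) (ae_of_all _ fun x => by
      rw [norm_mul, norm_fourier_apply, one_mul])

/-- Multiplication by a character. -/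
def shiftC (j : ℤ) : HC →L[ℂ] HC :=
  LinearMap.mkContinuous
    { toFun := fun f => (shift_memLp j f).toLp _
      map_add' := fun f g => by
        refine Lp.ext ?_
        filter_upwards [(shift_memLp j (f + g)).coeFn_toLp, Lp.coeFn_add f g,
          Lp.coeFn_add ((shift_memLp j f).toLp _) ((shift_memLp j g).toLp _),
          (shift_memLp j f).coeFn_toLp, (shift_memLp j g).coeFn_toLp] with x h1 h2 h3 h4 h5
        rw [h1, h3, Pi.add_apply, h4, h5, h2, Pi.add_apply, mul_add]
      map_smul' := fun c f => by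
        refine Lp.ext ?_
        filter_upwards [(shift_memLp j (c • f)).coeFn_toLp, Lp.coeFn_smul c f,
          Lp.coeFn_smul c ((shift_memLp j f).toLp _), (shift_memLp j f).coeFn_toLp]
          with x h1 h2 h3 h4
        simp only [RingHom.id_apply]
        rw [h1, h3, Pi.smul_apply, h4, h2, Pi.smul_apply, smul_eq_mul, smul_eq_mul]
        ring }
    1 fun f => by
      rw [one_mul]
      change ‖(shift_memLp j f).toLp _‖ ≤ _
      refine Lp.norm_le_norm_of_ae_le ?_
      filter_upwards [(shift_memLp j f).coeFn_toLp] with x h1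
      rw [h1, norm_mul, norm_fourier_apply, one_mul]

theorem shiftC_coe (j : ℤ) (f : HC) :
    shiftC j f =ᵐ[haar] fun x => fourier j x * f x := (shift_memLp j f).coeFn_toLp

theorem shiftC_beta (N : ℕ) (a : Bool) (r : ℕ) : shiftC 1 (beta N a r) = beta N a (r + 1) := by
  refine Lp.ext ?_
  filter_upwards [shiftC_coe 1 (beta N a r), beta_coe N a r, beta_coe N a (r + 1)] with x h1 h2 h3
  rw [h1, h2, h3, betaF, betaF, Nat.cast_add, Nat.cast_one, fourier_add]
  ring

theorem shiftC_shiftC (i j : ℤ) (f : HC) : shiftC i (shiftC j f) = shiftC (i + j) f := by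
  refine Lp.ext ?_
  filter_upwards [shiftC_coe i (shiftC j f), shiftC_coe j f, shiftC_coe (i + j) f] with x h1 h2 h3
  rw [h1, h2, h3, fourier_add, mul_assoc]

theorem shiftC_zero (f : HC) : shiftC 0 f = f := by
  refine Lp.ext ?_
  filter_upwards [shiftC_coe 0 f] with x h1
  rw [h1, fourier_zero, one_mul]

/-- Vectors of a stage away from its top level. -/
def safeSpan (N : ℕ) : Submodule ℂ H :=
  Submodule.span ℂ (Set.range fun p : Bool × {r : Fin (mm N) // (r : ℕ) + 1 < mm N} =>
    gen 1 p.1 N p.2.1)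

theorem safeSpan_mono : Monotone safeSpan := by
  refine monotone_nat_of_le_succ fun n => ?_
  rw [safeSpan, Submodule.span_le]
  rintro _ ⟨⟨a, ⟨r, hr⟩⟩, rfl⟩
  change gen 1 a n r ∈ safeSpan (n + 1)
  rw [gen_refine 1 a n r r.2]
  refine Submodule.sum_mem _ fun i hi => Submodule.smul_mem _ _ ?_
  have h1 := digit_lt (n := n) (mem_range.1 hi) hr
  rw [show (r : ℕ) + 1 + i * mm n = (r : ℕ) + i * mm n + 1 by ring] at h1
  exact Submodule.subset_span ⟨(flipB a i, ⟨⟨r + i * mm n, by omega⟩, h1⟩), rfl⟩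

theorem Jn_V_safe (N : ℕ) {h : H} (hh : h ∈ safeSpan N) : Jn N (V h) = shiftC 1 (Jn N h) := by
  have : safeSpan N ≤ LinearMap.ker
      (((Jn N).comp V.toContinuousLinearMap - (shiftC 1).comp (Jn N) : H →L[ℂ] HC) : H →ₗ[ℂ] HC) := by
    rw [safeSpan, Submodule.span_le]
    rintro _ ⟨⟨a, ⟨r, hr⟩⟩, rfl⟩
    change Jn N (V (gen 1 a N r)) - shiftC 1 (Jn N (gen 1 a N r)) = 0
    rw [V_gen 1 a N r hr, Jn_gen N a hr, Jn_gen N a r.2, shiftC_beta, sub_self]
  exact sub_eq_zero.1 (this hh)

theorem Psi_V_gen (a : Bool) {n r : ℕ} (hr : r + 1 < mm n) :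
    Psi (V (gen 1 a n r)) = shiftC 1 (Psi (gen 1 a n r)) := by
  refine tendsto_nhds_unique (tendsto_Psi _) ?_
  refine (((shiftC 1).continuous.tendsto _).comp (tendsto_Psi (gen 1 a n r))).congr' ?_
  filter_upwards [eventually_ge_atTop n] with N hN
  have hmem : gen 1 a n r ∈ safeSpan n :=
    Submodule.subset_span ⟨(a, ⟨⟨r, by omega⟩, hr⟩), rfl⟩
  exact (Jn_V_safe N (safeSpan_mono hN hmem)).symm

theorem Psi_V {f : H} (hf : f ∈ comp 1) : Psi (V f) = shiftC 1 (Psi f) := by
  refine sub_eq_zero.1 (comp_le_ker (Psi.comp V.toContinuousLinearMap - (shiftC 1).comp Psi) 1 ?_ hf)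
  refine vanish_top _ 1 fun a n r hr => ?_
  exact sub_eq_zero.2 (Psi_V_gen a hr)

theorem Psi_W {f : H} (hf : f ∈ comp 1) : Psi (W f) = shiftC (-1) (Psi f) := by
  have h := Psi_V (W_mem 1 hf)
  rw [V_W] at h
  rw [h, shiftC_shiftC, neg_add_cancel, shiftC_zero]

theorem ae_eq_zero_of_fourier {F : Circ → ℂ} (hF : Integrable F haar)
    (h : ∀ j : ℤ, ∫ x, fourier j x * F x ∂haar = 0) : ∀ᵐ x ∂haar, F x = 0 := by
  have hi : ∀ φ : C(Circ, ℂ), Integrable (fun x => φ x * F x) haar := fun φ =>
    hF.bdd_mul (map_continuous φ).aestronglyMeasurable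
      (ae_of_all _ fun x => φ.norm_coe_le_norm x)
  set Λ : C(Circ, ℂ) →L[ℂ] ℂ := LinearMap.mkContinuous
    { toFun := fun φ => ∫ x, φ x * F x ∂haar
      map_add' := fun φ ψ => by
        simp only [ContinuousMap.add_apply, add_mul]
        exact integral_add (hi φ) (hi ψ)
      map_smul' := fun c φ => by
        simp only [ContinuousMap.smul_apply, smul_eq_mul, mul_assoc, RingHom.id_apply]
        exact integral_const_mul c _ }
    (∫ x, ‖F x‖ ∂haar) (fun φ => by
      refine (norm_integral_le_integral_norm _).trans ?_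
      rw [mul_comm, ← integral_const_mul]
      refine integral_mono (hi φ).norm (hF.norm.const_mul _) fun x => ?_
      simp only [norm_mul]
      exact mul_le_mul_of_nonneg_right (φ.norm_coe_le_norm x) (norm_nonneg _))
  have hall : ∀ φ : C(Circ, ℂ), ∫ x, φ x * F x ∂haar = 0 := by
    intro φ
    have hle : (Submodule.span ℂ (Set.range (@fourier (1 : ℝ)))).topologicalClosure ≤
        LinearMap.ker (Λ : C(Circ, ℂ) →ₗ[ℂ] ℂ) := by
      refine Submodule.topologicalClosure_minimal _ ?_ Λ.isClosed_ker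
      rw [Submodule.span_le]
      rintro _ ⟨j, rfl⟩
      exact h j
    rw [span_fourier_closure_eq_top] at hle
    exact hle Submodule.mem_top
  apply ae_eq_zero_of_forall_setIntegral_isClosed_eq_zero hF
  intro s hs
  have hpos : ∀ n : ℕ, (0 : ℝ) < 1 / ((n : ℝ) + 1) := fun n => by positivity
  have hind := thickenedIndicator_tendsto_indicator_closure hpos
    tendsto_one_div_add_atTop_nhds_zero_nat s
  rw [hs.closure_eq, tendsto_pi_nhds] at hind
  have hzero : ∀ n : ℕ, ∫ x, (((thickenedIndicator (hpos n) s x : NNReal) : ℝ) : ℂ) * F x ∂haar = 0 :=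
    fun n => hall ⟨fun x => (((thickenedIndicator (hpos n) s x : NNReal) : ℝ) : ℂ), by fun_prop⟩
  have hlim : Tendsto (fun n : ℕ => ∫ x, (((thickenedIndicator (hpos n) s x : NNReal) : ℝ) : ℂ) * F x ∂haar)
      atTop (𝓝 (∫ x in s, F x ∂haar)) := by
    rw [← integral_indicator hs.measurableSet]
    refine tendsto_integral_of_dominated_convergence (fun x => ‖F x‖) (fun n =>
      (Continuous.aestronglyMeasurable (by fun_prop)).mul hF.aestronglyMeasurable) hF.norm
      (fun n => ae_of_all _ fun x => ?_) (ae_of_all _ fun x => ?_)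
    · rw [norm_mul]
      refine mul_le_of_le_one_left (norm_nonneg _) ?_
      rw [Complex.norm_real, NNReal.norm_eq]
      exact_mod_cast thickenedIndicator_le_one (hpos n) s x
    · have hx := (((Complex.continuous_ofReal.comp NNReal.continuous_coe).tendsto _).comp
        (hind x)).mul_const (F x)
      simp only [Function.comp_apply] at hx
      convert hx using 2
      by_cases hxs : x ∈ s <;> simp [hxs]
  simp only [hzero] at hlim
  exact tendsto_nhds_unique hlim tendsto_const_nhds

theorem dist_gauge_le (n : ℕ) : ‖Psi (gen 1 true n 0) - beta n true 0‖ ≤ 4 * (1 / 2) ^ n := by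
  refine le_of_tendsto ((tendsto_Psi _).sub_const _).norm ?_
  filter_upwards [eventually_ge_atTop n] with N hN
  have := norm_Jn_sub_le hN (gen_mem_stageSpan 1 true (mm_pos n))
  rw [Jn_gen n true (mm_pos n), norm_gen true (mm_pos n), mul_one] at this
  have : (0 : ℝ) ≤ (1 / 2) ^ N := by positivity
  linarith

/-- The restriction of the limit map to the first component. -/
def PsiC : comp 1 →ₗᵢ[ℂ] HC where
  toLinearMap := (Psi : H →ₗ[ℂ] HC).comp (comp 1).subtype
  norm_map' := fun f => norm_Psi f.2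

theorem Psi_onto (g : HC) : ∃ f ∈ comp 1, Psi f = g := by
  suffices h : LinearMap.range PsiC.toLinearMap = ⊤ by
    obtain ⟨f, hf⟩ := LinearMap.mem_range.1 (h ▸ Submodule.mem_top : g ∈ LinearMap.range PsiC.toLinearMap)
    exact ⟨f, f.2, hf⟩
  set R := LinearMap.range PsiC.toLinearMap
  have hcl : IsClosed (R : Set HC) := by
    have := PsiC.isometry.isClosedEmbedding.isClosed_range
    simpa [R, LinearMap.coe_range] using this
  haveI : CompleteSpace R := hcl.completeSpace_coe
  rw [← Submodule.orthogonal_eq_bot_iff, Submodule.eq_bot_iff]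
  intro h hh
  have hmem : ∀ f ∈ comp 1, ⟪Psi f, h⟫_ℂ = 0 := fun f hf =>
    hh _ ⟨⟨f, hf⟩, rfl⟩
  have hiter : ∀ (j : ℕ) (f : H), f ∈ comp 1 →
      (∃ f' ∈ comp 1, Psi f' = shiftC j (Psi f)) ∧ ∃ f' ∈ comp 1, Psi f' = shiftC (-j) (Psi f) := by
    intro j
    induction j with
    | zero => intro f hf; exact ⟨⟨f, hf, by simp [shiftC_zero]⟩, ⟨f, hf, by simp [shiftC_zero]⟩⟩
    | succ j ih =>
      intro f hf
      obtain ⟨⟨f1, h1, e1⟩, ⟨f2, h2, e2⟩⟩ := ih f hf
      refine ⟨⟨V f1, V_mem 1 h1, ?_⟩, ⟨W f2, W_mem 1 h2, ?_⟩⟩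
      · rw [Psi_V h1, e1, shiftC_shiftC]; congr 2; push_cast; ring
      · rw [Psi_W h2, e2, shiftC_shiftC]; congr 2; push_cast; ring
  have key : ∀ n : ℕ, ∀ᵐ x ∂haar, conj ((Psi (gen 1 true n 0) : Circ → ℂ) x) * h x = 0 := by
    intro n
    set g := Psi (gen 1 true n 0)
    have hg := gen_mem_comp 1 true (mm_pos n)
    refine ae_eq_zero_of_fourier ?_ fun j => ?_
    · refine (L2.integrable_inner (𝕜 := ℂ) g h).congr (ae_of_all _ fun x => ?_)
      simp [mul_comm]
    · obtain ⟨f', hf', e'⟩ : ∃ f' ∈ comp 1, Psi f' = shiftC (-j) g := by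
        obtain ⟨d, rfl | rfl⟩ := j.eq_nat_or_neg
        · exact (hiter d _ hg).2
        · rw [neg_neg]; exact (hiter d _ hg).1
      have h0 := hmem f' hf'
      rw [e', L2.inner_def] at h0
      rw [← h0]
      refine integral_congr_ae ?_
      filter_upwards [shiftC_coe (-j) g] with x hx
      rw [RCLike.inner_apply', hx, map_mul, ← fourier_neg, neg_neg]
      ring
  have hbd : ∀ n : ℕ, haar.real {x | (h : Circ → ℂ) x ≠ 0} ≤ (4 * (1 / 2) ^ n) ^ 2 := by
    intro n
    set D : HC := Psi (gen 1 true n 0) - beta n true 0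
    have hms : NullMeasurableSet {x | (h : Circ → ℂ) x ≠ 0} haar :=
      ((Lp.stronglyMeasurable h).measurable (measurableSet_singleton (0 : ℂ)).compl).nullMeasurableSet
    have h1 : ∀ᵐ x ∂haar, {x | (h : Circ → ℂ) x ≠ 0}.indicator (fun _ => (1 : ℝ)) x ≤
        ‖(D : Circ → ℂ) x‖ ^ 2 := by
      filter_upwards [key n, Lp.coeFn_sub (Psi (gen 1 true n 0)) (beta n true 0),
        beta_coe n true 0] with x hk hs hb
      by_cases hx : (h : Circ → ℂ) x = 0
      · rw [Set.indicator_of_notMem (by simp [hx])]; positivity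
      · rw [Set.indicator_of_mem (by simpa using hx), hs, Pi.sub_apply, hb]
        have hg0 : (Psi (gen 1 true n 0) : Circ → ℂ) x = 0 := by simpa [hx] using hk
        rw [hg0, zero_sub, norm_neg, norm_betaF, one_pow]
    have h2 : ∫ x, {x | (h : Circ → ℂ) x ≠ 0}.indicator (fun _ => (1 : ℝ)) x ∂haar ≤
        ∫ x, ‖(D : Circ → ℂ) x‖ ^ 2 ∂haar := by
      refine integral_mono_of_nonneg (ae_of_all _ fun x => ?_) ?_ h1
      · exact Set.indicator_nonneg (fun _ _ => zero_le_one) x
      · refine (L2.integrable_inner (𝕜 := ℂ) D D).re.congr (ae_of_all _ fun x => ?_)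
        simp only
        rw [← @norm_sq_eq_re_inner ℂ]
    rw [integral_indicator₀ hms, setIntegral_const, smul_eq_mul, mul_one] at h2
    refine h2.trans (le_trans (le_of_eq ?_) (pow_le_pow_left₀ (norm_nonneg _) (dist_gauge_le n) 2))
    rw [@norm_sq_eq_re_inner ℂ, L2.inner_def, ← integral_re (L2.integrable_inner D D)]
    refine integral_congr_ae (ae_of_all _ fun x => ?_)
    simp only
    rw [← @norm_sq_eq_re_inner ℂ]
  have hlim : Tendsto (fun n : ℕ => (4 * (1 / 2 : ℝ) ^ n) ^ 2) atTop (𝓝 0) := by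
    simpa using ((tendsto_pow_atTop_nhds_zero_of_lt_one (by norm_num : (0 : ℝ) ≤ 1 / 2)
      (by norm_num)).const_mul 4).pow 2
  have h0 : haar.real {x | (h : Circ → ℂ) x ≠ 0} = 0 :=
    le_antisymm (ge_of_tendsto hlim (Eventually.of_forall hbd)) measureReal_nonneg
  refine Lp.ext ?_
  have h0' : haar {x | (h : Circ → ℂ) x ≠ 0} = 0 := (measureReal_eq_zero_iff).1 h0
  filter_upwards [measure_eq_zero_iff_ae_notMem.1 h0', Lp.coeFn_zero ℂ 2 haar] with x hx hz
  rw [hz, Pi.zero_apply]
  simpa using hx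

end Vale.Agent.P130
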