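import Vale.Agent.P130.Component

/-!
The absolutely continuous part is exactly one cyclic Lebesgue component; ergodicity.
-/

noncomputable section

namespace Vale.Agent.P130

open MeasureTheory Filter Complex Finset
open scoped Topology Real ComplexConjugate InnerProductSpace ENNReal

/-- Vectors with absolutely continuous spectral measure. -/
def IsAC (h : H) : Prop :=
  ∃ ν : Measure Circ, IsFiniteMeasure ν ∧ ν ≪ haar ∧
    ∀ n : ℕ, ⟪h, V^[n] h⟫_ℂ = ∫ x, fourier (n : ℤ) x ∂ν

theorem tendsto_fourier_L1 (w : Lp ℂ 1 haar) :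
    Tendsto (fun n : ℕ => ∫ x, fourier (n : ℤ) x * w x ∂haar) atTop (𝓝 0) := by
  have hint : ∀ (n : ℕ) (f : Lp ℂ 1 haar),
      Integrable (fun x => fourier (n : ℤ) x * f x) haar := fun n f =>
    (L1.integrable_coeFn f).bdd_mul (c := 1) (map_continuous _).aestronglyMeasurable
      (ae_of_all _ fun x => (norm_fourier_apply _ x).le)
  set Φ : ℕ → (Lp ℂ 1 haar →L[ℂ] ℂ) := fun n => LinearMap.mkContinuous
    { toFun := fun f => ∫ x, fourier (n : ℤ) x * f x ∂haar
      map_add' := fun f g => by
        rw [← integral_add (hint n f) (hint n g)]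
        refine integral_congr_ae ?_
        filter_upwards [Lp.coeFn_add f g] with x hx
        rw [hx, Pi.add_apply, mul_add]
      map_smul' := fun c f => by
        simp only [RingHom.id_apply, smul_eq_mul]
        rw [← integral_const_mul]
        refine integral_congr_ae ?_
        filter_upwards [Lp.coeFn_smul c f] with x hx
        rw [hx, Pi.smul_apply, smul_eq_mul]
        ring }
    1 (fun f => by
      rw [one_mul, L1.norm_eq_integral_norm]
      refine (norm_integral_le_integral_norm _).trans (le_of_eq ?_)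
      refine integral_congr_ae (ae_of_all _ fun x => ?_)
      simp only
      rw [norm_mul, norm_fourier_apply, one_mul]) with hΦ
  have hle : ∀ n f, ‖Φ n f‖ ≤ ‖f‖ := fun n f => by
    have := (Φ n).le_opNorm f
    have hb : ‖Φ n‖ ≤ 1 := LinearMap.mkContinuous_norm_le _ zero_le_one _
    nlinarith [norm_nonneg f, norm_nonneg (Φ n f)]
  change Tendsto (fun n => Φ n w) atTop (𝓝 0)
  have hspan : ∀ f ∈ Submodule.span ℂ (Set.range (@fourierLp (1 : ℝ) _ 1 _)),
      Tendsto (fun n => Φ n f) atTop (𝓝 0) := by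
    intro f hf
    induction hf using Submodule.span_induction with
    | mem f hf =>
      obtain ⟨j, rfl⟩ := hf
      refine tendsto_const_nhds.congr' ?_
      filter_upwards [eventually_gt_atTop j.natAbs] with n hn
      have : Φ n (fourierLp 1 j) = ∫ x, fourier ((n : ℤ) + j) x ∂haar := by
        refine integral_congr_ae ?_
        filter_upwards [coeFn_fourierLp 1 j] with x hx
        rw [hx, fourier_add]
      rw [this, integral_fourier, if_neg (by omega)]
    | zero => simp
    | add f g _ _ h1 h2 => simpa using h1.add h2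
    | smul c f _ h1 => simpa using h1.const_mul c
  rw [Metric.tendsto_atTop]
  intro ε hε
  have hw : w ∈ closure ((Submodule.span ℂ (Set.range (@fourierLp (1 : ℝ) _ 1 _))) :
      Set (Lp ℂ 1 haar)) := by
    rw [← Submodule.topologicalClosure_coe, span_fourierLp_closure_eq_top (by simp)]
    trivial
  obtain ⟨f, hf, hd⟩ := Metric.mem_closure_iff.1 hw (ε / 2) (by linarith)
  obtain ⟨N, hN⟩ := (Metric.tendsto_atTop.1 (hspan f hf)) (ε / 2) (by linarith)
  refine ⟨N, fun n hn => ?_⟩
  have h1 := hN n hn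
  rw [dist_eq_norm, sub_zero] at h1 ⊢
  rw [dist_eq_norm] at hd
  calc ‖Φ n w‖ = ‖Φ n (w - f) + Φ n f‖ := by rw [map_sub, sub_add_cancel]
    _ ≤ ‖Φ n (w - f)‖ + ‖Φ n f‖ := norm_add_le _ _
    _ < ε := by have := hle n (w - f); linarith

theorem tendsto_fourier_ac (ν : Measure Circ) [IsFiniteMeasure ν] (hν : ν ≪ haar) :
    Tendsto (fun n : ℕ => ∫ x, fourier (n : ℤ) x ∂ν) atTop (𝓝 0) := by
  have hi : Integrable (fun x => (((ν.rnDeriv haar x).toReal : ℝ) : ℂ)) haar :=
    (Measure.integrable_toReal_rnDeriv).ofReal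
  refine (tendsto_fourier_L1 (hi.toL1 _)).congr fun n => ?_
  rw [← integral_rnDeriv_smul hν]
  refine integral_congr_ae ?_
  filter_upwards [hi.coeFn_toL1] with x hx
  rw [hx, Complex.real_smul, mul_comm]

theorem tendsto_inner_of_ac {h : H} (hh : IsAC h) (g : H) :
    Tendsto (fun s => ⟪g, V^[s] h⟫_ℂ) atTop (𝓝 0) := by
  obtain ⟨ν, hfin, hν, hmom⟩ := hh
  set S : Submodule ℂ H := (Submodule.span ℂ (Set.range fun j => V^[j] h)).topologicalClosure
  haveI : CompleteSpace S := (Submodule.isClosed_topologicalClosure _).completeSpace_coe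
  set f := S.starProjection g
  have hperp : g - f ∈ Sᗮ := Submodule.sub_starProjection_mem_orthogonal g
  have hgf : ∀ s, ⟪g, V^[s] h⟫_ℂ = ⟪f, V^[s] h⟫_ℂ := by
    intro s
    have hm : V^[s] h ∈ S := Submodule.le_topologicalClosure _ (Submodule.subset_span ⟨s, rfl⟩)
    have := Submodule.inner_left_of_mem_orthogonal hm hperp
    rw [inner_sub_left] at this
    exact sub_eq_zero.1 this
  simp only [hgf]
  have hspan : ∀ u ∈ Submodule.span ℂ (Set.range fun j => V^[j] h),
      Tendsto (fun s => ⟪u, V^[s] h⟫_ℂ) atTop (𝓝 0) := by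
    intro u hu
    induction hu using Submodule.span_induction with
    | mem u hu =>
      obtain ⟨j, rfl⟩ := hu
      refine ((tendsto_fourier_ac ν hν).comp (tendsto_sub_atTop_nat j)).congr' ?_
      filter_upwards [eventually_ge_atTop j] with s hs
      rw [Function.comp_apply, ← hmom, show V^[s] h = V^[j] (V^[s - j] h) by
        rw [← Function.iterate_add_apply, Nat.add_sub_cancel' hs], V_iter_inner]
    | zero => simp
    | add u v _ _ h1 h2 => simpa [inner_add_left] using h1.add h2
    | smul c u _ h1 => simpa [inner_smul_left] using h1.const_mul (conj c)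
  rw [Metric.tendsto_atTop]
  intro ε hε
  have hf : f ∈ closure ((Submodule.span ℂ (Set.range fun j => V^[j] h)) : Set H) := by
    rw [← Submodule.topologicalClosure_coe]; exact Submodule.starProjection_apply_mem _ _
  have hpos : 0 < ε / (2 * (‖h‖ + 1)) := by positivity
  obtain ⟨u, hu, hd⟩ := Metric.mem_closure_iff.1 hf _ hpos
  obtain ⟨N, hN⟩ := (Metric.tendsto_atTop.1 (hspan u hu)) (ε / 2) (by linarith)
  refine ⟨N, fun s hs => ?_⟩
  have h1 := hN s hs
  rw [dist_eq_norm, sub_zero] at h1 ⊢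
  rw [dist_eq_norm, lt_div_iff₀ (by positivity)] at hd
  have h2 : ‖⟪f - u, V^[s] h⟫_ℂ‖ ≤ ‖f - u‖ * ‖h‖ := by
    refine (norm_inner_le_norm _ _).trans ?_
    rw [V_iter_norm]
  have h3 : ‖⟪f, V^[s] h⟫_ℂ‖ ≤ ‖⟪f - u, V^[s] h⟫_ℂ‖ + ‖⟪u, V^[s] h⟫_ℂ‖ := by
    refine le_trans (le_of_eq ?_) (norm_add_le _ _)
    rw [inner_sub_left, sub_add_cancel]
  nlinarith [norm_nonneg (f - u)]

theorem mem_comp_of_orth {h : H}
    (ho : ∀ k, k ≠ 1 → ∀ a n r, r < mm n → ⟪gen k a n r, h⟫_ℂ = 0) : h ∈ comp 1 := by
  set f := (comp 1).starProjection h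
  have hf : f ∈ comp 1 := Submodule.starProjection_apply_mem _ _
  have hperp : h - f ∈ (comp 1)ᗮ := Submodule.sub_starProjection_mem_orthogonal h
  have hz : h - f = 0 := by
    refine eq_zero_of_orthogonal _ fun k a n r hr => ?_
    by_cases hk : k = 1
    · subst hk; exact hperp _ (gen_mem_comp 1 a hr)
    · rw [inner_sub_right, ho k hk a n r hr,
        inner_comp_comp hk (gen_mem_comp k a hr) hf, sub_zero]
  rw [sub_eq_zero.1 hz]
  exact hf

theorem rig_ne_zero {k : ℕ} (hk : 2 ≤ k) :
    ((((k : ℝ) - 1) / k : ℝ) : ℂ) ≠ 0 ∧ ((((k : ℝ) - 1) / k : ℝ) : ℂ) ≠ 1 := by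
  have hk' : (2 : ℝ) ≤ k := by exact_mod_cast hk
  constructor
  · rw [Complex.ofReal_ne_zero]
    exact div_ne_zero (by linarith) (by linarith)
  · rw [← Complex.ofReal_one, Ne, Complex.ofReal_inj, div_eq_one_iff_eq (by linarith)]
    linarith

theorem mem_comp_of_ac {h : H} (hh : IsAC h) : h ∈ comp 1 := by
  refine mem_comp_of_orth fun k hk a n r hr => ?_
  rcases Nat.lt_or_ge k 2 with hk2 | hk2
  · obtain rfl : k = 0 := by omega
    have hN : Tendsto mm atTop atTop := by
      refine tendsto_atTop_mono (fun N => ?_) tendsto_id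
      induction N with
      | zero => exact Nat.zero_le _
      | succ N ih =>
        change N + 1 ≤ mm (N + 1)
        change N ≤ mm N at ih
        have := Nat.mul_le_mul_left (mm N) (qq_ge N)
        have := mm_pos N
        rw [mm_succ]; omega
    refine tendsto_nhds_unique (tendsto_const_nhds.congr' ?_)
      ((tendsto_inner_of_ac hh (gen 0 a n r)).comp hN)
    filter_upwards [eventually_ge_atTop n] with N hn
    exact (rigid_zero a hr hn h).symm
  · have h1 := rigid hk2 a hr h
    have h2 := (tendsto_inner_of_ac hh (gen k a n r)).comp (tendsto_rigTime k)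
    exact (mul_eq_zero.1 (tendsto_nhds_unique h1 h2)).resolve_left (rig_ne_zero hk2).1

theorem V_iter_mem (k : ℕ) {f : H} (hf : f ∈ comp k) (j : ℕ) : V^[j] f ∈ comp k := by
  induction j with
  | zero => exact hf
  | succ j ih => rw [Function.iterate_succ_apply']; exact V_mem k ih

theorem Psi_V_iter {f : H} (hf : f ∈ comp 1) (j : ℕ) : Psi (V^[j] f) = shiftC j (Psi f) := by
  induction j with
  | zero => simp [shiftC_zero]
  | succ j ih =>
    rw [Function.iterate_succ_apply', Psi_V (V_iter_mem 1 hf j), ih, shiftC_shiftC]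
    congr 2
    push_cast
    ring

theorem inner_Psi {f g : H} (hf : f ∈ comp 1) (hg : g ∈ comp 1) :
    ⟪Psi f, Psi g⟫_ℂ = ⟪f, g⟫_ℂ :=
  PsiC.inner_map_map ⟨f, hf⟩ ⟨g, hg⟩

theorem ac_of_mem_comp {h : H} (hh : h ∈ comp 1) : IsAC h := by
  set φ : HC := Psi h
  have hm : Measurable fun x => ‖(φ : Circ → ℂ) x‖₊ ^ 2 :=
    ((Lp.stronglyMeasurable φ).measurable.nnnorm).pow_const 2
  refine ⟨haar.withDensity fun x => ((‖(φ : Circ → ℂ) x‖₊ ^ 2 : NNReal) : ℝ≥0∞), ?_,
    withDensity_absolutelyContinuous _ _, fun n => ?_⟩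
  · refine isFiniteMeasure_withDensity ?_
    have hi : Integrable (fun x => ((‖(φ : Circ → ℂ) x‖₊ ^ 2 : NNReal) : ℝ)) haar := by
      refine (L2.integrable_inner (𝕜 := ℂ) φ φ).re.congr (ae_of_all _ fun x => ?_)
      simp only
      rw [← @norm_sq_eq_re_inner ℂ]
      simp
    have := hi.hasFiniteIntegral
    rw [HasFiniteIntegral] at this
    refine ne_of_lt (lt_of_le_of_lt (le_of_eq ?_) this)
    refine lintegral_congr fun x => ?_
    rw [enorm_eq_nnnorm, NNReal.nnnorm_eq]
  · rw [← inner_Psi hh (V_iter_mem 1 hh n), Psi_V_iter hh n, L2.inner_def,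
      integral_withDensity_eq_integral_smul hm]
    refine integral_congr_ae ?_
    filter_upwards [shiftC_coe (n : ℤ) φ] with x hx
    rw [RCLike.inner_apply', hx, NNReal.smul_def, Complex.real_smul]
    have : (((‖(φ : Circ → ℂ) x‖₊ ^ 2 : NNReal) : ℝ) : ℂ) =
        conj ((φ : Circ → ℂ) x) * (φ : Circ → ℂ) x := by
      rw [Complex.conj_mul']; push_cast; rfl
    rw [this]
    ring

/-- The orbit basis of the Lebesgue component. -/
def orb (j : ℤ) : H := (Psi_onto (fourierLp 2 j)).choose

theorem orb_mem (j : ℤ) : orb j ∈ comp 1 := (Psi_onto (fourierLp 2 j)).choose_spec.1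

theorem Psi_orb (j : ℤ) : Psi (orb j) = fourierLp 2 j := (Psi_onto (fourierLp 2 j)).choose_spec.2

theorem orthonormal_orb : Orthonormal ℂ orb := by
  rw [orthonormal_iff_ite]
  intro i j
  rw [← inner_Psi (orb_mem i) (orb_mem j), Psi_orb, Psi_orb]
  exact orthonormal_iff_ite.1 orthonormal_fourier i j

theorem V_orb (j : ℤ) : V (orb j) = orb (j + 1) := by
  have e : Psi (V (orb j) - orb (j + 1)) = 0 := by
    rw [map_sub, Psi_V (orb_mem j), Psi_orb, Psi_orb, sub_eq_zero]
    refine Lp.ext ?_
    filter_upwards [shiftC_coe 1 (fourierLp 2 j), coeFn_fourierLp (T := (1 : ℝ)) 2 j,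
      coeFn_fourierLp (T := (1 : ℝ)) 2 (j + 1)] with x h1 h2 h3
    rw [h1, h2, h3, fourier_add]
    ring
  have hm : V (orb j) - orb (j + 1) ∈ comp 1 :=
    Submodule.sub_mem _ (V_mem 1 (orb_mem j)) (orb_mem _)
  have := norm_Psi hm
  rw [e, norm_zero] at this
  exact sub_eq_zero.1 (norm_eq_zero.1 this.symm)

theorem closure_orb : (Submodule.span ℂ (Set.range orb)).topologicalClosure = comp 1 := by
  refine le_antisymm (Submodule.topologicalClosure_minimal _ ?_
    (Submodule.isClosed_topologicalClosure _)) fun f hf => ?_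
  · rw [Submodule.span_le]
    rintro _ ⟨j, rfl⟩
    exact orb_mem j
  · set S := (Submodule.span ℂ (Set.range orb)).topologicalClosure with hS
    haveI : CompleteSpace S := (Submodule.isClosed_topologicalClosure _).completeSpace_coe
    set g := S.starProjection f
    have hgS : g ∈ S := Submodule.starProjection_apply_mem _ _
    have hle : S ≤ comp 1 := Submodule.topologicalClosure_minimal _ (by
      rw [Submodule.span_le]; rintro _ ⟨j, rfl⟩; exact orb_mem j)
      (Submodule.isClosed_topologicalClosure _)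
    have hd : f - g ∈ comp 1 := Submodule.sub_mem _ hf (hle hgS)
    have hperp : f - g ∈ Sᗮ := Submodule.sub_starProjection_mem_orthogonal f
    have hz : Psi (f - g) = 0 := by
      have hco : ∀ j : ℤ, ⟪fourierLp 2 j, Psi (f - g)⟫_ℂ = 0 := by
        intro j
        rw [← Psi_orb, inner_Psi (orb_mem j) hd]
        exact hperp _ (Submodule.le_topologicalClosure _ (Submodule.subset_span ⟨j, rfl⟩))
      refine ((fourierBasis (T := (1 : ℝ))).repr).injective ?_
      ext j
      rw [map_zero, HilbertBasis.repr_apply_apply, coe_fourierBasis, hco j]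
      rfl
    have := norm_Psi hd
    rw [hz, norm_zero] at this
    rw [sub_eq_zero.1 (norm_eq_zero.1 this.symm)]
    exact hgS

theorem isAC_iff (h : H) :
    IsAC h ↔ h ∈ (Submodule.span ℂ (Set.range orb)).topologicalClosure := by
  rw [closure_orb]
  exact ⟨mem_comp_of_ac, ac_of_mem_comp⟩

/-- The constant vector. -/
def oneH : H := gen 0 true 0 0

theorem oneH_coe : oneH =ᵐ[muX] fun _ => (1 : ℂ) := by
  filter_upwards [gen_coe 0 true 0 0] with p hp
  have : lev 0 p.1 = 0 := Nat.lt_one_iff.1 (lev_lt 0 p.1)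
  simp [oneH, hp, genF, this, freqAt, mm]

theorem integral_orb (j : ℤ) : ∫ p, (orb j : Space → ℂ) p ∂muX = 0 := by
  have h : ⟪oneH, orb j⟫_ℂ = 0 :=
    inner_comp_comp (k := 0) (k' := 1) (by norm_num) (gen_mem_comp 0 true (mm_pos 0)) (orb_mem j)
  rw [← h, L2.inner_def]
  refine integral_congr_ae ?_
  filter_upwards [oneH_coe] with p hp
  rw [RCLike.inner_apply', hp, map_one, one_mul]

theorem invariant_eq_const {h : H} (hV : V h = h) : h = ⟪oneH, h⟫_ℂ • oneH := by
  have hiter : ∀ {u : H}, V u = u → ∀ s, V^[s] u = u := fun {u} hu s => Function.iterate_fixed hu s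
  have hone : V oneH = oneH := by
    simpa [oneH, mm] using V_gen_zero true 0 0 (mm_pos 0)
  set c := ⟪oneH, h⟫_ℂ
  set u := h - c • oneH
  have huV : V u = u := by simp only [u, map_sub, map_smul, hV, hone]
  suffices hu : u = 0 from sub_eq_zero.1 hu
  have hu1 : ⟪oneH, u⟫_ℂ = 0 := by
    have h1 : ⟪oneH, oneH⟫_ℂ = 1 := inner_gen_self true (mm_pos 0)
    rw [inner_sub_right, inner_smul_right, h1, mul_one, sub_self]
  refine eq_zero_of_orthogonal u fun k a n r hr => ?_
  rcases Nat.lt_or_ge k 2 with hk2 | hk2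
  · rcases Nat.eq_zero_or_pos k with rfl | hk
    · rw [gen0_bool]
      have hall : ∀ s < mm n, ⟪gen 0 true n s, u⟫_ℂ = ⟪gen 0 true n 0, u⟫_ℂ := by
        intro s hs
        rw [← V_iter_inner s (gen 0 true n 0) u, hiter huV s, V_iter_gen_zero true n 0 s (mm_pos n),
          Nat.zero_add, Nat.mod_eq_of_lt hs]
      have hsum : ∑ s ∈ range (mm n), gen 0 true n s = (Real.sqrt (mm n) : ℂ) • oneH := by
        refine Lp.ext ?_
        have h2 : ∀ᵐ p ∂muX, ∀ s ∈ range (mm n), (gen 0 true n s : Space → ℂ) p = genF 0 true n s p :=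
          (ae_ball_iff (range (mm n)).countable_toSet).2 fun s _ => gen_coe 0 true n s
        filter_upwards [Lp.coeFn_finsetSum (range (mm n)) (fun s => gen 0 true n s), h2,
          Lp.coeFn_smul (Real.sqrt (mm n) : ℂ) oneH, oneH_coe] with p h1 h2' h3 h4
        rw [h1, h3, Pi.smul_apply, h4, Finset.sum_apply, sum_congr rfl h2',
          sum_eq_single (lev n p.1)]
        · simp [genF, freqAt]
        · intro s _ hs; simp [genF, Ne.symm hs]
        · intro hni; exact absurd (mem_range.2 (lev_lt n p.1)) hni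
      have htot : ⟪∑ s ∈ range (mm n), gen 0 true n s, u⟫_ℂ = 0 := by
        rw [hsum, inner_smul_left, hu1, mul_zero]
      rw [sum_inner, sum_congr rfl fun s hs => hall s (mem_range.1 hs), sum_const, card_range,
        nsmul_eq_mul] at htot
      rw [hall r hr]
      exact (mul_eq_zero.1 htot).resolve_left (by exact_mod_cast (mm_pos n).ne')
    · obtain rfl : k = 1 := by omega
      have h1 := tendsto_inner_of_ac (ac_of_mem_comp (gen_mem_comp 1 a hr)) u
      have h2 : ∀ s, ⟪u, V^[s] (gen 1 a n r)⟫_ℂ = ⟪u, gen 1 a n r⟫_ℂ := fun s => by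
        conv_lhs => rw [← hiter huV s, V_iter_inner]
      simp only [h2] at h1
      rw [inner_eq_zero_symm]
      exact tendsto_nhds_unique tendsto_const_nhds h1
  · have h1 := rigid hk2 a hr u
    simp only [hiter huV] at h1
    have e := tendsto_nhds_unique tendsto_const_nhds h1
    have : (1 - ((((k : ℝ) - 1) / k : ℝ) : ℂ)) * ⟪gen k a n r, u⟫_ℂ = 0 := by
      rw [sub_mul, one_mul, ← e, sub_self]
    exact (mul_eq_zero.1 this).resolve_left (sub_ne_zero.2 (Ne.symm (rig_ne_zero hk2).2))

theorem ergodic_T₀ : Ergodic T₀ muX := by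
  refine ⟨mp_symm, ⟨fun s hs hinv => ?_⟩⟩
  set h : H := indicatorConstLp 2 hs (measure_ne_top muX s) (1 : ℂ) with hh
  have hind : h =ᵐ[muX] s.indicator fun _ => (1 : ℂ) := indicatorConstLp_coeFn
  have hV : V h = h := by
    refine Lp.ext ?_
    filter_upwards [V_coe h, mp_symm.quasiMeasurePreserving.ae hind, hind] with p h1 h2 h3
    rw [h1, Function.comp_apply, h2, h3]
    have hiff : skew.symm p ∈ s ↔ p ∈ s := by
      conv_rhs => rw [← hinv]
      rfl
    by_cases hp : p ∈ s
    · rw [Set.indicator_of_mem hp, Set.indicator_of_mem (hiff.2 hp)]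
    · rw [Set.indicator_of_notMem hp, Set.indicator_of_notMem (mt hiff.1 hp)]
  have hc := invariant_eq_const hV
  set c := ⟪oneH, h⟫_ℂ
  have hval : ∀ᵐ p ∂muX, s.indicator (fun _ => (1 : ℂ)) p = c := by
    filter_upwards [hind, Lp.coeFn_smul c oneH, oneH_coe] with p h1 h2 h3
    rw [← h1, hc, h2, Pi.smul_apply, h3, smul_eq_mul, mul_one]
  rw [eventuallyConst_set']
  by_cases hc0 : c = 0
  · left
    rw [ae_eq_empty]
    refine measure_eq_zero_iff_ae_notMem.2 ?_
    filter_upwards [hval] with p hp hps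
    rw [Set.indicator_of_mem hps, hc0] at hp
    exact one_ne_zero hp
  · right
    rw [ae_eq_univ]
    refine measure_eq_zero_iff_ae_notMem.2 ?_
    filter_upwards [hval] with p hp hps
    rw [Set.indicator_of_notMem hps] at hp
    exact hc0 hp.symm

end Vale.Agent.P130
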