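import Vale.Agent.P130.System

/-!
Invariant components, and partial rigidity of all components except the first.
-/

noncomputable section

namespace Vale.Agent.P130

open MeasureTheory Filter Complex Finset
open scoped Topology Real ComplexConjugate InnerProductSpace

/-- Vectors of one stage. -/
def stageSpan (k n : ℕ) : Submodule ℂ H :=
  Submodule.span ℂ (Set.range fun p : Bool × Fin (mm n) => gen k p.1 n p.2)

/-- The component of an index. -/
def comp (k : ℕ) : Submodule ℂ H := (⨆ n, stageSpan k n).topologicalClosure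

instance instCompleteComp (k : ℕ) : CompleteSpace (comp k) :=
  (Submodule.isClosed_topologicalClosure _).completeSpace_coe

theorem gen_mem_stageSpan (k : ℕ) (a : Bool) {n r : ℕ} (hr : r < mm n) :
    gen k a n r ∈ stageSpan k n :=
  Submodule.subset_span ⟨(a, ⟨r, hr⟩), rfl⟩

theorem stageSpan_mono (k : ℕ) : Monotone (stageSpan k) := by
  refine monotone_nat_of_le_succ fun n => ?_
  rw [stageSpan, Submodule.span_le]
  rintro _ ⟨⟨a, r⟩, rfl⟩
  change gen k a n r ∈ stageSpan k (n + 1)
  rw [gen_refine k a n r r.2]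
  exact Submodule.sum_mem _ fun i hi => Submodule.smul_mem _ _
    (gen_mem_stageSpan k _ (digit_lt (mem_range.1 hi) r.2))

theorem stageSpan_le_comp (k n : ℕ) : stageSpan k n ≤ comp k :=
  (le_iSup (stageSpan k) n).trans (Submodule.le_topologicalClosure _)

theorem gen_mem_comp (k : ℕ) (a : Bool) {n r : ℕ} (hr : r < mm n) : gen k a n r ∈ comp k :=
  stageSpan_le_comp k n (gen_mem_stageSpan k a hr)

theorem exists_stage_near {k : ℕ} {f : H} (hf : f ∈ comp k) {ε : ℝ} (hε : 0 < ε) :
    ∃ n, ∃ F ∈ stageSpan k n, ‖f - F‖ < ε := by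
  have hf' : f ∈ closure ((⨆ n, stageSpan k n : Submodule ℂ H) : Set H) := by
    rw [← Submodule.topologicalClosure_coe]; exact hf
  obtain ⟨F, hF, hd⟩ := Metric.mem_closure_iff.1 hf' ε hε
  obtain ⟨n, hn⟩ := (Submodule.mem_iSup_of_directed _ (stageSpan_mono k).directed_le).1 hF
  exact ⟨n, F, hn, by rwa [← dist_eq_norm]⟩

theorem comp_le_ker {E : Type*} [NormedAddCommGroup E] [NormedSpace ℂ E] (D : H →L[ℂ] E) (k : ℕ)
    (h : ∀ a n r, r < mm n → D (gen k a n r) = 0) {f : H} (hf : f ∈ comp k) : D f = 0 := by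
  have : comp k ≤ LinearMap.ker (D : H →ₗ[ℂ] E) := by
    refine Submodule.topologicalClosure_minimal _ (iSup_le fun n => ?_) D.isClosed_ker
    rw [stageSpan, Submodule.span_le]
    rintro _ ⟨⟨a, r⟩, rfl⟩
    exact h a n r r.2
  exact this hf

theorem inv_sqrt_qq_le (n : ℕ) : (Real.sqrt (qq n))⁻¹ ≤ 2 / 3 := by
  have h : (3 / 2 : ℝ) ≤ Real.sqrt (qq n) := by
    apply Real.le_sqrt_of_sq_le
    have : (3 : ℝ) ≤ (qq n : ℝ) := by exact_mod_cast qq_ge n
    nlinarith
  rw [inv_le_iff_one_le_mul₀ (by linarith)]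
  linarith

theorem shrink {E : Type*} [NormedAddCommGroup E] [NormedSpace ℂ E] (D : H →L[ℂ] E) (k : ℕ)
    (r : ℕ → ℕ) (hr : ∀ n, r n < mm n)
    (hstep : ∀ a n, ∃ b, ‖D (gen k a n (r n))‖ ≤ 2 / 3 * ‖D (gen k b (n + 1) (r (n + 1)))‖)
    (a : Bool) (n : ℕ) : D (gen k a n (r n)) = 0 := by
  have h : ∀ N a n, ‖D (gen k a n (r n))‖ ≤ (2 / 3) ^ N * ‖D‖ := by
    intro N
    induction N with
    | zero =>
      intro a n
      simpa [norm_gen a (hr n)] using D.le_opNorm (gen k a n (r n))
    | succ N ih =>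
      intro a n
      obtain ⟨b, hb⟩ := hstep a n
      calc _ ≤ 2 / 3 * ((2 / 3) ^ N * ‖D‖) :=
            hb.trans (mul_le_mul_of_nonneg_left (ih b (n + 1)) (by norm_num))
        _ = _ := by ring
  have ht : Tendsto (fun N : ℕ => (2 / 3 : ℝ) ^ N * ‖D‖) atTop (𝓝 0) := by
    simpa using (tendsto_pow_atTop_nhds_zero_of_lt_one (by norm_num : (0 : ℝ) ≤ 2 / 3)
      (by norm_num)).mul_const ‖D‖
  exact norm_le_zero_iff.1 (ge_of_tendsto ht (Eventually.of_forall fun N => h N a n))

theorem vanish_top {E : Type*} [NormedAddCommGroup E] [NormedSpace ℂ E] (D : H →L[ℂ] E) (k : ℕ)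
    (h : ∀ a n r, r + 1 < mm n → D (gen k a n r) = 0) (a : Bool) (n r : ℕ) (hr : r < mm n) :
    D (gen k a n r) = 0 := by
  by_cases h1 : r + 1 < mm n
  · exact h a n r h1
  rw [show r = mm n - 1 by omega]
  refine shrink D k (fun n => mm n - 1) (fun n => Nat.sub_lt (mm_pos n) one_pos) (fun a n => ?_) a n
  refine ⟨flipB a (qq n - 1), ?_⟩
  have hq := qq_ge n
  have hm := mm_pos n
  have e : mm n - 1 + (qq n - 1) * mm n = mm (n + 1) - 1 := by
    obtain ⟨q, hq'⟩ : ∃ q, qq n = q + 1 := ⟨qq n - 1, by omega⟩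
    rw [mm_succ, hq', Nat.add_sub_cancel, Nat.mul_succ, Nat.mul_comm q]
    omega
  rw [gen_refine k a n (mm n - 1) (Nat.sub_lt hm one_pos), map_sum,
    sum_eq_single (qq n - 1), map_smul, e, norm_smul, norm_coef, cq_eq]
  · exact mul_le_mul_of_nonneg_right (inv_sqrt_qq_le n) (norm_nonneg _)
  · intro i hi hne
    have hi' : i < qq n := mem_range.1 hi
    have := Nat.mul_le_mul_right (mm n) (show i + 1 ≤ qq n - 1 by omega)
    rw [Nat.succ_mul] at this
    rw [map_smul, h _ _ _ (by omega), smul_zero]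
  · intro hni
    exact absurd (mem_range.2 (by omega)) hni

theorem vanish_bot {E : Type*} [NormedAddCommGroup E] [NormedSpace ℂ E] (D : H →L[ℂ] E) (k : ℕ)
    (h : ∀ a n r, r + 1 < mm n → D (gen k a n (r + 1)) = 0) (a : Bool) (n r : ℕ) (hr : r < mm n) :
    D (gen k a n r) = 0 := by
  rcases r with _ | r
  swap
  · exact h a n r hr
  refine shrink D k (fun _ => 0) mm_pos (fun a n => ⟨flipB a 0, ?_⟩) a n
  rw [gen_refine k a n 0 (mm_pos n), map_sum, sum_eq_single 0, map_smul, Nat.zero_mul,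
    Nat.zero_add, norm_smul, norm_coef, cq_eq]
  · exact mul_le_mul_of_nonneg_right (inv_sqrt_qq_le n) (norm_nonneg _)
  · intro i hi hne
    have hlt := digit_lt (n := n) (r := 0) (mem_range.1 hi) (mm_pos n)
    have : 0 < i * mm n := Nat.mul_pos (Nat.pos_of_ne_zero hne) (mm_pos n)
    obtain ⟨s, hs⟩ : ∃ s, 0 + i * mm n = s + 1 := ⟨i * mm n - 1, by omega⟩
    rw [map_smul, hs, h _ _ _ (by omega), smul_zero]
  · intro hni
    exact absurd (mem_range.2 (by have := qq_ge n; omega)) hni

theorem V_mem (k : ℕ) {f : H} (hf : f ∈ comp k) : V f ∈ comp k := by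
  rw [← Submodule.orthogonal_orthogonal (comp k)]
  intro g hg
  refine comp_le_ker ((innerSL ℂ g).comp V.toContinuousLinearMap) k ?_ hf
  refine vanish_top _ k fun a n r hr => ?_
  change ⟪g, V (gen k a n r)⟫_ℂ = 0
  rw [V_gen k a n r hr]
  exact Submodule.inner_left_of_mem_orthogonal (gen_mem_comp k a hr) hg

theorem W_mem (k : ℕ) {f : H} (hf : f ∈ comp k) : W f ∈ comp k := by
  rw [← Submodule.orthogonal_orthogonal (comp k)]
  intro g hg
  refine comp_le_ker ((innerSL ℂ g).comp W.toContinuousLinearMap) k ?_ hf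
  refine vanish_bot _ k fun a n r hr => ?_
  change ⟪g, W (gen k a n (r + 1))⟫_ℂ = 0
  rw [W_gen k a n r hr]
  exact Submodule.inner_left_of_mem_orthogonal (gen_mem_comp k a (by omega)) hg

theorem V_iter_mem_orth (k : ℕ) (j : ℕ) {g : H} (hg : g ∈ (comp k)ᗮ) : V^[j] g ∈ (comp k)ᗮ := by
  induction j with
  | zero => exact hg
  | succ j ih =>
    rw [Function.iterate_succ_apply']
    intro x hx
    rw [← V_W x, inner_V]
    exact ih _ (W_mem k hx)

theorem inner_comp_comp {k k' : ℕ} (h : k ≠ k') {f g : H} (hf : f ∈ comp k) (hg : g ∈ comp k') :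
    ⟪f, g⟫_ℂ = 0 := by
  refine comp_le_ker (innerSL ℂ f) k' (fun a n r hr => ?_) hg
  change ⟪f, gen k' a n r⟫_ℂ = 0
  rw [inner_eq_zero_symm]
  refine comp_le_ker (innerSL ℂ (gen k' a n r)) k (fun a' n' r' hr' => ?_) hf
  exact inner_gen_of_k_ne (Ne.symm h) a a' n n' r r'

theorem V_iter_inner (j : ℕ) (f g : H) : ⟪V^[j] f, V^[j] g⟫_ℂ = ⟪f, g⟫_ℂ := by
  induction j with
  | zero => rfl
  | succ j ih => rw [Function.iterate_succ_apply', Function.iterate_succ_apply', inner_V, ih]

theorem V_iter_norm (j : ℕ) (f : H) : ‖V^[j] f‖ = ‖f‖ := by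
  induction j with
  | zero => rfl
  | succ j ih => rw [Function.iterate_succ_apply', V.norm_map, ih]

/-- Iterates as linear maps. -/
def Vpow (j : ℕ) : H →L[ℂ] H := V.toContinuousLinearMap ^ j

theorem Vpow_apply (j : ℕ) (f : H) : Vpow j f = V^[j] f := by
  induction j with
  | zero => rfl
  | succ j ih =>
    rw [Function.iterate_succ_apply', ← ih, Vpow, Vpow, pow_succ']
    rfl

theorem V_iter_gen (k : ℕ) (a : Bool) (n r j : ℕ) (h : r + j < mm n) :
    V^[j] (gen k a n r) = gen k a n (r + j) := by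
  induction j with
  | zero => rfl
  | succ j ih =>
    rw [Function.iterate_succ_apply', ih (by omega), V_gen k a n (r + j) (by omega)]
    rfl

/-- A vector living on one level. -/
def OnLevel (n c : ℕ) (f : H) : Prop := ∀ᵐ p ∂muX, lev n p.1 % mm n ≠ c % mm n → f p = 0

theorem onLevel_gen (k : ℕ) (a : Bool) (n r : ℕ) : OnLevel n r (gen k a n r) := by
  filter_upwards [gen_coe k a n r] with p hp hne
  rw [hp, genF, if_neg]
  exact fun hc => hne (by rw [hc])

theorem onLevel_V {n c : ℕ} {f : H} (hf : OnLevel n c f) : OnLevel n (c + 1) (V f) := by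
  filter_upwards [V_coe f, mp_symm.quasiMeasurePreserving.ae hf] with p hp hf' hne
  rw [hp, Function.comp_apply]
  refine hf' fun hc => hne ?_
  have hl : lev n p.1 = (lev n (skew.symm p).1 + 1) % mm n := by
    conv_lhs => rw [← MeasurableEquiv.apply_symm_apply skew p]
    exact lev_add_one n _
  rw [hl, Nat.mod_mod, Nat.add_mod, hc, ← Nat.add_mod]

theorem onLevel_iter {n c : ℕ} {f : H} (hf : OnLevel n c f) (j : ℕ) :
    OnLevel n (c + j) (V^[j] f) := by
  induction j with
  | zero => exact hf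
  | succ j ih => rw [Function.iterate_succ_apply']; exact onLevel_V ih

theorem inner_onLevel {n c d : ℕ} {f g : H} (hf : OnLevel n c f) (hg : OnLevel n d g)
    (h : c % mm n ≠ d % mm n) : ⟪f, g⟫_ℂ = 0 := by
  rw [L2.inner_def]
  refine integral_eq_zero_of_ae ?_
  filter_upwards [hf, hg] with p hp hq
  by_cases hc : lev n p.1 % mm n = c % mm n
  · rw [hq (by rw [hc]; exact h)]; simp
  · rw [hp hc]; simp

theorem gen0_bool (a : Bool) (n r : ℕ) : gen 0 a n r = gen 0 true n r := by
  refine Lp.ext ?_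
  filter_upwards [gen_coe 0 a n r, gen_coe 0 true n r] with p h1 h2
  rw [h1, h2]
  simp [genF, freqAt]

theorem V_gen_zero (a : Bool) (n r : ℕ) (hr : r < mm n) :
    V (gen 0 a n r) = gen 0 a n ((r + 1) % mm n) := by
  rcases lt_or_ge (r + 1) (mm n) with h | h
  · rw [Nat.mod_eq_of_lt h, V_gen 0 a n r h]
  rw [show r + 1 = mm n by omega, Nat.mod_self]
  refine Lp.ext ?_
  filter_upwards [V_coe (gen 0 a n r), mp_symm.quasiMeasurePreserving.ae (gen_coe 0 a n r),
    gen_coe 0 a n 0] with p h1 h2 h3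
  rw [h1, Function.comp_apply, h2, h3]
  have hl : lev n p.1 = (lev n (skew.symm p).1 + 1) % mm n := by
    conv_lhs => rw [← MeasurableEquiv.apply_symm_apply skew p]
    exact lev_add_one n _
  have hlt := lev_lt n (skew.symm p).1
  have hiff : lev n p.1 = 0 ↔ lev n (skew.symm p).1 = r := by
    rw [hl]
    constructor
    · intro h0
      by_contra hne
      rw [Nat.mod_eq_of_lt (by omega)] at h0
      omega
    · intro h0
      rw [h0, show r + 1 = mm n by omega, Nat.mod_self]
  simp only [genF, freqAt, hiff]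
  simp

theorem V_iter_gen_zero (a : Bool) (n r j : ℕ) (hr : r < mm n) :
    V^[j] (gen 0 a n r) = gen 0 a n ((r + j) % mm n) := by
  induction j with
  | zero => rw [Nat.add_zero, Nat.mod_eq_of_lt hr]; rfl
  | succ j ih =>
    rw [Function.iterate_succ_apply', ih, V_gen_zero a n _ (Nat.mod_lt _ (mm_pos n)),
      Nat.mod_add_mod, Nat.add_assoc]

theorem flipB_add_even (a : Bool) (i : ℕ) {j : ℕ} (hj : Even j) : flipB a (i + j) = flipB a i := by
  simp [flipB, Nat.even_add, hj]

theorem flipB_succ (a : Bool) (i : ℕ) : flipB a (i + 1) = !(flipB a i) := by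
  by_cases h : Even i <;> simp [flipB, Nat.even_add_one, h]

theorem inner_gen_not {k : ℕ} (hk : k ≠ 0) (a : Bool) {n r : ℕ} (hr : r < mm n) :
    ⟪gen k a n r, gen k (!a) n r⟫_ℂ = 0 := by
  have := orthonormal_iff_ite.1 (orthonormal_gen hk n) (a, ⟨r, hr⟩) (!a, ⟨r, hr⟩)
  simpa using this

/-- Correlation of two level-zero vectors one block apart. -/
def wrapW (k : ℕ) (n : ℕ) (b c : Bool) : ℂ := ⟪gen k b n 0, V^[mm n] (gen k c n 0)⟫_ℂ

theorem norm_wrapW_le (k n : ℕ) (b c : Bool) : ‖wrapW k n b c‖ ≤ 1 := by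
  refine (norm_inner_le_norm _ _).trans ?_
  rw [V_iter_norm, norm_gen b (mm_pos n), norm_gen c (mm_pos n), one_mul]

theorem norm_wrapW_same {k : ℕ} (hk : k ≠ 0) (n : ℕ) (c : Bool) :
    ‖wrapW k n c c‖ ≤ (Real.sqrt (qq n))⁻¹ := by
  have hqn := qq_ge n
  rw [wrapW]
  conv_lhs => arg 1; arg 3; rw [gen_refine k c n 0 (mm_pos n)]
  rw [← Vpow_apply, map_sum, inner_sum, sum_eq_single (qq n - 1)]
  · rw [map_smul, Vpow_apply, inner_smul_right, norm_mul, norm_coef, cq_eq]
    refine mul_le_of_le_one_right (by positivity) ((norm_inner_le_norm _ _).trans ?_)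
    rw [V_iter_norm, norm_gen c (mm_pos n), norm_gen _ (digit_lt (by omega) (mm_pos n)), one_mul]
  · intro i hi hne
    have hi' : i + 1 < qq n := by have := mem_range.1 hi; omega
    rw [map_smul, Vpow_apply, inner_smul_right, V_iter_gen k (flipB c i) (n + 1) (0 + i * mm n) (mm n)
      (by have := digit_lt (n := n) (r := 0) hi' (mm_pos n); rw [Nat.succ_mul] at this; omega),
      show 0 + i * mm n + mm n = 0 + (i + 1) * mm n by ring, gen_refine k c n 0 (mm_pos n),
      sum_inner, sum_eq_zero, mul_zero]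
    intro j _
    rw [inner_smul_left]
    by_cases hji : j = i + 1
    · subst hji
      rw [flipB_succ, inner_eq_zero_symm.1 (inner_gen_not hk _ (digit_lt hi' (mm_pos n))), mul_zero]
    · rw [inner_gen_of_level_ne _ _ (fun hc => hji (Nat.eq_of_mul_eq_mul_right (mm_pos n)
        (by omega))), mul_zero]
  · intro hni
    exact absurd (mem_range.2 (by omega)) hni

/-- Correlation at the rigidity time. -/
def corr (k n : ℕ) (b a : Bool) : ℂ :=
  ⟪gen k b n 0, V^[stageL n * mm n] (gen k a n 0)⟫_ℂ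

theorem inner_block {k : ℕ} (hk : k ≠ 0) (n : ℕ) (b c : Bool) {i j : ℕ} (hj : j < qq n)
    (hi : i < qq n) :
    (i + stageL n < qq n →
      ⟪gen k b (n + 1) (j * mm n), V^[stageL n * mm n] (gen k c (n + 1) (i * mm n))⟫_ℂ =
        if j = i + stageL n ∧ b = c then 1 else 0) ∧
    (∀ t < qq n, i + stageL n = qq n + t →
      ⟪gen k b (n + 1) (j * mm n), V^[stageL n * mm n] (gen k c (n + 1) (i * mm n))⟫_ℂ =
        if j = t then wrapW k (n + 1) b c else 0) := by
  have hjm : j * mm n < mm (n + 1) := by simpa using digit_lt (n := n) (r := 0) hj (mm_pos n)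
  have him : i * mm n < mm (n + 1) := by simpa using digit_lt (n := n) (r := 0) hi (mm_pos n)
  constructor
  · intro h
    have hlt : (i + stageL n) * mm n < mm (n + 1) := by
      simpa using digit_lt (n := n) (r := 0) h (mm_pos n)
    rw [V_iter_gen k c (n + 1) _ _ (by rw [← Nat.add_mul]; exact hlt), ← Nat.add_mul]
    by_cases hji : j = i + stageL n
    · subst hji
      by_cases hbc : b = c
      · subst hbc; rw [if_pos ⟨rfl, rfl⟩, inner_gen_self b hlt]
      · rw [if_neg (fun hh => hbc hh.2)]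
        have : c = !b := by cases b <;> cases c <;> simp_all
        rw [this, inner_gen_not hk b hlt]
    · rw [if_neg (fun hh => hji hh.1)]
      exact inner_gen_of_level_ne b c fun hc => hji (Nat.eq_of_mul_eq_mul_right (mm_pos n) hc)
  · intro t ht h
    have htm : t * mm n < mm (n + 1) := by simpa using digit_lt (n := n) (r := 0) ht (mm_pos n)
    have e : V^[stageL n * mm n] (gen k c (n + 1) (i * mm n)) =
        V^[t * mm n] (V^[mm (n + 1)] (gen k c (n + 1) 0)) := by
      have h0 := V_iter_gen k c (n + 1) 0 (i * mm n) (by omega)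
      rw [Nat.zero_add] at h0
      have hs : stageL n * mm n + i * mm n = t * mm n + mm (n + 1) := by
        calc stageL n * mm n + i * mm n = (i + stageL n) * mm n := by ring
          _ = t * mm n + mm (n + 1) := by rw [h, mm_succ]; ring
      rw [← h0, ← Function.iterate_add_apply, ← Function.iterate_add_apply, hs]
    rw [e]
    by_cases hjt : j = t
    · subst hjt
      have h0 := V_iter_gen k b (n + 1) 0 (j * mm n) (by omega)
      rw [Nat.zero_add] at h0
      rw [← h0, V_iter_inner, if_pos rfl]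
      rfl
    · rw [if_neg hjt]
      refine inner_onLevel (onLevel_gen k b (n + 1) (j * mm n))
        (onLevel_iter (onLevel_iter (onLevel_gen k c (n + 1) 0) (mm (n + 1))) (t * mm n)) ?_
      rw [Nat.zero_add, Nat.add_mod_left, Nat.mod_eq_of_lt hjm, Nat.mod_eq_of_lt htm]
      exact fun hc => hjt (Nat.eq_of_mul_eq_mul_right (mm_pos n) hc)

theorem corr_eq {k : ℕ} (hk : k ≠ 0) (n : ℕ) (b a : Bool) :
    corr k n b a =
      (∑ i ∈ range ((stageK n - 1) * stageL n + 1), coef k a n i *
        conj (coef k b n (i + stageL n)) *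
          (if flipB b (i + stageL n) = flipB a i then (1 : ℂ) else 0)) +
      ∑ t ∈ range (stageL n), coef k a n ((stageK n - 1) * stageL n + 1 + t) * conj (coef k b n t) *
        wrapW k (n + 1) (flipB b t) (flipB a ((stageK n - 1) * stageL n + 1 + t)) := by
  have hK := stageK_pos n
  have hqq : qq n = (stageK n - 1) * stageL n + 1 + stageL n := by
    obtain ⟨K', hK'⟩ : ∃ K', stageK n = K' + 1 := ⟨stageK n - 1, by omega⟩
    rw [qq, qn, hK', Nat.add_sub_cancel, Nat.succ_mul]
    ring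
  set L := stageL n
  set P := (stageK n - 1) * L + 1
  have hexp : ∀ c : Bool, gen k c n 0 =
      ∑ i ∈ range (qq n), coef k c n i • gen k (flipB c i) (n + 1) (i * mm n) := by
    intro c; simpa using gen_refine k c n 0 (mm_pos n)
  rw [corr, hexp a, hexp b, ← Vpow_apply, map_sum, inner_sum]
  simp only [map_smul, Vpow_apply, inner_smul_right, sum_inner, inner_smul_left, Finset.mul_sum]
  rw [hqq, sum_range_add]
  refine congrArg₂ (· + ·) (sum_congr rfl fun i hi => ?_) (sum_congr rfl fun t ht => ?_)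
  · have hi' := mem_range.1 hi
    rw [sum_eq_single (i + L)]
    · rw [(inner_block hk n (flipB b (i + L)) (flipB a i) (by omega) (by omega)).1 (by omega)]
      have hrfl : i + L = i + stageL n := rfl
      by_cases hf : flipB b (i + L) = flipB a i
      · rw [if_pos hf, if_pos ⟨hrfl, hf⟩]; ring
      · rw [if_neg hf, if_neg (fun hh => hf hh.2)]; ring
    · intro j hj hne
      rw [(inner_block hk n (flipB b j) (flipB a i) (by rw [hqq]; exact mem_range.1 hj)
        (by omega)).1 (by omega), if_neg (fun hh => hne hh.1)]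
      simp
    · intro hni; exact absurd (mem_range.2 (by omega)) hni
  · have ht' := mem_range.1 ht
    rw [sum_eq_single t]
    · rw [(inner_block hk n (flipB b t) (flipB a (P + t)) (by omega) (by omega)).2 t (by omega)
        (by omega), if_pos rfl]
      ring
    · intro j hj hne
      rw [(inner_block hk n (flipB b j) (flipB a (P + t)) (by rw [hqq]; exact mem_range.1 hj)
        (by omega)).2 t (by omega) (by omega), if_neg hne]
      simp
    · intro hni; exact absurd (mem_range.2 (by omega)) hni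

theorem coef_prod (k : ℕ) (a : Bool) (n i j : ℕ) :
    coef k a n i * conj (coef k a n j) = ((qq n : ℝ)⁻¹ : ℝ) *
      ex ((sgn a : ℝ) * k * (gam (stageK n) (stageL n) i - gam (stageK n) (stageL n) j)) := by
  have h : ((((Real.sqrt (qq n))⁻¹ : ℝ) : ℂ)) * (((Real.sqrt (qq n))⁻¹ : ℝ) : ℂ) =
      (((qq n : ℝ)⁻¹ : ℝ) : ℂ) := by
    rw [← Complex.ofReal_mul, ← mul_inv, Real.mul_self_sqrt (Nat.cast_nonneg _)]
  rw [coef, coef, map_mul, Complex.conj_ofReal, ← ex_neg, cq_eq, ← h]
  rw [show (sgn a : ℝ) * k * (gam (stageK n) (stageL n) i - gam (stageK n) (stageL n) j) =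
    (sgn a : ℝ) * k * gam (stageK n) (stageL n) i +
      -((sgn a : ℝ) * k * gam (stageK n) (stageL n) j) by ring, ex_add]
  ring

/-- Error bound of the rigidity at a stage. -/
def rigErr (n : ℕ) : ℝ := 12 * Real.sqrt (1 / ((n : ℝ) + 1))

theorem le_rigErr (n : ℕ) : 12 / ((n : ℝ) + 1) ≤ rigErr n := by
  rw [rigErr, div_eq_mul_one_div]
  refine mul_le_mul_of_nonneg_left (Real.le_sqrt_of_sq_le ?_) (by norm_num)
  rw [pow_two]
  exact mul_le_of_le_one_left (by positivity) (by rw [div_le_one (by positivity)]; linarith [(Nat.cast_nonneg n : (0 : ℝ) ≤ n)])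

theorem norm_wrapW_same_le {k : ℕ} (hk : k ≠ 0) (n : ℕ) (c : Bool) :
    ‖wrapW k (n + 1) c c‖ ≤ Real.sqrt (1 / ((n : ℝ) + 1)) := by
  refine (norm_wrapW_same hk (n + 1) c).trans ?_
  rw [one_div, Real.sqrt_inv]
  refine inv_anti₀ (Real.sqrt_pos.2 (by positivity)) (Real.sqrt_le_sqrt ?_)
  have h1 := (stageL_spec (n + 1)).2.1
  have h2 := Nat.le_mul_of_pos_left (stageL (n + 1)) (stageK_pos (n + 1))
  have : n + 1 ≤ qq (n + 1) := by unfold qq qn; omega
  exact_mod_cast this

theorem corr_bound {k : ℕ} (n : ℕ) (hn : stageK n = k) (b a : Bool) :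
    ‖corr k n b a - (if b = a then (((k : ℝ) - 1) / k : ℝ) else (0 : ℝ))‖ ≤ rigErr n := by
  have hK := stageK_pos n
  have hk : k ≠ 0 := by omega
  obtain ⟨hLe, hLn, -, hchirp⟩ := stageL_spec n
  have hqR : (0 : ℝ) < qq n := by exact_mod_cast (show 0 < qq n by have := qq_ge n; omega)
  have hq_eq : qq n = k * stageL n + 1 := by rw [← hn]; rfl
  have hkR : (1 : ℝ) ≤ k := by exact_mod_cast (show 1 ≤ k by omega)
  have hL0 : (0 : ℝ) < stageL n := by exact_mod_cast (show 0 < stageL n by omega)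
  have hLq : (stageL n : ℝ) / qq n ≤ 1 := by
    rw [div_le_one hqR, hq_eq]; push_cast; nlinarith
  have h1q : 1 / (qq n : ℝ) ≤ 1 / ((n : ℝ) + 1) := by
    refine one_div_le_one_div_of_le (by positivity) ?_
    have : n + 1 ≤ qq n := by
      have := Nat.le_mul_of_pos_left (stageL n) (show 0 < k by omega)
      omega
    exact_mod_cast this
  have hqabs : ‖(((qq n : ℝ)⁻¹ : ℝ) : ℂ)‖ = (qq n : ℝ)⁻¹ := by
    rw [Complex.norm_real, Real.norm_of_nonneg (by positivity)]
  rw [corr_eq hk, hn]
  set L := stageL n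
  set P := (k - 1) * L
  have hPeven : Even P := hLe.mul_left _
  have hcoefn : ∀ (c : Bool) i, ‖coef k c n i‖ = (Real.sqrt (qq n))⁻¹ := fun c i => by
    rw [norm_coef, cq_eq]
  by_cases hba : b = a
  · subst hba
    rw [if_pos rfl]
    have hmain : ∑ i ∈ range (P + 1), coef k b n i * conj (coef k b n (i + L)) *
        (if flipB b (i + L) = flipB b i then (1 : ℂ) else 0) =
        (P : ℂ) * (((qq n : ℝ)⁻¹ : ℝ) : ℂ) + coef k b n P * conj (coef k b n (P + L)) := by
      rw [sum_range_succ, if_pos (flipB_add_even b P hLe), mul_one]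
      congr 1
      calc _ = ∑ _i ∈ range P, (((qq n : ℝ)⁻¹ : ℝ) : ℂ) := by
            refine sum_congr rfl fun i hi => ?_
            have hc := main_coherent k L (by omega) hLe b (mem_range.1 hi)
            rw [if_pos (flipB_add_even b i hLe), mul_one, coef_prod, hn, hc, mul_one]
        _ = _ := by rw [sum_const, card_range, nsmul_eq_mul]
    rw [hmain]
    have hextra : ‖coef k b n P * conj (coef k b n (P + L))‖ = 1 / (qq n : ℝ) := by
      rw [norm_mul, Complex.norm_conj, hcoefn, hcoefn, ← mul_inv,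
        Real.mul_self_sqrt hqR.le, one_div]
    set T := ∑ t ∈ range L, coef k b n (P + 1 + t) * conj (coef k b n t) *
      wrapW k (n + 1) (flipB b t) (flipB b (P + 1 + t)) with hT
    have hTn : ‖T‖ ≤ 5 / ((n : ℝ) + 1) := by
      have hlast : T = (∑ t ∈ range (L - 1), coef k b n (P + 1 + t) * conj (coef k b n t) *
          wrapW k (n + 1) (flipB b t) (flipB b (P + 1 + t))) +
          coef k b n (P + 1 + (L - 1)) * conj (coef k b n (L - 1)) *
            wrapW k (n + 1) (flipB b (L - 1)) (flipB b (P + 1 + (L - 1))) := by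
        rw [hT, ← sum_range_succ, Nat.sub_add_cancel (by omega : 1 ≤ L)]
      set term : ℕ → ℂ := fun t => ex ((sgn b : ℝ) * k * (gam k L (P + t) - gam k L (t - 1)))
      have hshift : ∑ t ∈ range (L - 1), coef k b n (P + 1 + t) * conj (coef k b n t) *
          wrapW k (n + 1) (flipB b t) (flipB b (P + 1 + t)) =
          (((qq n : ℝ)⁻¹ : ℝ) : ℂ) * (wrapW k (n + 1) (!b) b *
            (∑ t ∈ ((range L).filter (fun t => Even t ↔ True)).erase 0, term t) +
          wrapW k (n + 1) b (!b) *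
            (∑ t ∈ ((range L).filter (fun t => Even t ↔ False)).erase 0, term t)) := by
        have e1 : ∀ t, coef k b n (P + 1 + t) * conj (coef k b n t) *
            wrapW k (n + 1) (flipB b t) (flipB b (P + 1 + t)) =
            (((qq n : ℝ)⁻¹ : ℝ) : ℂ) *
              (if Even (t + 1) then wrapW k (n + 1) (!b) b * term (t + 1)
                else wrapW k (n + 1) b (!b) * term (t + 1)) := by
          intro t
          have hf : flipB b (P + 1 + t) = flipB b (t + 1) := by
            rw [show P + 1 + t = (t + 1) + P by ring, flipB_add_even b _ hPeven]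
          rw [coef_prod, hn, hf, show P + 1 + t = P + (t + 1) by ring]
          by_cases he : Even (t + 1)
          · have he' : ¬Even t := Nat.even_add_one.1 he
            simp only [flipB, if_pos he, if_neg he', term, Nat.add_sub_cancel]
            ring
          · have he' : Even t := by rwa [Nat.even_add_one, not_not] at he
            simp only [flipB, if_neg he, if_pos he', term, Nat.add_sub_cancel]
            ring
        simp only [e1]
        rw [← Finset.mul_sum]
        congr 1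
        set G : ℕ → ℂ := fun t => if Even t then wrapW k (n + 1) (!b) b * term t
          else wrapW k (n + 1) b (!b) * term t
        have hG : ∑ t ∈ range (L - 1), G (t + 1) = ∑ t ∈ (range L).erase 0, G t := by
          refine sum_bij' (fun t _ => t + 1) (fun t _ => t - 1) ?_ ?_ ?_ ?_ ?_ <;>
            intro t ht <;> simp only [mem_range, mem_erase] at ht ⊢ <;> omega
        rw [hG, ← Finset.filter_erase, ← Finset.filter_erase, Finset.mul_sum, Finset.mul_sum,
          Finset.sum_filter, Finset.sum_filter, ← sum_add_distrib]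
        refine sum_congr rfl fun t _ => ?_
        by_cases he : Even t <;> simp [G, he]
      have hu : ∀ x, ‖chirp 2 L x‖ ≤ L / ((n : ℝ) + 1) := fun x => by
        have := hchirp x
        rw [div_le_iff₀ hL0, one_div_mul_eq_div] at this
        exact this
      have hA := wrap_le k L (by omega) hLe b _ hu True
      have hB := wrap_le k L (by omega) hLe b _ hu False
      rw [hlast, hshift]
      refine (norm_add_le _ _).trans ?_
      rw [norm_mul, hqabs, norm_mul (_ * _), norm_mul, Complex.norm_conj, hcoefn, hcoefn,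
        ← mul_inv, Real.mul_self_sqrt hqR.le]
      have hW := norm_wrapW_le k (n + 1)
      have key : (qq n : ℝ)⁻¹ * (2 * ((L : ℝ) / ((n : ℝ) + 1) + 1)) + (qq n : ℝ)⁻¹ * 1 ≤
          5 / ((n : ℝ) + 1) := by
        calc _ = 2 * ((L : ℝ) / qq n) * (1 / ((n : ℝ) + 1)) + 3 * (1 / (qq n : ℝ)) := by
              field_simp; ring
          _ ≤ 2 * 1 * (1 / ((n : ℝ) + 1)) + 3 * (1 / ((n : ℝ) + 1)) :=
              add_le_add (mul_le_mul_of_nonneg_right
                (mul_le_mul_of_nonneg_left hLq two_pos.le) (by positivity))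
                (mul_le_mul_of_nonneg_left h1q (by norm_num))
          _ = _ := by ring
      refine le_trans (add_le_add (mul_le_mul_of_nonneg_left ?_ (by positivity))
        (mul_le_mul_of_nonneg_left (hW _ _) (by positivity))) key
      rw [two_mul]
      refine (norm_add_le _ _).trans (add_le_add ?_ ?_)
      · rw [norm_mul]; exact (mul_le_of_le_one_left (norm_nonneg _) (hW _ _)).trans hA
      · rw [norm_mul]; exact (mul_le_of_le_one_left (norm_nonneg _) (hW _ _)).trans hB
    have hdiff : ‖(P : ℂ) * (((qq n : ℝ)⁻¹ : ℝ) : ℂ) - ((((k : ℝ) - 1) / k : ℝ) : ℂ)‖ ≤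
        1 / ((n : ℝ) + 1) := by
      rw [← Complex.ofReal_natCast, ← Complex.ofReal_mul, ← Complex.ofReal_sub, Complex.norm_real,
        Real.norm_eq_abs]
      have hP : (P : ℝ) = ((k : ℝ) - 1) * L := by
        simp only [P]; rw [Nat.cast_mul, Nat.cast_sub (by omega)]; simp
      have hq' : (qq n : ℝ) = k * L + 1 := by rw [hq_eq]; push_cast; rfl
      have e : (P : ℝ) * (qq n : ℝ)⁻¹ - ((k : ℝ) - 1) / k =
          -(((k : ℝ) - 1) / k * (1 / (qq n : ℝ))) := by
        rw [hP, hq']; field_simp; ring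
      rw [e, abs_neg, abs_of_nonneg (mul_nonneg (div_nonneg (by linarith) (by linarith))
        (by positivity))]
      exact (mul_le_of_le_one_left (by positivity)
        (by rw [div_le_one (by linarith)]; linarith)).trans h1q
    have h12 := le_rigErr n
    have hn0 : (0 : ℝ) ≤ 1 / ((n : ℝ) + 1) := by positivity
    calc _ = ‖((P : ℂ) * (((qq n : ℝ)⁻¹ : ℝ) : ℂ) - ((((k : ℝ) - 1) / k : ℝ) : ℂ)) +
          coef k b n P * conj (coef k b n (P + L)) + T‖ := by congr 1; ring
      _ ≤ 1 / ((n : ℝ) + 1) + 1 / ((n : ℝ) + 1) + 5 / ((n : ℝ) + 1) :=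
          (norm_add₃_le).trans (add_le_add (add_le_add hdiff (hextra.le.trans h1q)) hTn)
      _ ≤ 12 / ((n : ℝ) + 1) := by
          rw [← add_div, ← add_div]; gcongr; norm_num
      _ ≤ _ := h12
  · rw [if_neg hba, Complex.ofReal_zero, sub_zero]
    have hflip : ∀ i, flipB b i ≠ flipB a i := by
      intro i; unfold flipB; split_ifs <;> cases a <;> cases b <;> simp at hba ⊢
    rw [sum_eq_zero, zero_add]
    swap
    · intro i _
      rw [flipB_add_even b i hLe, if_neg (hflip i), mul_zero]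
    refine (norm_sum_le _ _).trans ?_
    have hterm : ∀ t ∈ range L, ‖coef k a n (P + 1 + t) * conj (coef k b n t) *
        wrapW k (n + 1) (flipB b t) (flipB a (P + 1 + t))‖ ≤
        (qq n : ℝ)⁻¹ * Real.sqrt (1 / ((n : ℝ) + 1)) := by
      intro t _
      have hf : flipB a (P + 1 + t) = flipB b t := by
        rw [show P + 1 + t = (t + 1) + P by ring, flipB_add_even a _ hPeven, flipB_succ]
        have := hflip t
        revert this
        cases flipB a t <;> cases flipB b t <;> simp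
      rw [hf, norm_mul, norm_mul, Complex.norm_conj, hcoefn, hcoefn, ← mul_inv,
        Real.mul_self_sqrt hqR.le]
      exact mul_le_mul_of_nonneg_left (norm_wrapW_same_le hk n _) (by positivity)
    refine (sum_le_sum hterm).trans ?_
    rw [sum_const, card_range, nsmul_eq_mul, ← mul_assoc, ← div_eq_mul_inv]
    calc _ ≤ 1 * Real.sqrt (1 / ((n : ℝ) + 1)) :=
          mul_le_mul_of_nonneg_right hLq (Real.sqrt_nonneg _)
      _ ≤ rigErr n := by
          rw [rigErr]; exact mul_le_mul_of_nonneg_right (by norm_num) (Real.sqrt_nonneg _)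

theorem stage_weak {k : ℕ} (n : ℕ) (hn : stageK n = k) {F G : H} (hF : F ∈ stageSpan k n)
    (hG : G ∈ stageSpan k n) :
    ‖⟪G, V^[stageL n * mm n] F⟫_ℂ - ((((k : ℝ) - 1) / k : ℝ) : ℂ) * ⟪G, F⟫_ℂ‖ ≤
      rigErr n * (‖F‖ ^ 2 + ‖G‖ ^ 2) := by
  have hk : k ≠ 0 := by have := stageK_pos n; omega
  obtain ⟨c, rfl⟩ := (Submodule.mem_span_range_iff_exists_fun ℂ).1 hF
  obtain ⟨d, rfl⟩ := (Submodule.mem_span_range_iff_exists_fun ℂ).1 hG
  set ρ : ℂ := ((((k : ℝ) - 1) / k : ℝ) : ℂ)
  set s := stageL n * mm n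
  have ho := orthonormal_gen hk n
  have hin : ∀ p p' : Bool × Fin (mm n),
      ⟪gen k p.1 n p.2, V^[s] (gen k p'.1 n p'.2)⟫_ℂ =
        if p.2 = p'.2 then corr k n p.1 p'.1 else 0 := by
    rintro ⟨b, r⟩ ⟨a, r'⟩
    by_cases hr : r = r'
    · subst hr
      have hb := V_iter_gen k b n 0 r (by simp)
      have ha := V_iter_gen k a n 0 r (by simp)
      rw [Nat.zero_add] at hb ha
      rw [if_pos rfl, ← hb, ← ha, ← Function.iterate_add_apply, Nat.add_comm,
        Function.iterate_add_apply, V_iter_inner]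
      rfl
    · rw [if_neg hr]
      refine inner_onLevel (onLevel_gen k b n r) (onLevel_iter (onLevel_gen k a n r') s) ?_
      simp only [s, Nat.add_mul_mod_self_right]
      rw [Nat.mod_eq_of_lt r.2, Nat.mod_eq_of_lt r'.2]
      exact fun hc => hr (Fin.ext hc)
  have hip : ∀ p p' : Bool × Fin (mm n), ⟪gen k p.1 n p.2, gen k p'.1 n p'.2⟫_ℂ =
      if p.2 = p'.2 then (if p.1 = p'.1 then 1 else 0) else 0 := by
    intro p p'
    rw [orthonormal_iff_ite.1 ho p p']
    by_cases h : p = p'
    · subst h; simp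
    · rw [if_neg h]
      split_ifs with h1 h2
      · exact absurd (Prod.ext h2 h1) h
      · rfl
      · rfl
  have e : ⟪∑ p, d p • gen k p.1 n p.2, V^[s] (∑ p, c p • gen k p.1 n p.2)⟫_ℂ -
      ρ * ⟪∑ p, d p • gen k p.1 n p.2, ∑ p, c p • gen k p.1 n p.2⟫_ℂ =
      ∑ p : Bool × Fin (mm n), ∑ a : Bool, conj (d (a, p.2)) * c p *
        (corr k n a p.1 - if a = p.1 then ρ else 0) := by
    rw [← Vpow_apply]
    simp only [map_sum, map_smul, Vpow_apply, sum_inner, inner_sum, inner_smul_left,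
      inner_smul_right, hin, hip, Finset.mul_sum]
    rw [← sum_sub_distrib]
    refine sum_congr rfl fun p _ => ?_
    rw [← sum_sub_distrib, Fintype.sum_prod_type]
    refine sum_congr rfl fun a _ => ?_
    rw [sum_eq_single p.2]
    · simp only [if_pos]
      split_ifs <;> ring
    · intro r _ hr
      simp [hr]
    · simp
  rw [e]
  have hδ : ∀ p : Bool × Fin (mm n), ∀ a, ‖corr k n a p.1 - if a = p.1 then ρ else 0‖ ≤ rigErr n := by
    intro p a
    have := corr_bound n hn a p.1
    split_ifs at this ⊢ <;> simpa [ρ] using this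
  have hnorm : ∀ f : Bool × Fin (mm n) → ℂ, ‖∑ p, f p • gen k p.1 n p.2‖ ^ 2 = ∑ p, ‖f p‖ ^ 2 := by
    intro f
    rw [@norm_sq_eq_re_inner ℂ, ho.inner_sum f f univ, map_sum]
    refine sum_congr rfl fun p _ => ?_
    rw [Complex.conj_mul']
    norm_cast
  rw [hnorm, hnorm]
  calc _ ≤ ∑ p : Bool × Fin (mm n), ∑ a : Bool,
        (‖d (a, p.2)‖ ^ 2 + ‖c p‖ ^ 2) / 2 * rigErr n := by
        refine (norm_sum_le _ _).trans (sum_le_sum fun p _ => (norm_sum_le _ _).trans
          (sum_le_sum fun a _ => ?_))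
        rw [norm_mul, norm_mul, Complex.norm_conj]
        exact mul_le_mul (show ‖d (a, p.2)‖ * ‖c p‖ ≤ (‖d (a, p.2)‖ ^ 2 + ‖c p‖ ^ 2) / 2 by
          nlinarith [sq_nonneg (‖d (a, p.2)‖ - ‖c p‖)]) (hδ p a) (norm_nonneg _) (by positivity)
    _ = _ := by
        rw [Fintype.sum_prod_type, Fintype.sum_prod_type, Fintype.sum_prod_type]
        simp only [Fintype.sum_bool, ← Finset.sum_mul, Finset.sum_add_distrib, ← Finset.sum_div]
        ring

/-- The stages serving a component. -/
def stageSeq (k j : ℕ) : ℕ := Nat.pair (k - 2) j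

theorem stageK_seq {k : ℕ} (hk : 2 ≤ k) (j : ℕ) : stageK (stageSeq k j) = k := by
  rw [stageK, stageSeq, Nat.unpair_pair]; omega

theorem le_stageSeq (k j : ℕ) : j ≤ stageSeq k j := Nat.right_le_pair _ _

/-- The rigidity times. -/
def rigTime (k j : ℕ) : ℕ := stageL (stageSeq k j) * mm (stageSeq k j)

theorem tendsto_rigTime (k : ℕ) : Tendsto (rigTime k) atTop atTop := by
  refine tendsto_atTop_mono (fun j => ?_) tendsto_id
  have h1 := (stageL_spec (stageSeq k j)).2.1
  have h2 := le_stageSeq k j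
  have := Nat.le_mul_of_pos_right (stageL (stageSeq k j)) (mm_pos (stageSeq k j))
  show j ≤ rigTime k j
  unfold rigTime
  omega

theorem tendsto_rigErr (k : ℕ) : Tendsto (fun j => rigErr (stageSeq k j)) atTop (𝓝 0) := by
  have h : Tendsto rigErr atTop (𝓝 0) := by
    have := (tendsto_one_div_add_atTop_nhds_zero_nat (𝕜 := ℝ)).sqrt.const_mul 12
    rw [Real.sqrt_zero, mul_zero] at this
    exact this
  exact h.comp (tendsto_atTop_mono (le_stageSeq k) tendsto_id)

/-- Partial rigidity. -/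
theorem rigid {k : ℕ} (hk : 2 ≤ k) (a : Bool) {n r : ℕ} (hr : r < mm n) (h : H) :
    Tendsto (fun j => ⟪gen k a n r, V^[rigTime k j] h⟫_ℂ) atTop
      (𝓝 (((((k : ℝ) - 1) / k : ℝ) : ℂ) * ⟪gen k a n r, h⟫_ℂ)) := by
  set ρ : ℂ := ((((k : ℝ) - 1) / k : ℝ) : ℂ)
  set G := gen k a n r
  have hG : G ∈ comp k := gen_mem_comp k a hr
  set f := (comp k).starProjection h
  have hf : f ∈ comp k := Submodule.starProjection_apply_mem _ _
  have hperp : h - f ∈ (comp k)ᗮ := Submodule.sub_starProjection_mem_orthogonal h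
  have h1 : ∀ j, ⟪G, V^[rigTime k j] h⟫_ℂ = ⟪G, V^[rigTime k j] f⟫_ℂ := by
    intro j
    have hz : ⟪G, V^[rigTime k j] (h - f)⟫_ℂ = 0 := V_iter_mem_orth k _ hperp G hG
    rw [← Vpow_apply, map_sub, Vpow_apply, Vpow_apply, inner_sub_right] at hz
    exact sub_eq_zero.1 hz
  have h2 : ⟪G, h⟫_ℂ = ⟪G, f⟫_ℂ := by
    have hz := hperp G hG
    rw [inner_sub_right] at hz
    exact sub_eq_zero.1 hz
  simp only [h1, h2]
  rw [Metric.tendsto_atTop]
  intro ε hε
  have hρ : ‖ρ‖ ≤ 1 := by
    have hk' : (2 : ℝ) ≤ k := by exact_mod_cast hk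
    rw [Complex.norm_real, Real.norm_of_nonneg (div_nonneg (by linarith) (by linarith)),
      div_le_one (by linarith)]
    linarith
  have hGn : ‖G‖ = 1 := norm_gen a hr
  obtain ⟨n0, F, hF, hFf⟩ := exists_stage_near hf (show (0 : ℝ) < ε / 4 by linarith)
  have hlim : Tendsto (fun j => rigErr (stageSeq k j) * (‖F‖ ^ 2 + ‖G‖ ^ 2)) atTop (𝓝 0) := by
    simpa using (tendsto_rigErr k).mul_const _
  obtain ⟨J, hJ⟩ := (Metric.tendsto_atTop.1 hlim) (ε / 4) (by linarith)
  refine ⟨max J (max n0 n), fun j hj => ?_⟩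
  have hjJ := hJ j (le_trans (le_max_left _ _) hj)
  have hmax : max n0 n ≤ stageSeq k j := (le_trans (le_max_right _ _) hj).trans (le_stageSeq k j)
  have hs := stage_weak (stageSeq k j) (stageK_seq hk j)
    (stageSpan_mono k ((le_max_left _ _).trans hmax) hF)
    (stageSpan_mono k ((le_max_right _ _).trans hmax) (gen_mem_stageSpan k a hr))
  rw [Real.dist_eq, sub_zero] at hjJ
  have hs' := hs.trans (le_abs_self _)
  rw [dist_eq_norm]
  have e : ⟪G, V^[rigTime k j] f⟫_ℂ - ρ * ⟪G, f⟫_ℂ = ⟪G, V^[rigTime k j] (f - F)⟫_ℂ -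
      ρ * ⟪G, f - F⟫_ℂ + (⟪G, V^[rigTime k j] F⟫_ℂ - ρ * ⟪G, F⟫_ℂ) := by
    rw [← Vpow_apply _ (f - F), map_sub, Vpow_apply, Vpow_apply, inner_sub_right, inner_sub_right]
    ring
  rw [e]
  have b1 : ‖⟪G, V^[rigTime k j] (f - F)⟫_ℂ‖ ≤ ‖f - F‖ := by
    refine (norm_inner_le_norm _ _).trans ?_
    rw [hGn, V_iter_norm, one_mul]
  have b2 : ‖ρ * ⟪G, f - F⟫_ℂ‖ ≤ ‖f - F‖ := by
    rw [norm_mul]
    refine (mul_le_of_le_one_left (norm_nonneg _) hρ).trans ((norm_inner_le_norm _ _).trans ?_)
    rw [hGn, one_mul]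
  calc _ ≤ ‖⟪G, V^[rigTime k j] (f - F)⟫_ℂ‖ + ‖ρ * ⟪G, f - F⟫_ℂ‖ +
        ‖⟪G, V^[rigTime k j] F⟫_ℂ - ρ * ⟪G, F⟫_ℂ‖ :=
        (norm_add_le _ _).trans (add_le_add (norm_sub_le _ _) le_rfl)
    _ < ε := by
        have h3 : ‖⟪G, V^[rigTime k j] F⟫_ℂ - ρ * ⟪G, F⟫_ℂ‖ < ε / 4 := lt_of_le_of_lt hs' hjJ
        linarith

/-- The component of index zero is rigid along the heights. -/
theorem rigid_zero (a : Bool) {n r N : ℕ} (hr : r < mm n) (hN : n ≤ N) (h : H) :
    ⟪gen 0 a n r, V^[mm N] h⟫_ℂ = ⟪gen 0 a n r, h⟫_ℂ := by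
  have hd : mm n ∣ mm N := by
    induction N, hN using Nat.le_induction with
    | base => exact dvd_rfl
    | succ j _ ih => exact ih.trans (mm_dvd j)
  obtain ⟨c, hc⟩ := hd
  have e : V^[mm N] (gen 0 a n r) = gen 0 a n r := by
    rw [V_iter_gen_zero a n r _ hr, hc, Nat.add_mul_mod_self_left, Nat.mod_eq_of_lt hr]
  conv_lhs => rw [← e, V_iter_inner]

end Vale.Agent.P130
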