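import Vale.Agent.P130.Chirp

/-!
One refinement step of the cocycle: the two analytic estimates.
-/

noncomputable section

namespace Vale.Agent.P130

open MeasureTheory Filter Complex Finset
open scoped Topology Real ComplexConjugate

theorem fourier_arg_add (n : ℤ) (x y : Circ) :
    fourier n (x + y) = fourier n x * fourier n y := by
  simp only [fourier_apply, smul_add, AddCircle.toCircle_add, Circle.coe_mul]

theorem fourier_arg_neg (n : ℤ) (x : Circ) : fourier n (-x) = conj (fourier n x) := by
  rw [← fourier_neg]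
  simp only [fourier_apply, smul_neg, neg_smul]

/-- The half turn. -/
def half : Circ := ((1 / 2 : ℝ) : Circ)

theorem ex_int (n : ℤ) : ex n = 1 := by
  rw [ex_eq, show (2 * π * I * ((n : ℝ) : ℂ)) = n * (2 * π * I) by push_cast; ring]
  exact Complex.exp_int_mul_two_pi_mul_I n

theorem ex_half : ex (1 / 2) = -1 := by
  rw [ex_eq, show (2 * π * I * ((1 / 2 : ℝ) : ℂ)) = π * I by push_cast; ring]
  exact Complex.exp_pi_mul_I

theorem fourier_half (i : ℕ) : fourier (i : ℤ) half = (-1 : ℂ) ^ i := by
  induction i with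
  | zero => simp
  | succ i ih =>
    rw [Nat.cast_add, Nat.cast_one, fourier_add, ih, half, fourier_coe, Int.cast_one, one_mul,
      ex_half, pow_succ]

/-- Number of pieces in one refinement. -/
def qn (K L : ℕ) : ℕ := K * L + 1

/-- The chirp phase at a digit. -/
def eta (K L i : ℕ) : ℝ :=
  -(((i % L : ℕ) : ℝ) * ((i / L : ℕ) : ℝ) / (2 * K) + ((i % L : ℕ) : ℝ) ^ 2 / (8 * K * L))

/-- The cocycle increment at a digit. -/
def gam (K L i : ℕ) : ℝ :=
  if i < K * L then (if Even i then eta K L i else -eta K L i + ((i / L : ℕ) : ℝ) / (2 * K))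
  else 0

/-- The sign of a sheet. -/
def sgn (a : Bool) : ℤ := if a then 1 else -1

/-- Sheet after a number of flips. -/
def flipB (a : Bool) (i : ℕ) : Bool := if Even i then a else !a

/-- Pair vector. -/
def vv (a : Bool) (r : ℂ) : ℂ := if a then 1 else r

theorem norm_vv (a : Bool) {r : ℂ} (hr : ‖r‖ = 1) : ‖vv a r‖ = 1 := by
  cases a <;> simp [vv, hr]

/-- The normalising factor. -/
def cq (K L : ℕ) : ℝ := (Real.sqrt (qn K L))⁻¹

/-- Image of a sheet vector under one refinement. -/
def stageS (K L : ℕ) (a : Bool) (x : Circ) (r : ℂ) : ℂ :=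
  (cq K L : ℂ) * ∑ i ∈ range (qn K L),
    ex (sgn a * gam K L i) * fourier (i : ℤ) x * vv (flipB a i) r

/-- One segment. -/
def segA (K L l : ℕ) (x : Circ) : ℂ :=
  (cq K L / 2 : ℝ) * ∑ j ∈ range L, ex (eta K L (l * L + j)) * fourier ((l * L + j : ℕ) : ℤ) x

/-- Conjugate segment. -/
def segB (K L l : ℕ) (x : Circ) : ℂ := conj (segA K L l (-x))

theorem segB_eq (K L l : ℕ) (x : Circ) :
    segB K L l x =
      (cq K L / 2 : ℝ) * ∑ j ∈ range L,
        ex (-eta K L (l * L + j)) * fourier ((l * L + j : ℕ) : ℤ) x := by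
  rw [segB, segA, map_mul, Complex.conj_ofReal, map_sum]
  congr 1
  refine sum_congr rfl fun j _ => ?_
  rw [map_mul, ← ex_neg, fourier_arg_neg, Complex.conj_conj]

theorem sum_range_blocks {M : Type*} [AddCommMonoid M] (K L : ℕ) (f : ℕ → M) :
    ∑ i ∈ range (K * L), f i = ∑ l ∈ range K, ∑ j ∈ range L, f (l * L + j) := by
  induction K with
  | zero => simp
  | succ K ih => rw [Nat.succ_mul, sum_range_add, ih, sum_range_succ]

theorem div_mod_block {L l j : ℕ} (hj : j < L) : (l * L + j) / L = l ∧ (l * L + j) % L = j := by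
  constructor
  · rw [Nat.add_comm, Nat.add_mul_div_right _ _ (by omega), Nat.div_eq_of_lt hj, Nat.zero_add]
  · rw [Nat.add_comm, Nat.add_mul_mod_self_right, Nat.mod_eq_of_lt hj]

theorem block_lt {K L l j : ℕ} (hl : l < K) (hj : j < L) : l * L + j < K * L := by
  have : (l + 1) * L ≤ K * L := Nat.mul_le_mul_right L hl
  rw [Nat.succ_mul] at this
  omega

theorem even_block {L : ℕ} (hL : Even L) (l j : ℕ) : Even (l * L + j) ↔ Even j := by
  simp [Nat.even_add, hL]

/-- The index set of the four families of arcs. -/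
abbrev Arc (K : ℕ) : Type := Fin K × Fin 4

/-- Phase of the arc family. -/
def zeta (K : ℕ) (l : ℕ) : ℂ := ex ((l : ℝ) / (2 * K))

/-- The four parts. -/
def part (K L : ℕ) (p : Arc K) (x : Circ) (r : ℂ) : ℂ :=
  if p.2 = 0 then segA K L p.1 x
  else if p.2 = 1 then segA K L p.1 (x + half)
  else if p.2 = 2 then r * zeta K p.1 * segB K L p.1 x
  else -(r * zeta K p.1 * segB K L p.1 (x + half))

/-- The ratio on an arc. -/
def ratio (K : ℕ) (p : Arc K) : ℂ :=
  if p.2 = 0 ∨ p.2 = 2 then conj (zeta K p.1) else -conj (zeta K p.1)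

theorem norm_ratio (K : ℕ) (p : Arc K) : ‖ratio K p‖ = 1 := by
  unfold ratio; split_ifs <;> simp [zeta, norm_ex]

theorem zeta_mul_conj (K l : ℕ) : conj (zeta K l) * zeta K l = 1 := by
  rw [zeta, ← ex_neg, ← ex_add, neg_add_cancel]
  simpa using ex_int 0

theorem stageS_true (K L : ℕ) (hL : Even L) (x : Circ) (r : ℂ) :
    stageS K L true x r = (∑ p : Arc K, part K L p x r) + (cq K L : ℂ) * fourier ((K * L : ℕ) : ℤ) x := by
  have hlast : flipB true (K * L) = true := by simp [flipB, hL]
  rw [stageS, qn, sum_range_succ, mul_add, sum_range_blocks, hlast]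
  congr 1
  · rw [Fintype.sum_prod_type, Finset.mul_sum,
      ← Fin.sum_univ_eq_sum_range (fun l => (cq K L : ℂ) * ∑ j ∈ range L,
        ex (sgn true * gam K L (l * L + j)) * fourier ((l * L + j : ℕ) : ℤ) x *
          vv (flipB true (l * L + j)) r) K]
    refine sum_congr rfl fun l _ => ?_
    rw [Fin.sum_univ_four]
    simp only [part, Fin.isValue, segA, segB_eq, ← Finset.mul_sum,
      show ((0 : Fin 4) = 1) = False by simp, show ((1 : Fin 4) = 0) = False by simp,
      show ((2 : Fin 4) = 0) = False by simp, show ((2 : Fin 4) = 1) = False by simp,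
      show ((3 : Fin 4) = 0) = False by simp, show ((3 : Fin 4) = 1) = False by simp,
      show ((3 : Fin 4) = 2) = False by simp, if_false, if_true]
    simp only [Finset.mul_sum, ← Finset.sum_add_distrib, ← Finset.sum_neg_distrib]
    refine sum_congr rfl fun j hj => ?_
    obtain ⟨hd, -⟩ := div_mod_block (l := (l : ℕ)) (mem_range.1 hj)
    rw [gam, if_pos (block_lt l.2 (mem_range.1 hj)), hd]
    rcases Nat.even_or_odd j with he | ho
    · have hpow : (-1 : ℂ) ^ ((l : ℕ) * L + j) = 1 := ((even_block hL l j).2 he).neg_one_pow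
      rw [fourier_arg_add, fourier_half, hpow, if_pos ((even_block hL l j).2 he), flipB,
        if_pos ((even_block hL l j).2 he), vv, if_pos rfl]
      simp only [sgn, if_true, Int.cast_one, one_mul, mul_one]
      push_cast
      ring
    · have hne : ¬Even ((l : ℕ) * L + j) := by rw [even_block hL]; exact Nat.not_even_iff_odd.2 ho
      have hpow : (-1 : ℂ) ^ ((l : ℕ) * L + j) = -1 := (Nat.not_even_iff_odd.1 hne).neg_one_pow
      rw [fourier_arg_add, fourier_half, hpow, if_neg hne, flipB, if_neg hne, vv, if_neg (by simp)]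
      simp only [sgn, if_true, Int.cast_one, one_mul, ex_add, zeta]
      push_cast
      ring
  · simp [gam, vv, sgn, show ex 0 = 1 by simpa using ex_int 0]

theorem stageS_false (K L : ℕ) (hL : Even L) (x : Circ) (r : ℂ) :
    stageS K L false x r = (∑ p : Arc K, ratio K p * part K L p x r) +
      (cq K L : ℂ) * fourier ((K * L : ℕ) : ℤ) x * r := by
  have hlast : flipB false (K * L) = false := by simp [flipB, hL]
  rw [stageS, qn, sum_range_succ, mul_add, sum_range_blocks, hlast]
  congr 1
  · rw [Fintype.sum_prod_type, Finset.mul_sum,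
      ← Fin.sum_univ_eq_sum_range (fun l => (cq K L : ℂ) * ∑ j ∈ range L,
        ex (sgn false * gam K L (l * L + j)) * fourier ((l * L + j : ℕ) : ℤ) x *
          vv (flipB false (l * L + j)) r) K]
    refine sum_congr rfl fun l _ => ?_
    rw [Fin.sum_univ_four]
    simp only [part, ratio, Fin.isValue, segA, segB_eq,
      show ((0 : Fin 4) = 1) = False by simp, show ((1 : Fin 4) = 0) = False by simp,
      show ((1 : Fin 4) = 2) = False by simp,
      show ((2 : Fin 4) = 0) = False by simp, show ((2 : Fin 4) = 1) = False by simp,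
      show ((3 : Fin 4) = 0) = False by simp, show ((3 : Fin 4) = 1) = False by simp,
      show ((3 : Fin 4) = 2) = False by simp, if_false, if_true, or_true, true_or, or_false,
      false_or]
    simp only [Finset.mul_sum, ← Finset.sum_add_distrib, ← Finset.sum_neg_distrib]
    refine sum_congr rfl fun j hj => ?_
    obtain ⟨hd, -⟩ := div_mod_block (l := (l : ℕ)) (mem_range.1 hj)
    have hz := zeta_mul_conj K l
    rw [gam, if_pos (block_lt l.2 (mem_range.1 hj)), hd]
    rcases Nat.even_or_odd j with he | ho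
    · have hpow : (-1 : ℂ) ^ ((l : ℕ) * L + j) = 1 := ((even_block hL l j).2 he).neg_one_pow
      rw [fourier_arg_add, fourier_half, hpow, if_pos ((even_block hL l j).2 he), flipB,
        if_pos ((even_block hL l j).2 he), vv, if_neg (by simp)]
      simp only [sgn, Bool.false_eq_true, if_false, Int.cast_neg, Int.cast_one, neg_one_mul,
        mul_one]
      push_cast
      linear_combination (-((cq K L : ℂ) * ex (-eta K L ((l : ℕ) * L + j)) *
        fourier (((l : ℕ) : ℤ) * (L : ℤ) + (j : ℤ)) x * r)) * hz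
    · have hne : ¬Even ((l : ℕ) * L + j) := by rw [even_block hL]; exact Nat.not_even_iff_odd.2 ho
      have hpow : (-1 : ℂ) ^ ((l : ℕ) * L + j) = -1 := (Nat.not_even_iff_odd.1 hne).neg_one_pow
      rw [fourier_arg_add, fourier_half, hpow, if_neg hne, flipB, if_neg hne, vv, if_pos (by simp)]
      simp only [sgn, Bool.false_eq_true, if_false, Int.cast_neg, Int.cast_one, neg_one_mul,
        neg_add_rev, neg_neg, ex_add, mul_one]
      rw [ex_neg ((((l : ℕ) : ℕ) : ℝ) / (2 * K))]
      simp only [zeta]
      push_cast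
      ring
  · simp [gam, vv, sgn, mul_assoc, show ex 0 = 1 by simpa using ex_int 0]

theorem norm_segA (K L l : ℕ) (x : Circ) :
    ‖segA K L l x‖ = cq K L / 2 * ‖chirp (4 * K) L (x + ((-((l : ℝ) / (2 * K)) : ℝ) : Circ))‖ := by
  rw [segA, norm_mul, Complex.norm_real, Real.norm_of_nonneg (by unfold cq; positivity)]
  congr 1
  have : ∑ j ∈ range L, ex (eta K L (l * L + j)) * fourier ((l * L + j : ℕ) : ℤ) x =
      fourier ((l * L : ℕ) : ℤ) x *
        chirp (4 * K) L (x + ((-((l : ℝ) / (2 * K)) : ℝ) : Circ)) := by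
    rw [chirp, Finset.mul_sum]
    refine sum_congr rfl fun j hj => ?_
    obtain ⟨hd, hm⟩ := div_mod_block (l := l) (mem_range.1 hj)
    rw [Nat.cast_add, fourier_add, fourier_arg_add, fourier_coe, chirpC, eta, hd, hm, neg_add,
      ex_add]
    rw [show ((j : ℤ) : ℝ) * -((l : ℝ) / (2 * K)) = -((j : ℝ) * l / (2 * K)) by push_cast; ring,
      show (2 : ℝ) * ((4 * K : ℕ) : ℝ) * L = 8 * K * L by push_cast; ring]
    ring
  rw [this, norm_mul, norm_fourier_apply, one_mul]

/-- Magnitude of a part. -/
def mag (K L : ℕ) (p : Arc K) (x : Circ) : ℝ :=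
  if p.2 = 0 then ‖segA K L p.1 x‖
  else if p.2 = 1 then ‖segA K L p.1 (x + half)‖
  else if p.2 = 2 then ‖segA K L p.1 (-x)‖
  else ‖segA K L p.1 (-(x + half))‖

theorem norm_part (K L : ℕ) (p : Arc K) (x : Circ) {r : ℂ} (hr : ‖r‖ = 1) :
    ‖part K L p x r‖ = mag K L p x := by
  unfold part mag
  split_ifs <;> simp [segB, hr, zeta, norm_ex]

/-- Position of a family among the arcs. -/
def arcNat (K : ℕ) (p : Arc K) : ℕ :=
  if p.2 = 0 then 2 * (p.1 : ℕ)
  else if p.2 = 1 then 2 * (p.1 : ℕ) + 2 * K
  else if p.2 = 2 then 4 * K - 1 - 2 * (p.1 : ℕ)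
  else 2 * K - 1 - 2 * (p.1 : ℕ)

/-- Arc index of a family. -/
def arcIdx (K : ℕ) (p : Arc K) : ZMod (4 * K) := (arcNat K p : ZMod (4 * K))

theorem arcNat_lt (K : ℕ) (p : Arc K) : arcNat K p < 4 * K := by
  have := p.1.2
  unfold arcNat
  split_ifs <;> omega

theorem arcIdx_bijective (K : ℕ) (hK : 1 ≤ K) : Function.Bijective (arcIdx K) := by
  haveI : NeZero (4 * K) := ⟨by omega⟩
  rw [Fintype.bijective_iff_injective_and_card]
  refine ⟨?_, by rw [Fintype.card_prod, Fintype.card_fin, Fintype.card_fin, ZMod.card]; ring⟩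
  rintro ⟨l, t⟩ ⟨l', t'⟩ h
  have hl := l.2
  have hl' := l'.2
  apply_fun ZMod.val at h
  rw [arcIdx, arcIdx, ZMod.val_natCast_of_lt (arcNat_lt _ _),
    ZMod.val_natCast_of_lt (arcNat_lt _ _)] at h
  fin_cases t <;> fin_cases t' <;> simp [arcNat] at h <;> simp [Fin.ext_iff] <;> omega

/-- The family containing a point. -/
def arcOf (K : ℕ) (x : Circ) : Option (Arc K) :=
  if h : 1 ≤ K then some ((Equiv.ofBijective _ (arcIdx_bijective K h)).symm (cell (4 * K) x))
  else none

/-- The direction function of a stage. -/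
def rho (K : ℕ) (x : Circ) : ℂ := ((arcOf K x).map (ratio K)).getD 1

theorem norm_rho (K : ℕ) (x : Circ) : ‖rho K x‖ = 1 := by
  unfold rho
  cases arcOf K x with
  | none => simp
  | some p => simp [norm_ratio]

theorem measurable_rho (K : ℕ) : Measurable (rho K) := by
  have h : ∃ f : ZMod (4 * K) → ℂ, rho K = fun x => f (cell (4 * K) x) := by
    by_cases hK : 1 ≤ K
    · exact ⟨fun c => ratio K ((Equiv.ofBijective _ (arcIdx_bijective K hK)).symm c),
        funext fun x => by simp [rho, arcOf, dif_pos hK]⟩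
    · exact ⟨fun _ => 1, funext fun x => by simp [rho, arcOf, dif_neg hK]⟩
  obtain ⟨f, hf⟩ := h
  rw [hf]
  exact (measurable_from_top (f := f)).comp (measurable_cell _)

theorem arcOf_eq_iff (K : ℕ) (hK : 1 ≤ K) (x : Circ) (p : Arc K) :
    arcOf K x = some p ↔ cell (4 * K) x = arcIdx K p := by
  rw [arcOf, dif_pos hK, Option.some.injEq, Equiv.symm_apply_eq, Equiv.ofBijective_apply]

theorem cell_add (N : ℕ) [NeZero N] (x : Circ) (n : ℤ) :
    cell N (x + (((n : ℝ) / N : ℝ) : Circ)) = cell N x + (n : ZMod N) := by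
  induction x using QuotientAddGroup.induction_on with
  | H t =>
    rw [← AddCircle.coe_add, cell_coe, cell_coe, mul_add,
      mul_div_cancel₀ _ (Nat.cast_ne_zero.2 (NeZero.ne N)), Int.floor_add_intCast]
    push_cast
    ring

theorem haar_singleton (x : Circ) : haar {x} = 0 := by
  have h : (volume : Measure Circ) {x} = 0 := by
    rw [← Metric.closedBall_zero, AddCircle.volume_closedBall]
    simp
  rwa [AddCircle.volume_eq_smul_haarAddCircle, ENNReal.ofReal_one, one_smul] at h

instance instNoAtomsHaar : NullSingletonClass haar := ⟨haar_singleton⟩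

theorem cell_neg_ae (N : ℕ) [NeZero N] :
    ∀ᵐ x ∂haar, cell N (-x) = -cell N x - 1 := by
  have hz : haar (Set.range fun n : ℤ => (((n : ℝ) / N : ℝ) : Circ)) = 0 :=
    (Set.countable_range _).measure_zero _
  filter_upwards [measure_eq_zero_iff_ae_notMem.1 hz] with x hx
  induction x using QuotientAddGroup.induction_on with
  | H t =>
    rw [← AddCircle.coe_neg, cell_coe, cell_coe, mul_neg, Int.floor_neg]
    have hne : ∀ z : ℤ, (z : ℝ) ≠ (N : ℝ) * t := by
      intro z hz'
      refine hx ⟨z, ?_⟩
      simp only [hz', mul_div_cancel_left₀ _ (Nat.cast_ne_zero.2 (NeZero.ne N) : (N : ℝ) ≠ 0)]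
    have : ⌈(N : ℝ) * t⌉ = ⌊(N : ℝ) * t⌋ + 1 := by
      rw [Int.ceil_eq_iff]
      constructor
      · push_cast
        rcases (Int.floor_le ((N : ℝ) * t)).lt_or_eq with h | h
        · linarith
        · exact absurd h (hne _)
      · push_cast; exact (Int.lt_floor_add_one _).le
    rw [this]
    push_cast
    ring

theorem rho_add_half (K : ℕ) (hK : 1 ≤ K) (x : Circ) : rho K (x + half) = -rho K x := by
  haveI : NeZero (4 * K) := ⟨by omega⟩
  obtain ⟨⟨l, t⟩, hp⟩ : ∃ p, arcOf K x = some p := ⟨_, dif_pos hK⟩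
  have hc := (arcOf_eq_iff K hK x _).1 hp
  have h4 : (4 : ZMod (4 * K)) * (K : ZMod (4 * K)) = 0 := by
    have := ZMod.natCast_self (4 * K)
    push_cast at this
    exact this
  have hh : half = ((((2 * K : ℕ) : ℤ) : ℝ) / ((4 * K : ℕ) : ℝ) : ℝ) := by
    unfold half
    congr 1
    have : (K : ℝ) ≠ 0 := Nat.cast_ne_zero.2 (by omega)
    push_cast
    field_simp
    ring
  have hp' : arcOf K (x + half) = some (l, if t = 0 then 1 else if t = 1 then 0 else
      if t = 2 then 3 else 2) := by
    rw [arcOf_eq_iff K hK, hh, cell_add, hc, Int.cast_natCast]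
    have hl := l.2
    fin_cases t <;>
      simp [arcIdx, arcNat, Nat.cast_sub (show 2 * (l : ℕ) ≤ 4 * K - 1 by omega),
        Nat.cast_sub (show 2 * (l : ℕ) ≤ 2 * K - 1 by omega),
        Nat.cast_sub (show 1 ≤ 4 * K by omega), Nat.cast_sub (show 1 ≤ 2 * K by omega)] <;>
      first
        | linear_combination h4
        | linear_combination -h4
        | ring1
        | linear_combination 2 * h4
  simp only [rho, hp, hp', Option.map_some, Option.getD_some]
  fin_cases t <;> simp [ratio]

theorem integral_rho (K : ℕ) (hK : 1 ≤ K) : ∫ x, rho K x ∂haar = 0 :=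
  integral_eq_zero_of_add_right_eq_neg (μ := haar) (g := half) (rho_add_half K hK)

/-- Indicator of the family containing a point. -/
def hit (K : ℕ) (p : Arc K) (x : Circ) : ℝ := if arcOf K x = some p then 1 else 0

theorem measurable_hit (K : ℕ) (p : Arc K) : Measurable (hit K p) := by
  have h : ∃ f : ZMod (4 * K) → ℝ, hit K p = fun x => f (cell (4 * K) x) := by
    by_cases hK : 1 ≤ K
    · exact ⟨fun c => if c = arcIdx K p then 1 else 0,
        funext fun x => by simp [hit, arcOf_eq_iff K hK]⟩
    · exact absurd p.1.2 (by omega)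
  obtain ⟨f, hf⟩ := h
  rw [hf]
  exact (measurable_from_top (f := f)).comp (measurable_cell _)

/-- The error function of a stage. -/
def err (K L : ℕ) (x : Circ) : ℝ :=
  3 * (∑ p : Arc K, |mag K L p x - hit K p x|) + 3 * cq K L

theorem cq_nonneg (K L : ℕ) : 0 ≤ cq K L := by unfold cq; positivity

theorem err_nonneg (K L : ℕ) (x : Circ) : 0 ≤ err K L x :=
  add_nonneg (mul_nonneg (by norm_num) (sum_nonneg fun p _ => abs_nonneg _))
    (mul_nonneg (by norm_num) (cq_nonneg K L))

theorem stage_pointwise (K L : ℕ) (hK : 1 ≤ K) (hL : Even L) (x : Circ) {r : ℂ} (hr : ‖r‖ = 1) :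
    |‖stageS K L true x r‖ - 1| ≤ err K L x ∧
      |‖stageS K L true x r‖ - 1| +
        ‖stageS K L false x r - rho K x * stageS K L true x r‖ ≤ err K L x := by
  obtain ⟨p₀, hp⟩ : ∃ p, arcOf K x = some p := ⟨_, dif_pos hK⟩
  set τ := (cq K L : ℂ) * fourier ((K * L : ℕ) : ℤ) x with hτ
  have hτn : ‖τ‖ = cq K L := by
    rw [hτ, norm_mul, norm_fourier_apply, mul_one, Complex.norm_real,
      Real.norm_of_nonneg (cq_nonneg K L)]
  set S := ∑ p : Arc K, |mag K L p x - hit K p x| with hS
  have hhit : ∀ p, hit K p x = if p = p₀ then 1 else 0 := by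
    intro p; simp [hit, hp, eq_comm]
  have hmag : ∀ p, 0 ≤ mag K L p x := fun p => by unfold mag; split_ifs <;> exact norm_nonneg _
  have hterm : ∀ p ∈ univ.erase p₀, ‖part K L p x r‖ ≤ |mag K L p x - hit K p x| := by
    intro p hp'
    rw [norm_part K L p x hr, hhit, if_neg (mem_erase.1 hp').1, sub_zero]
    exact le_abs_self _
  have hsplit : S = |mag K L p₀ x - 1| + ∑ p ∈ univ.erase p₀, |mag K L p x - hit K p x| := by
    rw [hS, ← add_sum_erase _ _ (mem_univ p₀), hhit, if_pos rfl]
  have hrest : 0 ≤ ∑ p ∈ univ.erase p₀, |mag K L p x - hit K p x| :=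
    sum_nonneg fun p _ => abs_nonneg _
  have h1 : |‖stageS K L true x r‖ - 1| ≤ S + cq K L := by
    rw [stageS_true K L hL, ← hτ, ← add_sum_erase _ _ (mem_univ p₀), add_assoc]
    set R := (∑ p ∈ univ.erase p₀, part K L p x r) + τ
    have hR : ‖R‖ ≤ (∑ p ∈ univ.erase p₀, |mag K L p x - hit K p x|) + cq K L :=
      (norm_add_le _ _).trans (add_le_add ((norm_sum_le _ _).trans (sum_le_sum hterm)) hτn.le)
    have := abs_norm_sub_norm_le (part K L p₀ x r + R) (part K L p₀ x r)
    rw [add_sub_cancel_left, norm_part K L p₀ x hr] at this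
    rw [abs_le] at this ⊢
    have ha := abs_le.1 (le_refl |mag K L p₀ x - 1|)
    constructor <;> linarith
  have h2 : ‖stageS K L false x r - rho K x * stageS K L true x r‖ ≤ 2 * S + 2 * cq K L := by
    have hrho : rho K x = ratio K p₀ := by simp [rho, hp]
    have e : stageS K L false x r - rho K x * stageS K L true x r =
        (∑ p ∈ univ.erase p₀, (ratio K p - ratio K p₀) * part K L p x r) +
          τ * (r - ratio K p₀) := by
      rw [stageS_true K L hL, stageS_false K L hL, ← hτ, hrho,
        ← add_sum_erase _ _ (mem_univ p₀), ← add_sum_erase _ _ (mem_univ p₀)]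
      simp only [sub_mul, sum_sub_distrib, ← Finset.mul_sum]
      ring
    rw [e]
    refine (norm_add_le _ _).trans (add_le_add ?_ ?_)
    · refine (norm_sum_le _ _).trans ?_
      rw [hsplit, mul_add, Finset.mul_sum]
      refine le_add_of_nonneg_of_le (by positivity) (sum_le_sum fun p hp' => ?_)
      rw [norm_mul]
      refine mul_le_mul ((norm_sub_le _ _).trans ?_) (hterm p hp') (norm_nonneg _) two_pos.le
      rw [norm_ratio, norm_ratio]; norm_num
    · rw [norm_mul, hτn, mul_comm (2 : ℝ)]
      refine mul_le_mul_of_nonneg_left ((norm_sub_le _ _).trans ?_) (cq_nonneg K L)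
      rw [hr, norm_ratio]; norm_num
  have herr : err K L x = 3 * S + 3 * cq K L := rfl
  have hS0 : 0 ≤ S := sum_nonneg fun p _ => abs_nonneg _
  have hc := cq_nonneg K L
  constructor <;> linarith

theorem continuous_segA (K L l : ℕ) : Continuous (segA K L l) :=
  continuous_const.mul (continuous_finsetSum _ fun _ _ => continuous_const.mul (map_continuous _))

theorem continuous_mag (K L : ℕ) (p : Arc K) : Continuous (mag K L p) := by
  have h := (continuous_segA K L p.1).norm
  unfold mag
  split_ifs
  · exact h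
  · exact h.comp (continuous_id.add continuous_const)
  · exact h.comp continuous_neg
  · exact h.comp (continuous_id.add continuous_const).neg

theorem measurable_err (K L : ℕ) : Measurable (err K L) := by
  unfold err
  exact (measurable_const.mul (Finset.measurable_sum _ fun p _ =>
    ((continuous_mag K L p).measurable.sub (measurable_hit K p)).norm)).add_const _

theorem exists_err_le (K L : ℕ) : ∃ M, ∀ x, err K L x ≤ M := by
  have h : ∀ p : Arc K, ∃ M, ∀ x, |mag K L p x - hit K p x| ≤ M := by
    intro p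
    obtain ⟨M, hM⟩ := isCompact_univ.exists_bound_of_continuousOn
      (continuous_mag K L p).continuousOn
    refine ⟨M + 1, fun x => (abs_sub _ _).trans (add_le_add (hM x (Set.mem_univ _)) ?_)⟩
    unfold hit; split_ifs <;> simp
  choose M hM using h
  exact ⟨3 * (∑ p, M p) + 3 * cq K L,
    fun x => add_le_add (mul_le_mul_of_nonneg_left (sum_le_sum fun p _ => hM p x) (by norm_num))
      le_rfl⟩

/-- The model error of one arc. -/
def dev (K L : ℕ) (y : Circ) : ℝ := cq K L / 2 * ‖chirp (4 * K) L y‖ - first (4 * K) y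

theorem measurable_dev (K L : ℕ) : Measurable (dev K L) :=
  ((continuous_const.mul (continuous_chirp _ _).norm).measurable).sub (measurable_first _)

theorem integrable_dev_sq (K L : ℕ) : Integrable (fun y => dev K L y ^ 2) haar := by
  obtain ⟨M, hM⟩ := isCompact_univ.exists_bound_of_continuousOn
    (continuous_const.mul (continuous_chirp (4 * K) L).norm
      : Continuous fun y => cq K L / 2 * ‖chirp (4 * K) L y‖).continuousOn
  refine Integrable.of_bound ((measurable_dev K L).pow_const 2).aestronglyMeasurable ((M + 1) ^ 2)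
    (ae_of_all _ fun y => ?_)
  rw [norm_pow]
  refine pow_le_pow_left₀ (norm_nonneg _) ((norm_sub_le _ _).trans
    (add_le_add (hM y (Set.mem_univ _)) ?_)) 2
  rcases first_mem (4 * K) y with h | h <;> simp [h]

theorem integral_part_dev (K L : ℕ) (hK : 1 ≤ K) (p : Arc K) :
    ∫ x, (mag K L p x - hit K p x) ^ 2 ∂haar = ∫ y, dev K L y ^ 2 ∂haar := by
  haveI : NeZero (4 * K) := ⟨by omega⟩
  have hKr : (K : ℝ) ≠ 0 := Nat.cast_ne_zero.2 (by omega)
  set c : Circ := ((-((p.1 : ℕ) : ℝ) / (2 * K) : ℝ) : Circ) with hc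
  have hc' : c = ((((-(2 * (p.1 : ℕ) : ℕ) : ℤ)) : ℝ) / ((4 * K : ℕ) : ℝ) : ℝ) := by
    rw [hc]; congr 1; push_cast; field_simp; ring
  have hh : half = ((((2 * K : ℕ) : ℤ) : ℝ) / ((4 * K : ℕ) : ℝ) : ℝ) := by
    unfold half; congr 1; push_cast; field_simp; ring
  have hn : ∀ y, ‖segA K L p.1 y‖ = cq K L / 2 * ‖chirp (4 * K) L (y + c)‖ := by
    intro y; rw [norm_segA, hc, neg_div]
  have hfirst : ∀ y, first (4 * K) (y + c) =
      if cell (4 * K) y = ((2 * (p.1 : ℕ) : ℕ) : ZMod (4 * K)) then 1 else 0 := by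
    intro y
    unfold first
    refine if_congr ?_ rfl rfl
    rw [hc', cell_add, Int.cast_neg, Int.cast_natCast, ← sub_eq_add_neg, sub_eq_zero]
  have hmain : ∀ φ : Circ → Circ, MeasurePreserving φ haar haar →
      (∀ x, mag K L p x = ‖segA K L p.1 (φ x)‖) →
      (∀ᵐ x ∂haar, (cell (4 * K) (φ x) = ((2 * (p.1 : ℕ) : ℕ) : ZMod (4 * K)) ↔
        cell (4 * K) x = arcIdx K p)) →
      ∫ x, (mag K L p x - hit K p x) ^ 2 ∂haar = ∫ y, dev K L y ^ 2 ∂haar := by
    intro φ hφ hm hcell
    have hmp : MeasurePreserving (fun x => φ x + c) haar haar :=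
      (measurePreserving_add_right haar c).comp hφ
    rw [← hmp.map_eq]
    conv_rhs => rw [integral_map hmp.measurable.aemeasurable
      ((measurable_dev K L).pow_const 2).aestronglyMeasurable]
    rw [hmp.map_eq]
    refine integral_congr_ae ?_
    filter_upwards [hcell] with x hx
    rw [dev, hm, hn, hfirst]
    simp only [hit, arcOf_eq_iff K hK, hx]
  obtain ⟨l, t⟩ := p
  have hl := l.2
  have hneg : MeasurePreserving (fun x : Circ => -x) haar haar := Measure.measurePreserving_neg _
  have hadd := measurePreserving_add_right haar half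
  have h4 : (4 : ZMod (4 * K)) * (K : ZMod (4 * K)) = 0 := by
    have := ZMod.natCast_self (4 * K)
    push_cast at this
    exact this
  fin_cases t
  · exact hmain id (MeasurePreserving.id _) (fun x => by simp [mag])
      (ae_of_all _ fun x => by simp [arcIdx, arcNat])
  · refine hmain _ hadd (fun x => by simp [mag]) (ae_of_all _ fun x => ?_)
    rw [hh, cell_add]
    simp [arcIdx, arcNat]
    constructor <;> intro h <;>
      first
        | linear_combination h
        | linear_combination h + h4
        | linear_combination h - h4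
  · refine hmain _ hneg (fun x => by simp [mag]) ?_
    filter_upwards [cell_neg_ae (4 * K)] with x hx
    rw [hx]
    simp [arcIdx, arcNat, Nat.cast_sub (show 2 * (l : ℕ) ≤ 4 * K - 1 by omega),
      Nat.cast_sub (show 1 ≤ 4 * K by omega)]
    constructor <;> intro h <;>
      first
        | linear_combination -h
        | linear_combination -h + h4
        | linear_combination -h - h4
  · refine hmain _ (hneg.comp hadd) (fun x => by simp [mag]) ?_
    have : ∀ᵐ x ∂haar, cell (4 * K) (-(x + half)) = -cell (4 * K) (x + half) - 1 :=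
      Measure.QuasiMeasurePreserving.ae
        (p := fun y => cell (4 * K) (-y) = -cell (4 * K) y - 1)
        hadd.quasiMeasurePreserving (cell_neg_ae (4 * K))
    filter_upwards [this] with x hx
    simp only [Function.comp_apply]
    rw [hx, hh, cell_add]
    simp [arcIdx, arcNat, Nat.cast_sub (show 2 * (l : ℕ) ≤ 2 * K - 1 by omega),
      Nat.cast_sub (show 1 ≤ 2 * K by omega)]
    constructor <;> intro h <;>
      first
        | linear_combination -h
        | linear_combination -h + h4
        | linear_combination -h - h4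

theorem tendsto_cq (K : ℕ) (hK : 1 ≤ K) : Tendsto (fun L => cq K L) atTop (𝓝 0) := by
  refine tendsto_inv_atTop_zero.comp (Real.tendsto_sqrt_atTop.comp
    (tendsto_natCast_atTop_atTop.comp (tendsto_atTop_mono (fun L => ?_) tendsto_id)))
  show L ≤ qn K L
  unfold qn
  nlinarith

theorem tendsto_integral_dev (K : ℕ) (hK : 1 ≤ K) :
    Tendsto (fun L => ∫ y, dev K L y ^ 2 ∂haar) atTop (𝓝 0) := by
  set D := 4 * K with hD
  set a : ℕ → ℝ := fun L => cq K L / 2 * Real.sqrt L with ha
  have hK0 : (0 : ℝ) < K := by exact_mod_cast hK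
  have hsD : Real.sqrt D = 2 * Real.sqrt K := by
    rw [hD, Nat.cast_mul, Real.sqrt_mul (Nat.cast_nonneg _), Nat.cast_ofNat,
      show (4 : ℝ) = 2 ^ 2 by norm_num, Real.sqrt_sq two_pos.le]
  have haT : Tendsto (fun L => a L * Real.sqrt D) atTop (𝓝 1) := by
    have h1 : Tendsto (fun L : ℕ => ((K : ℝ) / ((K : ℝ) + 1 / L))) atTop (𝓝 1) := by
      have := (tendsto_const_nhds (x := (K : ℝ))).div
        (tendsto_one_div_atTop_nhds_zero_nat.const_add (K : ℝ)) (by simpa using hK0.ne')
      simp only [add_zero, div_self hK0.ne'] at this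
      exact this
    have h2 := h1.sqrt
    rw [Real.sqrt_one] at h2
    refine h2.congr' ?_
    filter_upwards [eventually_gt_atTop 0] with L hL
    have hL0 : (0 : ℝ) < L := by exact_mod_cast hL
    have e : a L * Real.sqrt D = Real.sqrt K * Real.sqrt L / Real.sqrt (qn K L) := by
      simp only [ha, hsD, cq]; ring
    rw [e, ← Real.sqrt_mul hK0.le, ← Real.sqrt_div (by positivity)]
    congr 1
    rw [qn]; push_cast; field_simp
  have hpt : ∀ L, 0 < L → ∀ y, dev K L y ^ 2 ≤
      2 * a L ^ 2 * (‖chirp D L y‖ / Real.sqrt L - Real.sqrt D * first D y) ^ 2 +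
        2 * (a L * Real.sqrt D - 1) ^ 2 := by
    intro L hL y
    have hs : Real.sqrt L ≠ 0 := (Real.sqrt_pos.2 (by exact_mod_cast hL)).ne'
    have e : dev K L y = a L * (‖chirp D L y‖ / Real.sqrt L - Real.sqrt D * first D y) +
        (a L * Real.sqrt D - 1) * first D y := by
      rw [dev, ha]; field_simp; ring
    rw [e]
    have hf : ((a L * Real.sqrt D - 1) * first D y) ^ 2 ≤ (a L * Real.sqrt D - 1) ^ 2 := by
      rcases first_mem D y with h | h <;> simp [h, sq_nonneg]
    nlinarith [sq_nonneg (a L * (‖chirp D L y‖ / Real.sqrt L - Real.sqrt D * first D y) -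
      (a L * Real.sqrt D - 1) * first D y)]
  have hA : Tendsto a atTop (𝓝 (1 / Real.sqrt D)) := by
    have hne : Real.sqrt D ≠ 0 := by rw [hsD]; positivity
    refine (haT.div_const (Real.sqrt D)).congr fun L => ?_
    field_simp
  have hlim : Tendsto (fun L =>
      2 * a L ^ 2 * ∫ y, (‖chirp D L y‖ / Real.sqrt L - Real.sqrt D * first D y) ^ 2 ∂haar +
        2 * (a L * Real.sqrt D - 1) ^ 2) atTop (𝓝 0) := by
    have h := (((hA.pow 2).const_mul 2).mul (tendsto_integral_norm_chirp_sub D (by omega))).add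
      ((((haT.sub_const 1).pow 2)).const_mul 2)
    simpa using h
  refine squeeze_zero' (Eventually.of_forall fun L => integral_nonneg fun y => sq_nonneg _) ?_ hlim
  filter_upwards [eventually_gt_atTop 0] with L hL
  have hint : Integrable
      (fun y => (‖chirp D L y‖ / Real.sqrt L - Real.sqrt D * first D y) ^ 2) haar := by
    obtain ⟨M, hM⟩ := isCompact_univ.exists_bound_of_continuousOn
      (((continuous_chirp D L).norm.div_const (Real.sqrt L)).continuousOn)
    refine Integrable.of_bound ((((continuous_chirp D L).norm.div_const _).measurable.sub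
      ((measurable_first D).const_mul _)).pow_const 2).aestronglyMeasurable
      ((M + Real.sqrt D) ^ 2) (ae_of_all _ fun y => ?_)
    rw [norm_pow]
    refine pow_le_pow_left₀ (norm_nonneg _) ((norm_sub_le _ _).trans
      (add_le_add (hM y (Set.mem_univ _)) ?_)) 2
    rcases first_mem D y with h | h <;> simp [h, abs_of_nonneg (Real.sqrt_nonneg _)]
  refine (integral_mono (integrable_dev_sq K L)
    ((hint.const_mul _).add (integrable_const _)) (hpt L hL)).trans (le_of_eq ?_)
  simp only [Pi.add_apply]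
  rw [integral_add (hint.const_mul _) (integrable_const _), integral_const_mul, integral_const,
    probReal_univ, one_smul]

/-- One stage is nearly exact for long segments. -/
theorem tendsto_integral_err (K : ℕ) (hK : 1 ≤ K) :
    Tendsto (fun L => ∫ x, err K L x ^ 2 ∂haar) atTop (𝓝 0) := by
  have hlim : Tendsto (fun L => 18 * ((Fintype.card (Arc K) : ℝ) ^ 2 *
      ∫ y, dev K L y ^ 2 ∂haar) + 18 * cq K L ^ 2) atTop (𝓝 0) := by
    simpa using (((tendsto_integral_dev K hK).const_mul
      ((Fintype.card (Arc K) : ℝ) ^ 2)).const_mul 18).add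
        (((tendsto_cq K hK).pow 2).const_mul 18)
  refine squeeze_zero (fun L => integral_nonneg fun x => sq_nonneg _) (fun L => ?_) hlim
  have hint : ∀ p : Arc K, Integrable (fun x => (mag K L p x - hit K p x) ^ 2) haar := by
    intro p
    obtain ⟨M, hM⟩ := isCompact_univ.exists_bound_of_continuousOn
      (continuous_mag K L p).continuousOn
    refine Integrable.of_bound (((continuous_mag K L p).measurable.sub
      (measurable_hit K p)).pow_const 2).aestronglyMeasurable ((M + 1) ^ 2)
      (ae_of_all _ fun x => ?_)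
    rw [norm_pow]
    refine pow_le_pow_left₀ (norm_nonneg _) ((norm_sub_le _ _).trans
      (add_le_add (hM x (Set.mem_univ _)) ?_)) 2
    unfold hit; split_ifs <;> simp
  have hpt : ∀ x, err K L x ^ 2 ≤ 18 * ((Fintype.card (Arc K) : ℝ) *
      ∑ p : Arc K, (mag K L p x - hit K p x) ^ 2) + 18 * cq K L ^ 2 := by
    intro x
    have h := sq_sum_le_card_mul_sum_sq (s := (univ : Finset (Arc K)))
      (f := fun p => |mag K L p x - hit K p x|)
    simp only [sq_abs, Finset.card_univ] at h
    unfold err
    nlinarith [sq_nonneg ((∑ p : Arc K, |mag K L p x - hit K p x|) - cq K L)]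
  have hi : Integrable (fun x => ∑ p : Arc K, (mag K L p x - hit K p x) ^ 2) haar :=
    integrable_finsetSum _ fun p _ => hint p
  obtain ⟨M, hM⟩ := exists_err_le K L
  have hierr : Integrable (fun x => err K L x ^ 2) haar := by
    refine Integrable.of_bound ((measurable_err K L).pow_const 2).aestronglyMeasurable (M ^ 2)
      (ae_of_all _ fun x => ?_)
    rw [norm_pow, Real.norm_of_nonneg (err_nonneg K L x)]
    exact pow_le_pow_left₀ (err_nonneg K L x) (hM x) 2
  refine (integral_mono hierr (((hi.const_mul _).const_mul 18).add (integrable_const _))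
    hpt).trans (le_of_eq ?_)
  simp only [Pi.add_apply]
  rw [integral_add ((hi.const_mul _).const_mul 18) (integrable_const _), integral_const_mul,
    integral_const_mul, integral_finsetSum _ fun p _ => hint p, integral_const, probReal_univ,
    one_smul, sum_congr rfl fun p _ => integral_part_dev K L hK p, sum_const, Finset.card_univ,
    nsmul_eq_mul]
  ring

theorem ex_of_half_int {t : ℝ} (n : ℤ) (h : t = n) : ex t = 1 := by rw [h, ex_int]

/-- Neighbouring segments carry equal phases in the component of the same index. -/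
theorem main_coherent (K L : ℕ) (hK : 1 ≤ K) (hL : Even L) (a : Bool) {i : ℕ}
    (hi : i < (K - 1) * L) :
    ex ((sgn a : ℝ) * K * (gam K L i - gam K L (i + L))) = 1 := by
  have hL0 : 0 < L := by
    rcases Nat.eq_zero_or_pos L with rfl | h
    · simp at hi
    · exact h
  set l := i / L
  set j := i % L
  have hj : j < L := Nat.mod_lt _ hL0
  have hij : i = l * L + j := (Nat.div_add_mod' i L).symm
  have hl : l < K - 1 := by
    rcases lt_or_ge l (K - 1) with h | h
    · exact h
    · have := Nat.mul_le_mul_right L h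
      omega
  have h2 : i + L = (l + 1) * L + j := by rw [Nat.succ_mul]; omega
  obtain ⟨hd, hm⟩ := div_mod_block (l := l + 1) hj
  have hp : Even (i + L) ↔ Even i := by simp [Nat.even_add, hL]
  have hpj : Even i ↔ Even j := by rw [hij]; exact even_block hL l j
  have hKr : (K : ℝ) ≠ 0 := Nat.cast_ne_zero.2 (by omega)
  have hlt : i + L < K * L := by rw [h2]; exact block_lt (by omega) hj
  simp only [gam, eta, if_pos hlt, if_pos (show i < K * L by omega), h2, hd, hm]
  rw [← h2]
  simp only [hp, if_pos hlt]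
  rcases Nat.even_or_odd j with he | ho
  · obtain ⟨w, hw⟩ := he
    rw [if_pos (hpj.2 ⟨w, hw⟩), if_pos (hpj.2 ⟨w, hw⟩)]
    refine ex_of_half_int (sgn a * w) ?_
    have : ((i % L : ℕ) : ℝ) = 2 * w := by
      change (j : ℝ) = _; rw [hw]; push_cast; ring
    rw [this]
    push_cast
    field_simp
    ring
  · obtain ⟨w, hw⟩ := ho
    have hne : ¬Even i := by rw [hpj]; exact Nat.not_even_iff_odd.2 ⟨w, hw⟩
    rw [if_neg hne, if_neg hne]
    refine ex_of_half_int (-(sgn a * (w + 1))) ?_
    have : ((i % L : ℕ) : ℝ) = 2 * w + 1 := by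
      change (j : ℝ) = _; rw [hw]; push_cast; ring
    rw [this]
    push_cast
    field_simp
    ring

theorem norm_sum_parity_le (L : ℕ) (P : Prop) [Decidable P] (c : ℕ → ℂ) (x : Circ) :
    ‖∑ t ∈ (range L).filter (fun t => Even t ↔ P), c t * fourier (t : ℤ) x‖ ≤
      (‖∑ t ∈ range L, c t * fourier (t : ℤ) x‖ +
        ‖∑ t ∈ range L, c t * fourier (t : ℤ) (x + half)‖) / 2 := by
  have e : ∑ t ∈ (range L).filter (fun t => Even t ↔ P), c t * fourier (t : ℤ) x =
      ((∑ t ∈ range L, c t * fourier (t : ℤ) x) +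
        (if P then 1 else -1) * ∑ t ∈ range L, c t * fourier (t : ℤ) (x + half)) / 2 := by
    rw [Finset.mul_sum, ← sum_add_distrib, Finset.sum_div, Finset.sum_filter]
    refine sum_congr rfl fun t _ => ?_
    rw [fourier_arg_add, fourier_half]
    rcases Nat.even_or_odd t with h | h
    · rw [h.neg_one_pow]; by_cases hP : P <;> simp [h, hP]
    · rw [h.neg_one_pow]
      have : ¬Even t := Nat.not_even_iff_odd.2 h
      by_cases hP : P <;> simp [this, hP]
  rw [e, norm_div, Complex.norm_ofNat]
  gcongr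
  refine (norm_add_le _ _).trans (add_le_add le_rfl ?_)
  rw [norm_mul]
  split_ifs <;> simp

/-- The wrap-around terms cancel. -/
theorem wrap_le (K L : ℕ) (hK : 1 ≤ K) (hL : Even L) (a : Bool) (u : ℝ)
    (hu : ∀ x, ‖chirp 2 L x‖ ≤ u) (P : Prop) [Decidable P] :
    ‖∑ t ∈ ((range L).filter (fun t => Even t ↔ P)).erase 0,
      ex ((sgn a : ℝ) * K * (gam K L ((K - 1) * L + t) - gam K L (t - 1)))‖ ≤ u + 1 := by
  set θ : ℝ := 1 / (4 * L) - ((K : ℝ) - 1) / 2 with hθ
  set c0 : ℝ := -(1 / (8 * L)) with hc0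
  set F : ℕ → ℝ := fun t => -((t : ℝ) ^ 2 / (4 * L)) + θ * t + c0 with hF
  have hKr : (K : ℝ) ≠ 0 := Nat.cast_ne_zero.2 (by omega)
  have hterm : ∀ t ∈ ((range L).filter (fun t => Even t ↔ P)).erase 0,
      ex ((sgn a : ℝ) * K * (gam K L ((K - 1) * L + t) - gam K L (t - 1))) =
        (if P then 1 else ex ((sgn a : ℝ) * (((K : ℝ) - 1) / 2))) *
          ex ((if P then (sgn a : ℝ) else -(sgn a : ℝ)) * F t) := by
    intro t ht
    simp only [mem_erase, mem_filter, mem_range] at ht
    obtain ⟨ht0, htL, htP⟩ := ht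
    obtain ⟨hd, hm⟩ := div_mod_block (l := K - 1) htL
    have h1 : (K - 1) * L + t < K * L := block_lt (by omega) htL
    have h2 : t - 1 < K * L := lt_of_lt_of_le (by omega) (Nat.le_mul_of_pos_left L hK)
    have hd' : (t - 1) / L = 0 := Nat.div_eq_of_lt (by omega)
    have hm' : (t - 1) % L = t - 1 := Nat.mod_eq_of_lt (by omega)
    have hL0 : (L : ℝ) ≠ 0 := Nat.cast_ne_zero.2 (by omega)
    have hpar : Even (t - 1) ↔ ¬Even t := by
      obtain ⟨s, rfl⟩ : ∃ s, t = s + 1 := ⟨t - 1, by omega⟩
      simp [Nat.even_add_one]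
    simp only [gam, eta, if_pos h1, if_pos h2, hd, hm, hd', hm', even_block hL, hpar]
    rw [Nat.cast_sub (show 1 ≤ t by omega), Nat.cast_sub hK]
    by_cases hP : P
    · have he : Even t := htP.2 hP
      simp only [if_pos hP, if_pos he, if_neg (not_not_intro he), one_mul]
      congr 1
      simp only [hF, hθ, hc0]
      push_cast
      field_simp
      ring
    · have he : ¬Even t := fun h => hP (htP.1 h)
      simp only [if_neg hP, if_neg he, if_pos he, ← ex_add]
      congr 1
      simp only [hF, hθ, hc0]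
      push_cast
      field_simp
      ring
  rw [sum_congr rfl hterm, ← Finset.mul_sum, norm_mul,
    show ‖(if P then 1 else ex ((sgn a : ℝ) * (((K : ℝ) - 1) / 2)))‖ = 1 by
      split_ifs <;> simp [norm_ex], one_mul]
  have hsign : ∀ T : Finset ℕ,
      ‖∑ t ∈ T, ex ((if P then (sgn a : ℝ) else -(sgn a : ℝ)) * F t)‖ = ‖∑ t ∈ T, ex (F t)‖ := by
    intro T
    have hs : (if P then (sgn a : ℝ) else -(sgn a : ℝ)) = 1 ∨
        (if P then (sgn a : ℝ) else -(sgn a : ℝ)) = -1 := by
      cases a <;> by_cases hP : P <;> simp [sgn, hP]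
    rcases hs with h | h
    · simp [h]
    · simp [h, ex_neg, ← map_sum]
  rw [hsign]
  set T := (range L).filter (fun t => Even t ↔ P) with hT
  have hfull : ‖∑ t ∈ T, ex (F t)‖ ≤ u := by
    have e : ∀ t : ℕ, ex (F t) = ex c0 * (chirpC 2 L t * fourier (t : ℤ) (θ : Circ)) := by
      intro t
      rw [chirpC, fourier_coe, ← ex_add, ← ex_add, hF]
      congr 1
      push_cast
      ring
    simp only [e]
    rw [← Finset.mul_sum, norm_mul, norm_ex, one_mul]
    refine (norm_sum_parity_le L P _ _).trans ?_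
    have h1 := hu (θ : Circ)
    have h2 := hu ((θ : Circ) + half)
    rw [chirp] at h1 h2
    linarith
  by_cases h0 : 0 ∈ T
  · rw [← add_sum_erase _ _ h0] at hfull
    have := norm_sub_le (ex (F 0) + ∑ t ∈ T.erase 0, ex (F t)) (ex (F 0))
    rw [add_sub_cancel_left, norm_ex] at this
    linarith
  · rw [erase_eq_of_notMem h0]
    linarith

end Vale.Agent.P130
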