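import Mathlib

/-!
The notions used in the statement of the hand-in, over Mathlib only.
-/

noncomputable section

namespace Vale.Agent.P130

open MeasureTheory
open scoped InnerProductSpace

/-- The Koopman operator `g ↦ g ∘ T` on complex square integrable functions. -/
def koopman {X : Type} [MeasurableSpace X] (μ : Measure X) (T : X → X)
    (hT : MeasurePreserving T μ μ) (g : Lp ℂ 2 μ) : Lp ℂ 2 μ :=
  Lp.compMeasurePreserving T hT g

/-- The spectral measure of `h` under `U` is absolutely continuous with respect to Haar measure: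
some finite measure absolutely continuous with respect to Haar measure has as moments the
autocorrelations `⟪h, U^n h⟫`. -/
def HasACSpectralMeasure {X : Type} [MeasurableSpace X] (μ : Measure X)
    (U : Lp ℂ 2 μ → Lp ℂ 2 μ) (h : Lp ℂ 2 μ) : Prop :=
  ∃ ν : Measure UnitAddCircle, IsFiniteMeasure ν ∧ ν ≪ AddCircle.haarAddCircle ∧
    ∀ n : ℕ, ⟪h, U^[n] h⟫_ℂ = ∫ x, fourier (n : ℤ) x ∂ν

/-- A two-sided `U`-orbit of mean-zero orthonormal vectors. -/
def IsMeanZeroOrbit {X : Type} [MeasurableSpace X] (μ : Measure X)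
    (U : Lp ℂ 2 μ → Lp ℂ 2 μ) (e : ℤ → Lp ℂ 2 μ) : Prop :=
  Orthonormal ℂ e ∧ (∀ n, ∫ x, (e n : X → ℂ) x ∂μ = 0) ∧ ∀ n, U (e n) = e (n + 1)

/-- The closed linear span of a family of vectors. -/
def closedSpan {X : Type} [MeasurableSpace X] (μ : Measure X) (e : ℤ → Lp ℂ 2 μ) :
    Set (Lp ℂ 2 μ) :=
  closure (Submodule.span ℂ (Set.range e) : Set (Lp ℂ 2 μ))

/-- The absolutely continuous part of `U` is exactly one copy of multiplication by the coordinate:
the vectors with absolutely continuous spectral measure are exactly the closed span of one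
orthonormal mean-zero two-sided orbit. -/
def HasLebesgueComponentOne {X : Type} [MeasurableSpace X] (μ : Measure X)
    (U : Lp ℂ 2 μ → Lp ℂ 2 μ) : Prop :=
  ∃ e : ℤ → Lp ℂ 2 μ, IsMeanZeroOrbit μ U e ∧
    ∀ h, HasACSpectralMeasure μ U h ↔ h ∈ closedSpan μ e

end Vale.Agent.P130
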