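import Vale.Agent.P130.Stage

/-!
The transformation: an orientation reversing circle extension of an odometer.
-/

noncomputable section

namespace Vale.Agent.P130

open MeasureTheory Filter Complex Finset
open scoped Topology Real ComplexConjugate ENNReal InnerProductSpace

/-- The component served by a stage. -/
def stageK (n : ℕ) : ℕ := 2 + (Nat.unpair n).1

theorem stageK_pos (n : ℕ) : 1 ≤ stageK n := by unfold stageK; omega

theorem exists_stageL (n : ℕ) : ∃ L, Even L ∧ n + 2 ≤ L ∧
    ∫ x, err (stageK n) L x ^ 2 ∂haar ≤ (1 / 4 : ℝ) ^ n ∧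
    ∀ x, ‖chirp 2 L x‖ / L ≤ 1 / ((n : ℝ) + 1) := by
  obtain ⟨u, hu, hle⟩ := exists_chirp_sup_le 2 le_rfl
  have h1 := (tendsto_integral_err (stageK n) (stageK_pos n)).eventually
    (eventually_le_nhds (show (0 : ℝ) < (1 / 4) ^ n by positivity))
  have h2 := hu.eventually (eventually_le_nhds (show (0 : ℝ) < 1 / ((n : ℝ) + 1) by positivity))
  obtain ⟨N, hN⟩ := eventually_atTop.1 (h1.and h2)
  refine ⟨2 * (N + n + 1), even_two_mul _, by omega, (hN _ (by omega)).1, fun x => ?_⟩
  exact (hle _ (by omega) x).trans (hN _ (by omega)).2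

/-- Segment length of a stage. -/
def stageL (n : ℕ) : ℕ := (exists_stageL n).choose

theorem stageL_spec (n : ℕ) : Even (stageL n) ∧ n + 2 ≤ stageL n ∧
    ∫ x, err (stageK n) (stageL n) x ^ 2 ∂haar ≤ (1 / 4 : ℝ) ^ n ∧
    ∀ x, ‖chirp 2 (stageL n) x‖ / stageL n ≤ 1 / ((n : ℝ) + 1) :=
  (exists_stageL n).choose_spec

/-- Digits at a stage. -/
def qq (n : ℕ) : ℕ := qn (stageK n) (stageL n)

theorem qq_ge (n : ℕ) : 3 ≤ qq n := by
  have h1 := (stageL_spec n).2.1
  have := Nat.le_mul_of_pos_left (stageL n) (stageK_pos n)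
  unfold qq qn
  omega

theorem qq_odd (n : ℕ) : Odd (qq n) :=
  ((stageL_spec n).1.mul_left (stageK n)).add_one

/-- Height at a stage. -/
def mm : ℕ → ℕ
  | 0 => 1
  | n + 1 => mm n * qq n

theorem mm_odd (n : ℕ) : Odd (mm n) := by
  induction n with
  | zero => exact odd_one
  | succ n ih => exact ih.mul (qq_odd n)

theorem mm_pos (n : ℕ) : 0 < mm n := (mm_odd n).pos

instance instNeZeroMm (n : ℕ) : NeZero (mm n) := ⟨(mm_pos n).ne'⟩

theorem mm_succ (n : ℕ) : mm (n + 1) = mm n * qq n := rfl

theorem mm_dvd (n : ℕ) : mm n ∣ mm (n + 1) := dvd_mul_right _ _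

/-- Compatible sequences of residues. -/
def odo : AddSubgroup (∀ n, ZMod (mm n)) where
  carrier := {y | ∀ n, ZMod.castHom (mm_dvd n) (ZMod (mm n)) (y (n + 1)) = y n}
  zero_mem' := fun n => by simp
  add_mem' := fun {a b} ha hb n => by simp only [Pi.add_apply, map_add, ha n, hb n]
  neg_mem' := fun {a} ha n => by simp only [Pi.neg_apply, map_neg, ha n]

/-- The odometer space. -/
abbrev Odo : Type := ↥odo

theorem isClosed_odo : IsClosed (odo : Set (∀ n, ZMod (mm n))) := by
  have : (odo : Set (∀ n, ZMod (mm n))) =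
      ⋂ n, {y | ZMod.castHom (mm_dvd n) (ZMod (mm n)) (y (n + 1)) = y n} := by
    ext y; simp only [Set.mem_iInter]; rfl
  rw [this]
  exact isClosed_iInter fun n => isClosed_eq
    (continuous_of_discreteTopology.comp (continuous_apply (n + 1))) (continuous_apply n)

instance instCompactOdo : CompactSpace Odo :=
  isCompact_iff_compactSpace.1 isClosed_odo.isCompact

instance instPolishOdo : PolishSpace Odo := isClosed_odo.polishSpace

instance instBorelOdo : BorelSpace Odo :=
  inferInstanceAs (BorelSpace (odo : Set (∀ n, ZMod (mm n))))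

/-- Haar probability measure. -/
def muY : Measure Odo := Measure.addHaarMeasure ⊤

instance instProbY : IsProbabilityMeasure muY :=
  ⟨by rw [muY]; exact Measure.addHaarMeasure_self⟩

instance instHaarY : Measure.IsAddHaarMeasure muY := Measure.isAddHaarMeasure_addHaarMeasure _

/-- The generator. -/
def oneY : Odo := ⟨fun _ => 1, fun n => map_one _⟩

/-- Level of a point at a stage. -/
def lev (n : ℕ) (y : Odo) : ℕ := (y.1 n).val

theorem lev_lt (n : ℕ) (y : Odo) : lev n y < mm n := ZMod.val_lt _

theorem continuous_coord (n : ℕ) : Continuous fun y : Odo => y.1 n :=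
  (continuous_apply n).comp continuous_subtype_val

theorem measurable_lev (n : ℕ) : Measurable (lev n) :=
  (measurable_of_countable ZMod.val).comp (continuous_coord n).measurable

theorem lev_succ_mod (n : ℕ) (y : Odo) : lev (n + 1) y % mm n = lev n y := by
  have h := y.2 n
  rw [← ZMod.natCast_zmod_val (y.1 (n + 1)), map_natCast] at h
  rw [lev, lev, ← h, ZMod.val_natCast]

theorem lev_mod {n n' : ℕ} (h : n ≤ n') (y : Odo) : lev n' y % mm n = lev n y := by
  induction n', h using Nat.le_induction with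
  | base => exact Nat.mod_eq_of_lt (lev_lt n y)
  | succ k hk ih =>
    have hd : mm n ∣ mm k := by
      clear ih
      induction k, hk using Nat.le_induction with
      | base => exact dvd_rfl
      | succ j _ ihj => exact ihj.trans (mm_dvd j)
    rw [← ih, ← lev_succ_mod k y, Nat.mod_mod_of_dvd _ hd]

theorem lev_add_nsmul (n : ℕ) (y : Odo) (r : ℕ) :
    lev n (y + r • oneY) = (lev n y + r) % mm n := by
  change ((y.1 n) + r • (1 : ZMod (mm n))).val = _
  rw [nsmul_one, ZMod.val_add, ZMod.val_natCast, Nat.add_mod_mod]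
  rfl

theorem lev_add_one (n : ℕ) (y : Odo) : lev n (y + oneY) = (lev n y + 1) % mm n := by
  simpa using lev_add_nsmul n y 1

/-- The set of points at a level. -/
def level (n r : ℕ) : Set Odo := {y | lev n y = r}

theorem measurableSet_level (n r : ℕ) : MeasurableSet (level n r) :=
  measurable_lev n (MeasurableSet.singleton r)

theorem muY_level (n r : ℕ) (hr : r < mm n) : muY.real (level n r) = 1 / mm n := by
  have htr : ∀ s < mm n, muY.real (level n s) = muY.real (level n 0) := by
    intro s hs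
    have hpre : (fun y : Odo => y + s • oneY) ⁻¹' level n s = level n 0 := by
      ext y
      simp only [level, Set.mem_preimage, Set.mem_setOf_eq, lev_add_nsmul]
      have hl := lev_lt n y
      rcases lt_or_ge (lev n y + s) (mm n) with h | h
      · rw [Nat.mod_eq_of_lt h]; omega
      · rw [Nat.mod_eq_sub_mod h, Nat.mod_eq_of_lt (by omega)]; omega
    simp only [measureReal_def]
    rw [← hpre, measure_preimage_add_right]
  have hsum : ∑ s ∈ range (mm n), muY.real (level n s) = 1 := by
    rw [← measureReal_biUnion_finset (fun i _ j _ hij => Set.disjoint_left.2 fun y h1 h2 =>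
      hij (h1.symm.trans h2)) fun s _ => measurableSet_level n s]
    have : (⋃ s ∈ range (mm n), level n s) = Set.univ :=
      Set.eq_univ_of_forall fun y => by simp [level, lev_lt n y]
    rw [this, probReal_univ]
  rw [sum_congr rfl fun s hs => htr s (mem_range.1 hs), sum_const, card_range, nsmul_eq_mul] at hsum
  rw [htr r hr]
  field_simp [(mm_pos n).ne']
  linarith

/-- Cumulative cocycle along a stage. -/
def Gm : ℕ → ℕ → Circ
  | 0, _ => 0
  | n + 1, r => Gm n (r % mm n) +
      ((((-1 : ℝ) ^ (r % mm n)) * gam (stageK n) (stageL n) (r / mm n) : ℝ) : Circ)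

theorem gam_zero (K L : ℕ) : gam K L 0 = 0 := by simp [gam, eta]

theorem Gm_zero (n : ℕ) : Gm n 0 = 0 := by
  induction n with
  | zero => rfl
  | succ n ih => simp [Gm, ih, gam_zero]

/-- The cocycle read at a stage. -/
def Phi (n r : ℕ) : Circ := Gm n r + Gm n (r + 1)

theorem Phi_succ (n : ℕ) (y : Odo) (h : lev n y + 1 < mm n) :
    lev (n + 1) y + 1 < mm (n + 1) ∧ Phi (n + 1) (lev (n + 1) y) = Phi n (lev n y) := by
  have hm := lev_succ_mod n y
  have hl := lev_lt (n + 1) y
  set R := lev (n + 1) y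
  have hR : R = mm n * (R / mm n) + lev n y := by rw [← hm, Nat.div_add_mod]
  have hq : R / mm n < qq n := Nat.div_lt_of_lt_mul hl
  have hlt : R + 1 < mm (n + 1) := by
    have := Nat.mul_le_mul_left (mm n) (Nat.succ_le_of_lt hq)
    rw [Nat.mul_succ] at this
    rw [mm_succ]; omega
  refine ⟨hlt, ?_⟩
  have h1 : (R + 1) % mm n = lev n y + 1 := by
    rw [hR, Nat.add_assoc, Nat.mul_add_mod, Nat.mod_eq_of_lt h]
  have h2 : (R + 1) / mm n = R / mm n := by
    conv_lhs => rw [hR, Nat.add_assoc, Nat.mul_add_div (mm_pos n), Nat.div_eq_of_lt h, Nat.add_zero]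
  simp only [Phi, Gm, hm, h1, h2, pow_succ, mul_neg, mul_one, neg_mul, AddCircle.coe_neg]
  abel

theorem Phi_le {n n' : ℕ} (hn : n ≤ n') (y : Odo) (h : lev n y + 1 < mm n) :
    lev n' y + 1 < mm n' ∧ Phi n' (lev n' y) = Phi n (lev n y) := by
  induction n', hn using Nat.le_induction with
  | base => exact ⟨h, rfl⟩
  | succ k _ ih =>
    obtain ⟨h1, h2⟩ := Phi_succ k y ih.1
    exact ⟨h1, h2.trans ih.2⟩

/-- Stage predicate. -/
def Good (n : ℕ) (y : Odo) : Prop := lev n y + 1 < mm n ∨ ∀ k, mm k ≤ lev k y + 1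

theorem exists_good (y : Odo) : ∃ n, Good n y := by
  by_cases h : ∀ k, mm k ≤ lev k y + 1
  · exact ⟨0, Or.inr h⟩
  · push Not at h
    obtain ⟨k, hk⟩ := h
    exact ⟨k, Or.inl hk⟩

open Classical in
/-- The cocycle. -/
def phi (y : Odo) : Circ := Phi (Nat.find (exists_good y)) (lev (Nat.find (exists_good y)) y)

open Classical in
theorem measurable_phi : Measurable phi := by
  refine Measurable.find (f := fun n y => Phi n (lev n y))
    (fun n => (measurable_of_countable (Phi n)).comp (measurable_lev n)) (fun n => ?_) exists_good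
  have : {y | Good n y} = (lev n ⁻¹' {r | r + 1 < mm n}) ∪ ⋂ k, lev k ⁻¹' {r | mm k ≤ r + 1} := by
    ext y; simp [Good]
  rw [this]
  exact ((measurable_lev n) (MeasurableSet.of_discrete)).union
    (MeasurableSet.iInter fun k => (measurable_lev k) (MeasurableSet.of_discrete))

open Classical in
theorem phi_eq {n : ℕ} {y : Odo} (h : lev n y + 1 < mm n) : phi y = Phi n (lev n y) := by
  have hle : Nat.find (exists_good y) ≤ n := Nat.find_le (Or.inl h)
  rcases Nat.find_spec (exists_good y) with h0 | h0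
  · exact (Phi_le hle y h0).2.symm
  · exact absurd (h0 n) (not_le.2 h)

/-- The phase space. -/
abbrev Space : Type := Odo × Circ

/-- The invariant measure. -/
def muX : Measure Space := muY.prod haar

instance instProbX : IsProbabilityMeasure muX := inferInstanceAs (IsProbabilityMeasure (muY.prod haar))

instance instRegularX : Measure.WeaklyRegular muX := inferInstance

instance instNoAtomsX : NullSingletonClass muX := ⟨fun p => by
  obtain ⟨y, z⟩ := p
  rw [muX, ← Set.singleton_prod_singleton, Measure.prod_prod, haar_singleton, mul_zero]⟩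

/-- The skew product. -/
def skew : Space ≃ᵐ Space where
  toEquiv :=
    { toFun := fun p => (p.1 + oneY, phi p.1 - p.2)
      invFun := fun p => (p.1 - oneY, phi (p.1 - oneY) - p.2)
      left_inv := fun p => by simp
      right_inv := fun p => by simp }
  measurable_toFun := (measurable_fst.add_const oneY).prodMk
    ((measurable_phi.comp measurable_fst).sub measurable_snd)
  measurable_invFun := (measurable_fst.sub_const oneY).prodMk
    ((measurable_phi.comp (measurable_fst.sub_const oneY)).sub measurable_snd)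

theorem skew_apply (p : Space) : skew p = (p.1 + oneY, phi p.1 - p.2) := rfl

theorem mp_skew : MeasurePreserving skew muX muX :=
  (measurePreserving_add_right muY oneY).skew_product (g := fun y z => phi y - z)
    ((measurable_phi.comp measurable_fst).sub measurable_snd)
    (ae_of_all _ fun y => (Measure.measurePreserving_sub_left haar (phi y)).map_eq)

theorem mp_symm : MeasurePreserving skew.symm muX muX := mp_skew.symm skew

/-- The transformation of the result. -/
def T₀ : Space ≃ᵐ Space := skew.symm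

/-- The Hilbert space. -/
abbrev H : Type := Lp ℂ 2 muX

/-- The Koopman operator. -/
def V : H →ₗᵢ[ℂ] H := Lp.compMeasurePreservingₗᵢ ℂ _ mp_symm

/-- Its inverse. -/
def W : H →ₗᵢ[ℂ] H := Lp.compMeasurePreservingₗᵢ ℂ _ mp_skew

theorem V_coe (f : H) : V f =ᵐ[muX] f ∘ skew.symm := Lp.coeFn_compMeasurePreserving _ mp_symm

theorem W_coe (f : H) : W f =ᵐ[muX] f ∘ skew := Lp.coeFn_compMeasurePreserving _ mp_skew

theorem V_W (f : H) : V (W f) = f := by
  refine Lp.ext ?_
  filter_upwards [V_coe (W f), mp_symm.quasiMeasurePreserving.ae (W_coe f)] with p h1 h2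
  rw [h1, Function.comp_apply, h2, Function.comp_apply, MeasurableEquiv.apply_symm_apply]

theorem W_V (f : H) : W (V f) = f := by
  refine Lp.ext ?_
  filter_upwards [W_coe (V f), mp_skew.quasiMeasurePreserving.ae (V_coe f)] with p h1 h2
  rw [h1, Function.comp_apply, h2, Function.comp_apply, MeasurableEquiv.symm_apply_apply]

theorem inner_V (f g : H) : ⟪V f, V g⟫_ℂ = ⟪f, g⟫_ℂ := V.inner_map_map f g

/-- Signed frequency. -/
def freqAt (k : ℕ) (a : Bool) (r : ℕ) : ℤ := sgn a * k * (-1) ^ r

/-- Level functions. -/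
def genF (k : ℕ) (a : Bool) (n r : ℕ) (p : Space) : ℂ :=
  if lev n p.1 = r then (Real.sqrt (mm n) : ℂ) * fourier (freqAt k a r) (p.2 - Gm n r) else 0

theorem genF_measurable (k : ℕ) (a : Bool) (n r : ℕ) : Measurable (genF k a n r) :=
  Measurable.ite ((measurableSet_level n r).preimage measurable_fst)
    (measurable_const.mul ((map_continuous (fourier _)).measurable.comp
      (measurable_snd.sub_const _))) measurable_const

theorem genF_memLp (k : ℕ) (a : Bool) (n r : ℕ) : MemLp (genF k a n r) 2 muX := by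
  refine MemLp.of_bound (genF_measurable k a n r).aestronglyMeasurable (Real.sqrt (mm n))
    (ae_of_all _ fun p => ?_)
  unfold genF
  split_ifs
  · rw [norm_mul, norm_fourier_apply, mul_one, Complex.norm_real,
      Real.norm_of_nonneg (Real.sqrt_nonneg _)]
  · simp

/-- The level vectors. -/
def gen (k : ℕ) (a : Bool) (n r : ℕ) : H := (genF_memLp k a n r).toLp _

theorem gen_coe (k : ℕ) (a : Bool) (n r : ℕ) : gen k a n r =ᵐ[muX] genF k a n r :=
  MemLp.coeFn_toLp _

theorem sgn_not (a : Bool) : sgn (!a) = -sgn a := by cases a <;> rfl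

theorem sgn_flip (a : Bool) (i : ℕ) : sgn (flipB a i) = sgn a * (-1) ^ i := by
  rcases Nat.even_or_odd i with h | h
  · simp [flipB, h, h.neg_one_pow]
  · simp [flipB, Nat.not_even_iff_odd.2 h, h.neg_one_pow, sgn_not]

theorem genF_step (k : ℕ) (a : Bool) (n r : ℕ) (hr : r + 1 < mm n) (p : Space) :
    genF k a n (r + 1) (skew p) = genF k a n r p := by
  rw [skew_apply, genF, genF, lev_add_one]
  have hl := lev_lt n p.1
  have hiff : (lev n p.1 + 1) % mm n = r + 1 ↔ lev n p.1 = r := by
    rcases lt_or_ge (lev n p.1 + 1) (mm n) with h | h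
    · rw [Nat.mod_eq_of_lt h]; omega
    · rw [show lev n p.1 + 1 = mm n by omega, Nat.mod_self]; omega
  by_cases h : lev n p.1 = r
  · rw [if_pos h, if_pos (hiff.2 h)]
    congr 1
    rw [show freqAt k a (r + 1) = -freqAt k a r by simp [freqAt, pow_succ],
      phi_eq (by omega : lev n p.1 + 1 < mm n), h, Phi,
      show Gm n r + Gm n (r + 1) - p.2 - Gm n (r + 1) = -(p.2 - Gm n r) by abel]
    simp only [fourier_apply, neg_smul, smul_neg, neg_neg]
  · rw [if_neg h, if_neg (fun hc => h (hiff.1 hc))]

theorem V_gen (k : ℕ) (a : Bool) (n r : ℕ) (hr : r + 1 < mm n) :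
    V (gen k a n r) = gen k a n (r + 1) := by
  refine Lp.ext ?_
  filter_upwards [V_coe (gen k a n r), mp_symm.quasiMeasurePreserving.ae (gen_coe k a n r),
    gen_coe k a n (r + 1)] with p h1 h2 h3
  rw [h1, Function.comp_apply, h2, h3, ← genF_step k a n r hr, MeasurableEquiv.apply_symm_apply]

theorem W_gen (k : ℕ) (a : Bool) (n r : ℕ) (hr : r + 1 < mm n) :
    W (gen k a n (r + 1)) = gen k a n r := by
  rw [← V_gen k a n r hr, W_V]

theorem inner_gen_eq (k k' : ℕ) (a a' : Bool) (n n' r r' : ℕ) :
    ⟪gen k a n r, gen k' a' n' r'⟫_ℂ =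
      muY.real (level n r ∩ level n' r') * (Real.sqrt (mm n) * Real.sqrt (mm n') : ℝ) *
        (conj (fourier (freqAt k a r) (-Gm n r)) * fourier (freqAt k' a' r') (-Gm n' r') *
          (if freqAt k' a' r' - freqAt k a r = 0 then 1 else 0)) := by
  rw [L2.inner_def]
  set c := freqAt k a r
  set c' := freqAt k' a' r'
  have h : ∀ᵐ p ∂muX, ⟪(gen k a n r : Space → ℂ) p, (gen k' a' n' r' : Space → ℂ) p⟫_ℂ =
      (level n r ∩ level n' r').indicator (fun _ => (1 : ℂ)) p.1 *
        (((Real.sqrt (mm n) * Real.sqrt (mm n') : ℝ) : ℂ) *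
          (conj (fourier c (-Gm n r)) * fourier c' (-Gm n' r')) * fourier (c' - c) p.2) := by
    filter_upwards [gen_coe k a n r, gen_coe k' a' n' r'] with p h1 h2
    rw [h1, h2, RCLike.inner_apply', genF, genF]
    by_cases hA : lev n p.1 = r <;> by_cases hB : lev n' p.1 = r'
    · rw [if_pos hA, if_pos hB, Set.indicator_of_mem (show p.1 ∈ level n r ∩ level n' r' from
        ⟨hA, hB⟩), map_mul, Complex.conj_ofReal, sub_eq_add_neg p.2, sub_eq_add_neg p.2,
        fourier_arg_add, fourier_arg_add, map_mul, sub_eq_add_neg c' c, fourier_add, fourier_neg]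
      push_cast
      ring
    all_goals
      rw [Set.indicator_of_notMem (fun hc : p.1 ∈ level n r ∩ level n' r' => by
        simp [level, hA, hB] at hc), zero_mul]
      simp [hA, hB]
  rw [integral_congr_ae h, muX,
    integral_prod_mul (fun y => (level n r ∩ level n' r').indicator (fun _ => (1 : ℂ)) y)
      (fun z => ((Real.sqrt (mm n) * Real.sqrt (mm n') : ℝ) : ℂ) *
        (conj (fourier c (-Gm n r)) * fourier c' (-Gm n' r')) * fourier (c' - c) z),
    integral_indicator_const _
    ((measurableSet_level n r).inter (measurableSet_level n' r')), integral_const_mul,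
    integral_fourier]
  simp only [Complex.real_smul]
  push_cast
  ring

theorem inner_gen_of_freq_ne {k k' : ℕ} {a a' : Bool} {n n' r r' : ℕ}
    (h : freqAt k a r ≠ freqAt k' a' r') : ⟪gen k a n r, gen k' a' n' r'⟫_ℂ = 0 := by
  rw [inner_gen_eq, if_neg (sub_ne_zero.2 (Ne.symm h))]
  simp

theorem inner_gen_of_k_ne {k k' : ℕ} (h : k ≠ k') (a a' : Bool) (n n' r r' : ℕ) :
    ⟪gen k a n r, gen k' a' n' r'⟫_ℂ = 0 := by
  refine inner_gen_of_freq_ne fun hc => h ?_
  have := congrArg Int.natAbs hc
  simpa [freqAt, Int.natAbs_mul, Int.natAbs_pow, sgn, apply_ite Int.natAbs] using this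

theorem inner_gen_of_level_ne {k k' : ℕ} (a a' : Bool) {n r r' : ℕ} (h : r ≠ r') :
    ⟪gen k a n r, gen k' a' n r'⟫_ℂ = 0 := by
  have : level n r ∩ level n r' = ∅ :=
    Set.eq_empty_iff_forall_notMem.2 fun y hy => h (hy.1.symm.trans hy.2)
  rw [inner_gen_eq, this]
  simp

theorem inner_gen_self {k : ℕ} (a : Bool) {n r : ℕ} (hr : r < mm n) :
    ⟪gen k a n r, gen k a n r⟫_ℂ = 1 := by
  rw [inner_gen_eq, Set.inter_self, muY_level n r hr, if_pos (sub_self _),
    Real.mul_self_sqrt (Nat.cast_nonneg _), mul_one, ← fourier_arg_neg, ← fourier_arg_add]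
  simp [(mm_pos n).ne']

theorem norm_gen {k : ℕ} (a : Bool) {n r : ℕ} (hr : r < mm n) : ‖gen k a n r‖ = 1 := by
  rw [norm_eq_sqrt_re_inner (𝕜 := ℂ), inner_gen_self a hr]
  simp

/-- The orthonormal family of a component at a stage. -/
theorem orthonormal_gen {k : ℕ} (hk : k ≠ 0) (n : ℕ) :
    Orthonormal ℂ (fun p : Bool × Fin (mm n) => gen k p.1 n p.2) := by
  rw [orthonormal_iff_ite]
  rintro ⟨a, r⟩ ⟨a', r'⟩
  by_cases h : r = r'
  · subst h
    by_cases ha : a = a'
    · subst ha; rw [if_pos rfl]; exact inner_gen_self a r.2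
    · rw [if_neg (by simp [ha])]
      refine inner_gen_of_freq_ne fun hc => ha ?_
      cases a <;> cases a' <;> simp [freqAt, sgn] at hc ⊢
      all_goals
        rcases neg_one_pow_eq_or ℤ (r : ℕ) with hp | hp <;> rw [hp] at hc <;> omega
  · rw [if_neg (by simp [h])]
    exact inner_gen_of_level_ne a a' fun hc => h (Fin.ext hc)

/-- The refinement coefficient. -/
def coef (k : ℕ) (a : Bool) (n i : ℕ) : ℂ :=
  (cq (stageK n) (stageL n) : ℂ) * ex (sgn a * k * gam (stageK n) (stageL n) i)

theorem norm_coef (k : ℕ) (a : Bool) (n i : ℕ) :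
    ‖coef k a n i‖ = cq (stageK n) (stageL n) := by
  rw [coef, norm_mul, norm_ex, mul_one, Complex.norm_real, Real.norm_of_nonneg (cq_nonneg _ _)]

theorem cq_eq (n : ℕ) : cq (stageK n) (stageL n) = (Real.sqrt (qq n))⁻¹ := rfl

theorem digit_lt {n i r : ℕ} (hi : i < qq n) (hr : r < mm n) : r + i * mm n < mm (n + 1) := by
  rw [mm_succ, Nat.mul_comm (mm n)]
  have := Nat.mul_le_mul_right (mm n) (Nat.succ_le_of_lt hi)
  rw [Nat.succ_mul] at this
  omega

theorem genF_refine (k : ℕ) (a : Bool) (n r : ℕ) (hr : r < mm n) (p : Space) :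
    genF k a n r p = ∑ i ∈ range (qq n),
      coef k a n i * genF k (flipB a i) (n + 1) (r + i * mm n) p := by
  have hm := lev_succ_mod n p.1
  set R := lev (n + 1) p.1 with hR
  by_cases h : lev n p.1 = r
  · have hi0 : R / mm n < qq n := Nat.div_lt_of_lt_mul (lev_lt (n + 1) p.1)
    have hRe : R = r + R / mm n * mm n := by
      have := Nat.mod_add_div R (mm n)
      rw [hm, h, Nat.mul_comm] at this
      omega
    rw [sum_eq_single (R / mm n)]
    · rw [genF, genF, if_pos h, ← hR, if_pos hRe]
      set i := R / mm n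
      have hmod : (r + i * mm n) % mm n = r := by
        rw [Nat.add_mul_mod_self_right, Nat.mod_eq_of_lt hr]
      have hdiv : (r + i * mm n) / mm n = i := by
        rw [Nat.add_mul_div_right _ _ (mm_pos n), Nat.div_eq_of_lt hr, Nat.zero_add]
      have hc : freqAt k (flipB a i) (r + i * mm n) = freqAt k a r := by
        simp only [freqAt, sgn_flip, pow_add, Nat.mul_comm i, pow_mul, (mm_odd n).neg_one_pow]
        rcases neg_one_pow_eq_or ℤ i with hp | hp <;> rw [hp] <;> ring
      have hsq : Real.sqrt (mm (n + 1)) = Real.sqrt (mm n) * Real.sqrt (qq n) := by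
        rw [mm_succ, Nat.cast_mul, Real.sqrt_mul (Nat.cast_nonneg _)]
      have hq : Real.sqrt (qq n) ≠ 0 :=
        (Real.sqrt_pos.2 (by exact_mod_cast (by have := qq_ge n; omega : 0 < qq n))).ne'
      simp only [Gm, hmod, hdiv, hc]
      rw [sub_add_eq_sub_sub, sub_eq_add_neg (p.2 - Gm n r), fourier_arg_add, ← AddCircle.coe_neg,
        fourier_coe, hsq, coef, cq_eq]
      have hone : ex (sgn a * k * gam (stageK n) (stageL n) i) *
          ex ((freqAt k a r : ℤ) * -((-1 : ℝ) ^ r * gam (stageK n) (stageL n) i)) = 1 := by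
        rw [← ex_add]
        have : ((freqAt k a r : ℤ) : ℝ) * -((-1 : ℝ) ^ r * gam (stageK n) (stageL n) i) =
            -(sgn a * k * gam (stageK n) (stageL n) i) := by
          simp only [freqAt]
          push_cast
          rcases neg_one_pow_eq_or ℝ r with hp | hp <;> rw [hp] <;> ring
        rw [this, add_neg_cancel]
        simpa using ex_int 0
      have hq' : ((Real.sqrt (qq n) : ℝ) : ℂ) ≠ 0 := by exact_mod_cast hq
      have hqq : ((Real.sqrt (qq n) : ℝ) : ℂ)⁻¹ * ((Real.sqrt (qq n) : ℝ) : ℂ) = 1 := inv_mul_cancel₀ hq'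
      push_cast
      linear_combination -((Real.sqrt (mm n) : ℝ) : ℂ) * fourier (freqAt k a r) (p.2 - Gm n r) *
        (((Real.sqrt (qq n) : ℝ) : ℂ)⁻¹ * ((Real.sqrt (qq n) : ℝ) : ℂ)) * hone -
        ((Real.sqrt (mm n) : ℝ) : ℂ) * fourier (freqAt k a r) (p.2 - Gm n r) * hqq
    · intro i _ hne
      rw [genF, ← hR, if_neg, mul_zero]
      intro hc
      apply hne
      rw [hc, Nat.add_mul_div_right _ _ (mm_pos n), Nat.div_eq_of_lt hr, Nat.zero_add]
    · intro hni
      exact absurd (mem_range.2 hi0) hni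
  · rw [genF, if_neg h]
    refine (sum_eq_zero fun i _ => ?_).symm
    rw [genF, ← hR, if_neg, mul_zero]
    intro hc
    apply h
    rw [← hm, hc, Nat.add_mul_mod_self_right, Nat.mod_eq_of_lt hr]

theorem gen_refine (k : ℕ) (a : Bool) (n r : ℕ) (hr : r < mm n) :
    gen k a n r = ∑ i ∈ range (qq n), coef k a n i • gen k (flipB a i) (n + 1) (r + i * mm n) := by
  refine Lp.ext ?_
  have h1 := Lp.coeFn_finsetSum (range (qq n))
    (fun i => coef k a n i • gen k (flipB a i) (n + 1) (r + i * mm n))
  have h2 : ∀ᵐ p ∂muX, ∀ i ∈ range (qq n),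
      ((coef k a n i • gen k (flipB a i) (n + 1) (r + i * mm n) : H) : Space → ℂ) p =
        coef k a n i * genF k (flipB a i) (n + 1) (r + i * mm n) p := by
    refine (ae_ball_iff (range (qq n)).countable_toSet).2 fun i _ => ?_
    filter_upwards [Lp.coeFn_smul (coef k a n i) (gen k (flipB a i) (n + 1) (r + i * mm n)),
      gen_coe k (flipB a i) (n + 1) (r + i * mm n)] with p h3 h4
    rw [h3, Pi.smul_apply, h4, smul_eq_mul]
  filter_upwards [gen_coe k a n r, h1, h2] with p h0 h1' h2'
  rw [h0, h1', Finset.sum_apply, genF_refine k a n r hr p]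
  exact (sum_congr rfl fun i hi => (h2' i hi)).symm

/-- Cylinder times character. -/
def cyl (n r : ℕ) (j : ℤ) : C(Space, ℂ) :=
  ⟨fun p => (if (p.1.1 n).val = r then (1 : ℂ) else 0) * fourier j p.2,
    ((continuous_of_discreteTopology (f := fun c : ZMod (mm n) =>
      if c.val = r then (1 : ℂ) else 0)).comp ((continuous_coord n).comp continuous_fst)).mul
        ((map_continuous (fourier j)).comp continuous_snd)⟩

theorem cyl_apply (n r : ℕ) (j : ℤ) (p : Space) :
    cyl n r j p = (if lev n p.1 = r then (1 : ℂ) else 0) * fourier j p.2 := rfl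

/-- The spanning set. -/
def cylSet : Set C(Space, ℂ) := Set.range fun t : ℕ × ℕ × ℤ => cyl t.1 t.2.1 t.2.2

theorem cyl_mul {n n' : ℕ} (h : n ≤ n') (r r' : ℕ) (j j' : ℤ) :
    cyl n r j * cyl n' r' j' ∈ Submodule.span ℂ cylSet := by
  by_cases hr : r' % mm n = r
  · refine Submodule.subset_span ⟨(n', r', j + j'), ?_⟩
    ext p
    simp only [ContinuousMap.mul_apply, cyl_apply, fourier_add]
    by_cases h1 : lev n' p.1 = r'
    · rw [if_pos h1, if_pos (by rw [← lev_mod h p.1, h1, hr])]; ring
    · rw [if_neg h1]; ring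
  · rw [show cyl n r j * cyl n' r' j' = 0 by
      ext p
      simp only [ContinuousMap.mul_apply, cyl_apply, ContinuousMap.zero_apply]
      by_cases h1 : lev n' p.1 = r'
      · rw [if_neg (show ¬lev n p.1 = r by rw [← lev_mod h p.1, h1]; exact hr)]; ring
      · rw [if_neg h1]; ring]
    exact Submodule.zero_mem _

/-- The algebra spanned by cylinder characters. -/
def cylAlgebra : StarSubalgebra ℂ C(Space, ℂ) where
  toSubalgebra := (Submodule.span ℂ cylSet).toSubalgebra
    (Submodule.subset_span ⟨(0, 0, 0), by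
      ext p
      have : lev 0 p.1 = 0 := Nat.lt_one_iff.1 (lev_lt 0 p.1)
      simp [cyl_apply, this]⟩)
    (fun x y hx hy => by
      induction hx, hy using Submodule.span_induction₂ with
      | mem_mem x y hx hy =>
        obtain ⟨⟨n, r, j⟩, rfl⟩ := hx
        obtain ⟨⟨n', r', j'⟩, rfl⟩ := hy
        rcases le_total n n' with h | h
        · exact cyl_mul h r r' j j'
        · rw [mul_comm]; exact cyl_mul h r' r j' j
      | zero_left y _ => simp
      | zero_right x _ => simp
      | add_left x y z _ _ _ h1 h2 => rw [add_mul]; exact Submodule.add_mem _ h1 h2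
      | add_right x y z _ _ _ h1 h2 => rw [mul_add]; exact Submodule.add_mem _ h1 h2
      | smul_left c x y _ _ h1 => rw [smul_mul_assoc]; exact Submodule.smul_mem _ c h1
      | smul_right c x y _ _ h1 => rw [mul_smul_comm]; exact Submodule.smul_mem _ c h1)
  star_mem' := by
    intro x hx
    change star x ∈ Submodule.span ℂ cylSet
    change x ∈ Submodule.span ℂ cylSet at hx
    induction hx using Submodule.span_induction with
    | mem x hx =>
      obtain ⟨⟨n, r, j⟩, rfl⟩ := hx
      refine Submodule.subset_span ⟨(n, r, -j), ?_⟩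
      ext p
      simp only [ContinuousMap.star_apply, cyl_apply, fourier_neg]
      by_cases h : lev n p.1 = r <;> simp [h]
    | zero => simp
    | add x y _ _ h1 h2 => rw [star_add]; exact Submodule.add_mem _ h1 h2
    | smul c x _ h1 => rw [star_smul]; exact Submodule.smul_mem _ _ h1

theorem cylAlgebra_separates : cylAlgebra.toSubalgebra.SeparatesPoints := by
  intro p q hpq
  by_cases h : p.1 = q.1
  · have h2 : p.2 ≠ q.2 := fun h2 => hpq (Prod.ext h h2)
    refine ⟨_, ⟨cyl 0 0 1, Submodule.subset_span ⟨(0, 0, 1), rfl⟩, rfl⟩, ?_⟩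
    have h0 : ∀ y, lev 0 y = 0 := fun y => Nat.lt_one_iff.1 (lev_lt 0 y)
    simp only [cyl_apply, h0, if_true, one_mul, fourier_one]
    intro hc
    exact h2 (AddCircle.injective_toCircle one_ne_zero (Subtype.coe_injective hc))
  · obtain ⟨n, hn⟩ : ∃ n, p.1.1 n ≠ q.1.1 n := by
      by_contra hc; push Not at hc; exact h (Subtype.ext (funext hc))
    refine ⟨_, ⟨cyl n (lev n p.1) 0, Submodule.subset_span ⟨(n, lev n p.1, 0), rfl⟩, rfl⟩, ?_⟩
    have : lev n q.1 ≠ lev n p.1 := fun hc => hn (ZMod.val_injective _ hc.symm)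
    simp [cyl_apply, this]

/-- Only the zero vector is orthogonal to all level vectors. -/
theorem eq_zero_of_orthogonal (h : H)
    (ho : ∀ k a n r, r < mm n → ⟪gen k a n r, h⟫_ℂ = 0) : h = 0 := by
  have hspan : (Submodule.span ℂ cylSet).topologicalClosure = ⊤ := by
    have := congrArg (fun A : StarSubalgebra ℂ C(Space, ℂ) => Subalgebra.toSubmodule A.toSubalgebra)
      (ContinuousMap.starSubalgebra_topologicalClosure_eq_top_of_separatesPoints cylAlgebra
        cylAlgebra_separates)
    exact this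
  have hd := (ContinuousMap.toLp_denseRange ℂ muX ℂ
    (p := 2) (by simp)).topologicalClosure_map_submodule hspan
  rw [Submodule.map_span] at hd
  have hall : ∀ g ∈ (Submodule.span ℂ
      ((ContinuousMap.toLp (E := ℂ) 2 muX ℂ : C(Space, ℂ) →L[ℂ] H) '' cylSet)).topologicalClosure,
      ⟪g, h⟫_ℂ = 0 := by
    intro g hg
    suffices hsub : Submodule.span ℂ
        ((ContinuousMap.toLp (E := ℂ) 2 muX ℂ : C(Space, ℂ) →L[ℂ] H) '' cylSet) ≤ (ℂ ∙ h)ᗮ from
      Submodule.mem_orthogonal_singleton_iff_inner_left.1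
        (Submodule.topologicalClosure_minimal _ hsub (Submodule.isClosed_orthogonal _) hg)
    · rw [Submodule.span_le]
      rintro _ ⟨_, ⟨⟨n, r, j⟩, rfl⟩, rfl⟩
      rw [SetLike.mem_coe, Submodule.mem_orthogonal_singleton_iff_inner_left]
      by_cases hr : r < mm n
      · obtain ⟨k, a, hka⟩ : ∃ k : ℕ, ∃ a : Bool, freqAt k a r = j := by
          refine ⟨j.natAbs, decide (0 ≤ j * (-1) ^ r), ?_⟩
          rcases neg_one_pow_eq_or ℤ r with hp | hp <;> simp only [freqAt, hp, sgn] <;>
            split_ifs with hd <;> simp at hd <;> omega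
        have e : (ContinuousMap.toLp (E := ℂ) 2 muX ℂ (cyl n r j) : H) =
            (fourier j (Gm n r) * ((Real.sqrt (mm n) : ℂ))⁻¹) • gen k a n r := by
          refine Lp.ext ?_
          filter_upwards [ContinuousMap.coeFn_toLp (p := 2) (𝕜 := ℂ) muX (cyl n r j),
            Lp.coeFn_smul (fourier j (Gm n r) * ((Real.sqrt (mm n) : ℂ))⁻¹) (gen k a n r),
            gen_coe k a n r] with p h1 h2 h3
          rw [h1, h2, Pi.smul_apply, h3, cyl_apply, genF, smul_eq_mul, hka]
          have hs : ((Real.sqrt (mm n) : ℝ) : ℂ) ≠ 0 := by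
            exact_mod_cast (Real.sqrt_pos.2 (by exact_mod_cast mm_pos n)).ne'
          by_cases hc : lev n p.1 = r
          · rw [if_pos hc, if_pos hc, one_mul]
            conv_lhs => rw [show p.2 = Gm n r + (p.2 - Gm n r) by abel, fourier_arg_add]
            field_simp
          · simp [hc]
        rw [e, inner_smul_left, ho k a n r hr, mul_zero]
      · have e : (ContinuousMap.toLp (E := ℂ) 2 muX ℂ (cyl n r j) : H) = 0 := by
          refine Lp.ext ?_
          filter_upwards [ContinuousMap.coeFn_toLp (p := 2) (𝕜 := ℂ) muX (cyl n r j),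
            Lp.coeFn_zero ℂ 2 muX] with p h1 h2
          rw [h1, h2, cyl_apply, if_neg (fun hc : lev n p.1 = r => hr (hc ▸ lev_lt n p.1)), zero_mul]
          rfl
        rw [e, inner_zero_left]
  simp only [ContinuousLinearMap.coe_coe] at hd
  rw [hd] at hall
  exact inner_self_eq_zero.1 (hall h Submodule.mem_top)

end Vale.Agent.P130
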